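import Crest.Agent.R132.Defs

/-!
# Piece DIV2, helpers: agreement to order `n` on the spectrum and divisibility by the
characteristic polynomial.
-/

set_option autoImplicit false
open Metric Set Polynomial

namespace Crest.Agent.R132

theorem poly_order (d : Polynomial ℂ) (hd : d ≠ 0) (μ : ℂ) :
    analyticOrderAt (fun z => d.eval z) μ = (d.rootMultiplicity μ : ℕ∞) := by
  have hda : AnalyticAt ℂ (fun z => d.eval z) μ :=
    (Polynomial.differentiable d).analyticAt μ
  rw [hda.analyticOrderAt_eq_natCast]
  obtain ⟨q, hq, hnd⟩ := Polynomial.exists_eq_pow_rootMultiplicity_mul_and_not_dvd d hd μ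
  refine ⟨fun z => q.eval z, (Polynomial.differentiable q).analyticAt μ, ?_, ?_⟩
  · intro h
    exact hnd (Polynomial.dvd_iff_isRoot.mpr h)
  · refine Filter.Eventually.of_forall fun z => ?_
    conv_lhs => rw [hq]
    simp

open Crest.AnalysisR.NumRange in
theorem agrees_div_aux {n : ℕ} (A : Matrix (Fin n) (Fin n) ℂ) (V : Set ℂ)
    (hV : IsOpen V) (hA : spectrum ℂ A ⊆ V) (f : ℂ → ℂ) (hf : DifferentiableOn ℂ f V)
    (p : Polynomial ℂ) (hp : AgreesOnSpectrum A f p)
    (hdiv : ∃ (r : Polynomial ℂ) (k : ℂ → ℂ), DifferentiableOn ℂ k V ∧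
      ∀ z ∈ V, f z = r.eval z + A.charpoly.eval z * k z) :
    ∃ k : ℂ → ℂ, DifferentiableOn ℂ k V ∧
      ∀ z ∈ V, f z = p.eval z + A.charpoly.eval z * k z := by
  classical
  obtain ⟨r, k, hk, hfk⟩ := hdiv
  have hχ0 : A.charpoly ≠ 0 := (Matrix.charpoly_monic A).ne_zero
  have hdvd : A.charpoly ∣ p - r := by
    by_cases hpr : p - r = 0
    · rw [hpr]; exact dvd_zero _
    have hsplit := (IsAlgClosed.splits A.charpoly).eq_prod_roots_of_monic
      (Matrix.charpoly_monic A)
    rw [hsplit, Multiset.prod_X_sub_C_dvd_iff_le_roots hpr, Multiset.le_iff_count]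
    intro μ
    rw [Polynomial.count_roots, Polynomial.count_roots]
    by_cases hμ : A.charpoly.IsRoot μ
    · have hμs : μ ∈ spectrum ℂ A := Matrix.mem_spectrum_iff_isRoot_charpoly.mpr hμ
      have hμV : μ ∈ V := hA hμs
      have hVn : V ∈ nhds μ := hV.mem_nhds hμV
      have hfa : AnalyticAt ℂ f μ := hf.analyticAt hVn
      have hka : AnalyticAt ℂ k μ := hk.analyticAt hVn
      have hpa : AnalyticAt ℂ (fun z => p.eval z) μ :=
        (Polynomial.differentiable p).analyticAt μ
      have hχa : AnalyticAt ℂ (fun z => A.charpoly.eval z) μ :=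
        (Polynomial.differentiable A.charpoly).analyticAt μ
      have hmn : A.charpoly.rootMultiplicity μ ≤ n := by
        have h1 : A.charpoly.rootMultiplicity μ ≤ Multiset.card A.charpoly.roots := by
          rw [← Polynomial.count_roots]
          exact Multiset.count_le_card _ _
        have h2 := A.charpoly.card_roots'
        rw [Matrix.charpoly_natDegree_eq_dim, Fintype.card_fin] at h2
        exact h1.trans h2
      have h3 : (n : ℕ∞) ≤ analyticOrderAt (f - fun z => p.eval z) μ := by
        rw [natCast_le_analyticOrderAt_iff_iteratedDeriv_eq_zero (hfa.sub hpa)]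
        intro j hj
        rw [iteratedDeriv_sub (hfa.contDiffAt) (hpa.contDiffAt), hp μ hμs j hj, sub_self]
      have h4 : (A.charpoly.rootMultiplicity μ : ℕ∞) ≤
          analyticOrderAt ((fun z => A.charpoly.eval z) * k) μ := by
        rw [analyticOrderAt_mul hχa hka, poly_order _ hχ0]
        exact le_self_add
      have h5 : (A.charpoly.rootMultiplicity μ : ℕ∞) ≤
          analyticOrderAt ((fun z => A.charpoly.eval z) * k - (f - fun z => p.eval z)) μ :=
        (le_min h4 ((by exact_mod_cast hmn : (A.charpoly.rootMultiplicity μ : ℕ∞) ≤ n).trans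
          h3)).trans le_analyticOrderAt_sub
      have h6 : analyticOrderAt ((fun z => A.charpoly.eval z) * k - (f - fun z => p.eval z)) μ =
          analyticOrderAt (fun z => (p - r).eval z) μ := by
        apply analyticOrderAt_congr
        filter_upwards [hVn] with z hz
        simp only [Pi.sub_apply, Pi.mul_apply, Polynomial.eval_sub]
        rw [hfk z hz]
        ring
      rw [h6, poly_order _ hpr] at h5
      exact_mod_cast h5
    · rw [Polynomial.rootMultiplicity_eq_zero hμ]
      exact Nat.zero_le _
  obtain ⟨s, hs⟩ := hdvd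
  refine ⟨fun z => k z - s.eval z, hk.sub (Polynomial.differentiable s).differentiableOn, ?_⟩
  intro z hz
  have h7 : p.eval z = r.eval z + A.charpoly.eval z * s.eval z := by
    have : p = r + A.charpoly * s := by rw [← hs]; ring
    rw [this]; simp
  rw [hfk z hz, h7]
  ring

end Crest.Agent.R132
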