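import Crest.Agent.R132.Defs
import Crest.Agent.R132.DivAux

/-!
# Piece DIV : division of a holomorphic function by the characteristic polynomial

Newton interpolation: for a list/multiset of points `λ_1, ..., λ_n ∈ V` and `q` holomorphic on the open set `V`:
`q z = r(z) + ∏ (z - λ_i) k(z)`, `r` polynomial, `k` holomorphic on `V`.  Induction on the list: apply the
statement to `dslope q λ_1`, which is holomorphic on `V` (removable singularity:
`DifferentiableOn` of `dslope` on an open set, `Complex.differentiableOn_dslope`), and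
`q z = q λ_1 + (z - λ_1) dslope q λ_1 z`.
The characteristic polynomial splits: `A.charpoly = ∏ (X - C λ_i)` over its roots (monic, `IsAlgClosed`), and the roots
are in the spectrum.

`agrees_div`: if `p` agrees with `f` to order `n` on the spectrum of the `n × n` matrix `A` then the same holds with
`r = p`: `f = r + χ k`, so `p - r` has all derivatives of order `< n` equal to those of `χ k` at `μ` in the spectrum, and `χ k` vanishes
to order = multiplicity of `μ` in `χ` (which is `≤ n`); hence `p - r` is divisible by `χ` (root multiplicities).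
-/

set_option autoImplicit false
open Metric Set

namespace Crest.Agent.R132

theorem newton_div (V : Set ℂ) (hV : IsOpen V) (l : List ℂ) (hl : ∀ x ∈ l, x ∈ V) (q : ℂ → ℂ)
    (hq : DifferentiableOn ℂ q V) :
    ∃ (r : Polynomial ℂ) (k : ℂ → ℂ), DifferentiableOn ℂ k V ∧
      ∀ z ∈ V, q z = r.eval z + ((l.map (fun x => z - x)).prod) * k z := by
  induction l generalizing q with
  | nil => exact ⟨0, q, hq, fun z _ => by simp⟩
  | cons x l ih =>
    have hx : x ∈ V := hl x (by simp)
    have hd : DifferentiableOn ℂ (dslope q x) V :=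
      (Complex.differentiableOn_dslope (hV.mem_nhds hx)).2 hq
    obtain ⟨r, k, hk, h⟩ := ih (fun y hy => hl y (by simp [hy])) (dslope q x) hd
    refine ⟨Polynomial.C (q x) + (Polynomial.X - Polynomial.C x) * r, k, hk, fun z hz => ?_⟩
    have h1 : q z = q x + (z - x) * dslope q x z := by
      have h2 := sub_smul_dslope q x z
      rw [smul_eq_mul] at h2
      rw [h2]; ring
    rw [h1, h z hz]
    simp only [Polynomial.eval_add, Polynomial.eval_C, Polynomial.eval_mul, Polynomial.eval_sub,
      Polynomial.eval_X, List.map_cons, List.prod_cons]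
    ring

theorem div_hol {n : Type} [Fintype n] [DecidableEq n] (A : Matrix n n ℂ) (V : Set ℂ)
    (hV : IsOpen V) (hA : spectrum ℂ A ⊆ V) (q : ℂ → ℂ) (hq : DifferentiableOn ℂ q V) :
    ∃ (r : Polynomial ℂ) (k : ℂ → ℂ), DifferentiableOn ℂ k V ∧
      ∀ z ∈ V, q z = r.eval z + A.charpoly.eval z * k z := by
  obtain ⟨r, k, hk, h⟩ := newton_div V hV A.charpoly.roots.toList
    (fun x hx => hA (Matrix.mem_spectrum_iff_isRoot_charpoly.2
      (Polynomial.isRoot_of_mem_roots (Multiset.mem_toList.1 hx)))) q hq
  refine ⟨r, k, hk, fun z hz => ?_⟩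
  rw [h z hz, (IsAlgClosed.splits A.charpoly).eval_eq_prod_roots_of_monic A.charpoly_monic z]
  congr 2
  conv_rhs => rw [← Multiset.coe_toList A.charpoly.roots]
  rw [Multiset.map_coe, Multiset.prod_coe]

open Crest.AnalysisR.NumRange in
theorem agrees_div {n : ℕ} (A : Matrix (Fin n) (Fin n) ℂ) (V : Set ℂ)
    (hV : IsOpen V) (hA : spectrum ℂ A ⊆ V) (f : ℂ → ℂ) (hf : DifferentiableOn ℂ f V)
    (p : Polynomial ℂ) (hp : AgreesOnSpectrum A f p) :
    ∃ k : ℂ → ℂ, DifferentiableOn ℂ k V ∧
      ∀ z ∈ V, f z = p.eval z + A.charpoly.eval z * k z :=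
  agrees_div_aux A V hV hA f hf p hp (div_hol A V hV hA f hf)

end Crest.Agent.R132
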