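import Crest.Agent.R132.Star1
import Crest.Agent.R132.Div

/-!
# Piece STAR2 : multiplicativity

`star (star g q1) q2 = star g (q1 * q2)`.  By `div_hol` (applied to every entry) and a finite basis expansion
`q1 = ∑_α r_α(z) • E_α + χ(z) • k1(z)`, the same for `q2` (`E_α = Matrix.single i j 1`).  Everything follows from `star_poly`, `star_charpoly`,
`star_add`: polynomial × polynomial: `r1(A) g E1` then `r2(A) (r1(A) g E1) E2 = (r1 r2)(A) g (E1 E2)`; terms with `χ` give `0`
(for `star (star g q1) q2` with the `χ`-part of `q1`: `star g (χ k1) = 0`).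
-/

set_option autoImplicit false
open Metric Set Matrix

namespace Crest.Agent.R132

variable {n a b c : Type} [Fintype n] [DecidableEq n] [Fintype a] [DecidableEq a]
  [Fintype b] [DecidableEq b] [Fintype c] [DecidableEq c]
  {e : Ext} {A : Matrix n n ℂ} {V : Set ℂ}

namespace Star2aux

theorem HolOn_charpoly_smul {k : ℂ → Matrix a b ℂ} (hk : HolOn V k) :
    HolOn V (fun z => A.charpoly.eval z • k z) := by
  intro i j
  have h1 : DifferentiableOn ℂ (fun z => A.charpoly.eval z) V :=
    A.charpoly.differentiable.differentiableOn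
  have h2 := h1.mul (hk i j)
  exact h2

theorem hol_ind (hs : Sit e A V) {P : (ℂ → Matrix a b ℂ) → Prop}
    (hcongr : ∀ q q', HolOn V q → (∀ z ∈ V, q z = q' z) → P q → P q')
    (hadd : ∀ q q', HolOn V q → HolOn V q' → P q → P q' → P (fun z => q z + q' z))
    (hpoly : ∀ (p : Polynomial ℂ) (Q : Matrix a b ℂ), P (fun z => p.eval z • Q))
    (hchi : ∀ k, HolOn V k → P (fun z => A.charpoly.eval z • k z))
    {q : ℂ → Matrix a b ℂ} (hq : HolOn V q) : P q := by
  have hA : spectrum ℂ A ⊆ V := (spectrum_subset_nrange A).trans hs.range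
  choose r k hk hrk using fun i j => div_hol A V hs.isOpen hA (fun z => q z i j) (hq i j)
  have hk' : HolOn V (fun z => Matrix.of fun i j => k i j z) := by
    intro i j
    exact hk i j
  have hsum : ∀ s : Finset (a × b),
      HolOn V (fun z => ∑ x ∈ s, (r x.1 x.2).eval z • Matrix.single x.1 x.2 (1 : ℂ)) ∧
      P (fun z => ∑ x ∈ s, (r x.1 x.2).eval z • Matrix.single x.1 x.2 (1 : ℂ)) := by
    intro s
    induction s using Finset.induction_on with
    | empty =>
      have h0 : (fun z : ℂ => ∑ x ∈ (∅ : Finset (a × b)),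
          (r x.1 x.2).eval z • Matrix.single x.1 x.2 (1 : ℂ)) =
          fun z => (0 : Polynomial ℂ).eval z • (0 : Matrix a b ℂ) := by
        funext z; simp
      rw [h0]
      exact ⟨HolOn.poly_smul _ _, hpoly _ _⟩
    | insert x s hx ih =>
      have h1 : (fun z : ℂ => ∑ x ∈ insert x s,
          (r x.1 x.2).eval z • Matrix.single x.1 x.2 (1 : ℂ)) =
          fun z => (r x.1 x.2).eval z • Matrix.single x.1 x.2 (1 : ℂ) +
            ∑ x ∈ s, (r x.1 x.2).eval z • Matrix.single x.1 x.2 (1 : ℂ) := by
        funext z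
        rw [Finset.sum_insert hx]
      rw [h1]
      exact ⟨HolOn.add (HolOn.poly_smul _ _) ih.1,
        hadd _ _ (HolOn.poly_smul _ _) ih.1 (hpoly _ _) ih.2⟩
  obtain ⟨hs1, hs2⟩ := hsum Finset.univ
  refine hcongr _ q (HolOn.add hs1 (HolOn_charpoly_smul (A := A) hk')) ?_
    (hadd _ _ hs1 (HolOn_charpoly_smul hk') hs2 (hchi _ hk'))
  intro z hz
  ext i j
  have h2 : (∑ x : a × b, (r x.1 x.2).eval z • Matrix.single x.1 x.2 (1 : ℂ)) i j =
      (r i j).eval z := by
    rw [Matrix.sum_apply, Finset.sum_eq_single (i, j)]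
    · simp
    · rintro ⟨i', j'⟩ _ hne
      rw [Matrix.smul_apply, Matrix.single_apply_of_ne]
      · simp
      · rintro ⟨h3, h4⟩
        exact hne (Prod.ext h3 h4)
    · intro h
      exact absurd (Finset.mem_univ _) h
  rw [Matrix.add_apply, h2, Matrix.smul_apply, Matrix.of_apply, hrk i j z hz, smul_eq_mul]

theorem star_star_poly (hs : Sit e A V) (g : Matrix n a ℂ) (p1 : Polynomial ℂ) (Q1 : Matrix a b ℂ)
    {q2 : ℂ → Matrix b c ℂ} (h2 : HolOn V q2) :
    star e A (star e A g (fun z => p1.eval z • Q1)) q2 =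
      star e A g (fun z => (p1.eval z • Q1) * q2 z) := by
  refine hol_ind hs (P := fun q2 => star e A (star e A g (fun z => p1.eval z • Q1)) q2 =
      star e A g (fun z => (p1.eval z • Q1) * q2 z)) ?_ ?_ ?_ ?_ h2
  · intro q q' _ hqq h
    rw [← star_congr hs _ hqq, h]
    refine star_congr hs g fun z hz => ?_
    rw [hqq z hz]
  · intro q q' hq hq' h h'
    rw [star_add hs _ hq hq', h, h', ← star_add hs g (HolOn.mul (HolOn.poly_smul _ _) hq)
      (HolOn.mul (HolOn.poly_smul _ _) hq')]
    congr 1
    funext z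
    rw [Matrix.mul_add]
  · intro p Q
    rw [star_poly hs, star_poly hs]
    have h3 : (fun z => (p1.eval z • Q1) * (p.eval z • Q)) =
        fun z => (p * p1).eval z • (Q1 * Q) := by
      funext z
      rw [Matrix.smul_mul, Matrix.mul_smul, smul_smul, Polynomial.eval_mul, mul_comm]
    rw [h3, star_poly hs, map_mul]
    simp only [Matrix.mul_assoc]
  · intro k hk
    rw [star_charpoly hs _ hk]
    have h3 : (fun z => (p1.eval z • Q1) * (A.charpoly.eval z • k z)) =
        fun z => A.charpoly.eval z • ((p1.eval z • Q1) * k z) := by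
      funext z
      rw [Matrix.mul_smul]
    rw [h3, star_charpoly hs _ (HolOn.mul (HolOn.poly_smul _ _) hk)]

end Star2aux

open Star2aux

theorem star_star (hs : Sit e A V) (g : Matrix n a ℂ) {q1 : ℂ → Matrix a b ℂ}
    {q2 : ℂ → Matrix b c ℂ} (h1 : HolOn V q1) (h2 : HolOn V q2) :
    star e A (star e A g q1) q2 = star e A g (fun z => q1 z * q2 z) := by
  refine hol_ind hs (P := fun q1 => star e A (star e A g q1) q2 =
      star e A g (fun z => q1 z * q2 z)) ?_ ?_ ?_ ?_ h1
  · intro q q' _ hqq h
    rw [← star_congr hs g hqq, h]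
    refine star_congr hs g fun z hz => ?_
    rw [hqq z hz]
  · intro q q' hq hq' h h'
    rw [star_add hs g hq hq', star_add_left hs _ _ h2, h, h',
      ← star_add hs g (HolOn.mul hq h2) (HolOn.mul hq' h2)]
    congr 1
    funext z
    rw [Matrix.add_mul]
  · intro p Q
    exact star_star_poly hs g p Q h2
  · intro k hk
    rw [star_charpoly hs g hk, star_zero_left]
    have h3 : (fun z => (A.charpoly.eval z • k z) * q2 z) =
        fun z => A.charpoly.eval z • (k z * q2 z) := by
      funext z
      rw [Matrix.smul_mul]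
    rw [h3, star_charpoly hs _ (HolOn.mul hk h2)]

end Crest.Agent.R132
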