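import Crest.Agent.R132.Defs

/-!
# Piece FROB : Frobenius norm and operator norm, elementary matrix facts

`frob X = trace (X * Xᴴ)` (as complex number), Cauchy-Schwarz for the trace pairing, `opn` is submultiplicative
(it is the norm of `Matrix.toEuclideanCLM`, a star algebra equivalence), `frob (v W) ≤ opn v ^ 2 * frob W` (column by column),
`frob (W v) ≤ opn v ^ 2 * frob W` (take conjugate transposes).
`block_psd_frob`: if `[[P, Qᴴ],[Q, R]]` is positive semidefinite then `frob Q ≤ √(frob P) √(frob R)`: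
e.g. write the block matrix as `Mᴴ M` with `M = [M1 M2]`, `P = M1ᴴ M1`, `R = M2ᴴ M2`, `Q = M2ᴴ M1`, so
`frob Q = tr (M1ᴴ M2 M2ᴴ M1) = tr ((M2 M2ᴴ) (M1 M1ᴴ)) ≤ √frob(M2 M2ᴴ) √frob(M1 M1ᴴ)`, and `frob (M Mᴴ) = frob (Mᴴ M)`.
-/

set_option autoImplicit false
open Matrix
open scoped ComplexOrder

namespace Crest.Agent.R132

variable {a b c : Type} [Fintype a] [DecidableEq a] [Fintype b] [DecidableEq b]
  [Fintype c] [DecidableEq c]

theorem frob_nonneg (X : Matrix a b ℂ) : 0 ≤ frob X :=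
  Finset.sum_nonneg fun _ _ => Finset.sum_nonneg fun _ _ => sq_nonneg _

theorem frob_eq_trace (X : Matrix a b ℂ) : ((frob X : ℝ) : ℂ) = (X * Xᴴ).trace := by
  simp only [frob, trace, diag_apply, mul_apply, conjTranspose_apply, Complex.ofReal_sum]
  refine Finset.sum_congr rfl fun i _ => Finset.sum_congr rfl fun j _ => ?_
  rw [Complex.star_def, Complex.mul_conj, Complex.normSq_eq_norm_sq]

theorem frob_eq_trace' (X : Matrix a b ℂ) : ((frob X : ℝ) : ℂ) = (Xᴴ * X).trace := by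
  rw [frob_eq_trace, trace_mul_comm]

theorem frob_conjTranspose (X : Matrix a b ℂ) : frob Xᴴ = frob X := by
  simp only [frob, conjTranspose_apply, norm_star]
  exact Finset.sum_comm

theorem frob_smul (z : ℂ) (X : Matrix a b ℂ) : frob (z • X) = ‖z‖ ^ 2 * frob X := by
  simp only [frob, Matrix.smul_apply, smul_eq_mul, norm_mul, mul_pow, Finset.mul_sum]

theorem frob_eq_zero (X : Matrix a b ℂ) : frob X = 0 ↔ X = 0 := by
  constructor
  · intro h
    rw [frob, Finset.sum_eq_zero_iff_of_nonneg fun _ _ => Finset.sum_nonneg fun _ _ => sq_nonneg _]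
      at h
    ext i j
    have h1 := h i (Finset.mem_univ i)
    rw [Finset.sum_eq_zero_iff_of_nonneg fun _ _ => sq_nonneg _] at h1
    have h2 := h1 j (Finset.mem_univ j)
    simpa using h2
  · rintro rfl
    simp [frob]

theorem norm_trace_mul_sq_le (X : Matrix a b ℂ) (Y : Matrix b a ℂ) :
    ‖(X * Y).trace‖ ^ 2 ≤ frob X * frob Y := by
  have h1 : ‖(X * Y).trace‖ ≤ ∑ p : a × b, ‖X p.1 p.2‖ * ‖Y p.2 p.1‖ := by
    simp only [trace, diag_apply, mul_apply]
    refine (norm_sum_le _ _).trans ?_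
    rw [Fintype.sum_prod_type]
    refine Finset.sum_le_sum fun i _ => (norm_sum_le _ _).trans ?_
    refine Finset.sum_le_sum fun j _ => ?_
    rw [norm_mul]
  have h2 := Finset.sum_mul_sq_le_sq_mul_sq (Finset.univ : Finset (a × b))
    (fun p => ‖X p.1 p.2‖) (fun p => ‖Y p.2 p.1‖)
  have h3 : ∑ p : a × b, ‖X p.1 p.2‖ ^ 2 = frob X := by
    rw [Fintype.sum_prod_type]; rfl
  have h4 : ∑ p : a × b, ‖Y p.2 p.1‖ ^ 2 = frob Y := by
    rw [Fintype.sum_prod_type, Finset.sum_comm]; rfl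
  rw [h3, h4] at h2
  refine le_trans ?_ h2
  exact pow_le_pow_left₀ (norm_nonneg _) h1 2

theorem opn_mul_le (X Y : Matrix a a ℂ) : opn (X * Y) ≤ opn X * opn Y := by
  unfold opn
  rw [map_mul]
  exact norm_mul_le _ _

theorem opn_conjTranspose (X : Matrix a a ℂ) : opn Xᴴ = opn X := by
  exact Matrix.l2_opNorm_conjTranspose X

/-- squared Euclidean norm of a vector as a dot product -/
theorem frobAux.norm_sq (x : EuclideanSpace ℂ a) :
    ((‖x‖ ^ 2 : ℝ) : ℂ) = Star.star x.ofLp ⬝ᵥ x.ofLp := by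
  rw [EuclideanSpace.norm_sq_eq, dotProduct, Complex.ofReal_sum]
  refine Finset.sum_congr rfl fun i _ => ?_
  rw [Pi.star_apply, Complex.star_def, mul_comm, Complex.mul_conj, Complex.normSq_eq_norm_sq]

theorem opn_le_one_iff (X : Matrix a a ℂ) : opn X ≤ 1 ↔ (1 - Xᴴ * X).PosSemidef := by
  have key : ∀ x : EuclideanSpace ℂ a, Star.star x.ofLp ⬝ᵥ ((1 - Xᴴ * X) *ᵥ x.ofLp) =
      ((‖x‖ ^ 2 - ‖toEuclideanCLM (n := a) (𝕜 := ℂ) X x‖ ^ 2 : ℝ) : ℂ) := by
    intro x
    rw [Complex.ofReal_sub, frobAux.norm_sq, frobAux.norm_sq, ofLp_toEuclideanCLM,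
      sub_mulVec, one_mulVec, dotProduct_sub, star_mulVec, ← dotProduct_mulVec, mulVec_mulVec]
  constructor
  · intro h
    refine .of_dotProduct_mulVec_nonneg ?_ fun x => ?_
    · rw [IsHermitian, conjTranspose_sub, conjTranspose_mul, conjTranspose_conjTranspose,
        conjTranspose_one]
    · have h1 := key (WithLp.toLp 2 x)
      rw [h1]
      rw [Complex.zero_le_real, sub_nonneg]
      have h2 : ‖toEuclideanCLM (n := a) (𝕜 := ℂ) X (WithLp.toLp 2 x)‖ ≤
          ‖(WithLp.toLp 2 x : EuclideanSpace ℂ a)‖ := by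
        have h3 := (toEuclideanCLM (n := a) (𝕜 := ℂ) X).le_opNorm (WithLp.toLp 2 x)
        refine h3.trans ?_
        exact (mul_le_mul_of_nonneg_right h (norm_nonneg _)).trans (one_mul _).le
      exact pow_le_pow_left₀ (norm_nonneg _) h2 2
  · intro h
    unfold opn
    refine ContinuousLinearMap.opNorm_le_bound _ zero_le_one fun x => ?_
    have h1 := h.dotProduct_mulVec_nonneg x.ofLp
    rw [key, Complex.zero_le_real, sub_nonneg] at h1
    rw [one_mul]
    exact (pow_le_pow_iff_left₀ (norm_nonneg _) (norm_nonneg _) two_ne_zero).mp h1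

theorem frob_mul_left_le (X : Matrix a a ℂ) (W : Matrix a b ℂ) :
    frob (X * W) ≤ opn X ^ 2 * frob W := by
  have h1 : ∀ j : b, ∑ i, ‖(X * W) i j‖ ^ 2 ≤ opn X ^ 2 * ∑ i, ‖W i j‖ ^ 2 := by
    intro j
    let x : EuclideanSpace ℂ a := WithLp.toLp 2 (fun i => W i j)
    have h2 := (toEuclideanCLM (n := a) (𝕜 := ℂ) X).le_opNorm x
    have h3 := pow_le_pow_left₀ (norm_nonneg _) h2 2
    rw [mul_pow, EuclideanSpace.norm_sq_eq, EuclideanSpace.norm_sq_eq] at h3
    exact h3
  unfold frob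
  rw [Finset.sum_comm, Finset.sum_comm (f := fun i j => ‖W i j‖ ^ 2), Finset.mul_sum]
  exact Finset.sum_le_sum fun j _ => h1 j

theorem frob_mul_right_le (X : Matrix b b ℂ) (W : Matrix a b ℂ) :
    frob (W * X) ≤ opn X ^ 2 * frob W := by
  rw [← frob_conjTranspose (W * X), conjTranspose_mul, ← opn_conjTranspose X,
    ← frob_conjTranspose W]
  exact frob_mul_left_le _ _

theorem frobAux.frob_gram (M : Matrix c a ℂ) : frob (M * Mᴴ) = frob (Mᴴ * M) := by
  have h : ((frob (M * Mᴴ) : ℝ) : ℂ) = ((frob (Mᴴ * M) : ℝ) : ℂ) := by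
    rw [frob_eq_trace, frob_eq_trace]
    simp only [conjTranspose_mul, conjTranspose_conjTranspose]
    rw [Matrix.mul_assoc, trace_mul_comm M]
    simp only [Matrix.mul_assoc]
  exact_mod_cast h

open scoped MatrixOrder Matrix.Norms.L2Operator in
theorem frobAux.exists_factor {d : Type} [Fintype d] [DecidableEq d] {M : Matrix d d ℂ}
    (h : M.PosSemidef) : ∃ B : Matrix d d ℂ, M = Bᴴ * B := by
  obtain ⟨B, rfl⟩ := CStarAlgebra.nonneg_iff_eq_star_mul_self.mp h.nonneg
  exact ⟨B, rfl⟩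

theorem block_psd_frob (P : Matrix a a ℂ) (Q : Matrix b a ℂ) (R : Matrix b b ℂ)
    (h : (Matrix.fromBlocks P Qᴴ Q R).PosSemidef) :
    frob Q ≤ Real.sqrt (frob P) * Real.sqrt (frob R) := by
  obtain ⟨B, hB⟩ := frobAux.exists_factor h
  let M1 : Matrix (a ⊕ b) a ℂ := B.submatrix id Sum.inl
  let M2 : Matrix (a ⊕ b) b ℂ := B.submatrix id Sum.inr
  have hP : P = M1ᴴ * M1 := by
    ext i j
    have := congrFun (congrFun hB (Sum.inl i)) (Sum.inl j)
    simpa [M1, mul_apply] using this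
  have hQ : Q = M2ᴴ * M1 := by
    ext i j
    have := congrFun (congrFun hB (Sum.inr i)) (Sum.inl j)
    simpa [M1, M2, mul_apply] using this
  have hR : R = M2ᴴ * M2 := by
    ext i j
    have := congrFun (congrFun hB (Sum.inr i)) (Sum.inr j)
    simpa [M2, mul_apply] using this
  have h1 : ((frob Q : ℝ) : ℂ) = ((M2 * M2ᴴ) * (M1 * M1ᴴ)).trace := by
    rw [frob_eq_trace', hQ, conjTranspose_mul, conjTranspose_conjTranspose,
      Matrix.mul_assoc M1ᴴ, trace_mul_comm M1ᴴ]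
    simp only [Matrix.mul_assoc]
  have h2 := norm_trace_mul_sq_le (M2 * M2ᴴ) (M1 * M1ᴴ)
  rw [← h1, Complex.norm_real, Real.norm_of_nonneg (frob_nonneg Q), frobAux.frob_gram,
    frobAux.frob_gram, ← hP, ← hR] at h2
  rw [← Real.sqrt_mul (frob_nonneg P), mul_comm]
  exact Real.le_sqrt_of_sq_le h2

end Crest.Agent.R132
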