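import Crest.Agent.R132.Star1
import Crest.Agent.R132.Frob

/-!
# Piece UPPER : upper bound for the mixed resolvent (numerical range condition)

Let `Rl = Xᴴ RA Y`, `R' = Yᴴ RA X`, `Ry = Yᴴ RA Y`, `Rx = Xᴴ RA X`.  `RA + RAᴴ ≥ 0` compressed with `[Y X]`:
`fromBlocks (Ry + Ryᴴ) (Rl + R'ᴴ)ᴴ (Rl + R'ᴴ) (Rx + Rxᴴ) ≥ 0` pointwise on the circle, so by `block_psd_frob`
`frob (Rl + R'ᴴ) ≤ √(frob (Ry + Ryᴴ)) √(frob (Rx + Rxᴴ))`.
Averages: `avR frob (Rl + R'ᴴ) = avR frob Rl + avR frob R' + 2 Re av trace (Rl * R')` and `Rl * R'` is exterior analytic with value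
`(Xᴴ Y)(Yᴴ X) = 0` at infinity; `avR frob (Ry + Ryᴴ) = 2 avR frob Ry + 2 Re av trace (Ry Ry) = 2 avR frob Ry + 2 frob (Yᴴ Y)`
(`Yᴴ Y` is Hermitian).  Cauchy-Schwarz `avR_mul_le`.
-/

set_option autoImplicit false
open Metric Set Matrix
open scoped ComplexOrder

namespace Crest.Agent.R132

variable {n a : Type} [Fintype n] [DecidableEq n] [Fintype a] [DecidableEq a]
  {e : Ext} {A : Matrix n n ℂ} {V : Set ℂ}

namespace UpperAux

omit [DecidableEq n] [DecidableEq a] in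
theorem cont_frob {M : ℂ → Matrix n a ℂ} (h : ∀ i j, ContinuousOn (fun t => M t i j) (sphere 0 1)) :
    ContinuousOn (fun t => frob (M t)) (sphere 0 1) := by
  unfold frob
  exact continuousOn_finsetSum _ fun i _ => continuousOn_finsetSum _ fun j _ =>
    ((h i j).norm).pow 2

/-- entries of a compression of the resolvent -/
theorem ext_comp (hs : Sit e A V) (X Y : Matrix n a ℂ) (i j : a) :
    ExtAn (fun t => (Xᴴ * RA e A t * Y) i j) ((Xᴴ * Y) i j) := by
  have h1 : (fun t => (Xᴴ * RA e A t * Y) i j) =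
      fun t => ∑ k, ∑ l, (Xᴴ i l * Y k j) * RA e A t l k := by
    funext t
    rw [Matrix.mul_apply]
    refine Finset.sum_congr rfl fun k _ => ?_
    rw [Matrix.mul_apply, Finset.sum_mul]
    refine Finset.sum_congr rfl fun l _ => ?_
    ring
  have h2 : (Xᴴ * Y) i j = ∑ k, ∑ l, (Xᴴ i l * Y k j) * ((1 : Matrix n n ℂ) l k) := by
    rw [Matrix.mul_apply]
    refine Finset.sum_congr rfl fun k _ => ?_
    simp [Matrix.one_apply]
  rw [h1, h2]
  exact ExtAn.sum _ _ _ fun k _ => ExtAn.sum _ _ _ fun l _ =>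
    ExtAn.const_mul _ (res_extAn hs l k)

theorem cont_comp (hs : Sit e A V) (X Y : Matrix n a ℂ) (i j : a) :
    ContinuousOn (fun t => (Xᴴ * RA e A t * Y) i j) (sphere 0 1) :=
  (ext_comp hs X Y i j).continuousOn

/-- trace of the product of two compressions -/
theorem ext_trace (hs : Sit e A V) (X Y Z W : Matrix n a ℂ) :
    ExtAn (fun t => ((Xᴴ * RA e A t * Y) * (Zᴴ * RA e A t * W)).trace)
      (((Xᴴ * Y) * (Zᴴ * W)).trace) := by
  have h1 : (fun t => ((Xᴴ * RA e A t * Y) * (Zᴴ * RA e A t * W)).trace) =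
      fun t => ∑ i, ∑ k, (Xᴴ * RA e A t * Y) i k * (Zᴴ * RA e A t * W) k i := by
    funext t
    simp only [Matrix.trace, Matrix.diag, Matrix.mul_apply (M := Xᴴ * RA e A t * Y)]
  have h2 : ((Xᴴ * Y) * (Zᴴ * W)).trace = ∑ i, ∑ k, (Xᴴ * Y) i k * (Zᴴ * W) k i := by
    simp only [Matrix.trace, Matrix.diag, Matrix.mul_apply (M := Xᴴ * Y)]
  rw [h1, h2]
  exact ExtAn.sum _ _ _ fun i _ => ExtAn.sum _ _ _ fun k _ =>
    (ext_comp hs X Y i k).mul (ext_comp hs Z W k i)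

omit [DecidableEq n] [Fintype n] in
theorem frob_add_conj (M N : Matrix a a ℂ) :
    frob (M + Nᴴ) = frob M + frob N + 2 * ((M * N).trace).re := by
  have h1 := frob_eq_trace (M + Nᴴ)
  have h2 := frob_eq_trace M
  have h3 := frob_eq_trace' N
  have h4 : ((M + Nᴴ) * (M + Nᴴ)ᴴ).trace =
      (M * Mᴴ).trace + (Nᴴ * N).trace + ((M * N).trace + Star.star ((M * N).trace)) := by
    rw [conjTranspose_add, conjTranspose_conjTranspose, Matrix.add_mul, Matrix.mul_add,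
      Matrix.mul_add, trace_add, trace_add, trace_add]
    have h5 : (Nᴴ * Mᴴ).trace = Star.star ((M * N).trace) := by
      rw [← conjTranspose_mul, trace_conjTranspose]
    rw [h5]
    ring
  rw [← h1, ← h2, ← h3] at h4
  have h6 := congrArg Complex.re h4
  simp only [Complex.add_re, Complex.ofReal_re, Complex.star_def, Complex.conj_re] at h6
  linarith

/-- mean of the Frobenius norm of a sum -/
theorem avR_frob_add (hs : Sit e A V) (X Y Z W : Matrix n a ℂ) :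
    avR (fun t => frob ((Xᴴ * RA e A t * Y) + (Zᴴ * RA e A t * W)ᴴ)) =
      avR (fun t => frob (Xᴴ * RA e A t * Y)) + avR (fun t => frob (Zᴴ * RA e A t * W)) +
        2 * (((Xᴴ * Y) * (Zᴴ * W)).trace).re := by
  have h1 : avR (fun t => frob ((Xᴴ * RA e A t * Y) + (Zᴴ * RA e A t * W)ᴴ)) =
      avR (fun t => (frob (Xᴴ * RA e A t * Y) + frob (Zᴴ * RA e A t * W)) +
        2 * (((Xᴴ * RA e A t * Y) * (Zᴴ * RA e A t * W)).trace).re) := by
    congr 1
    funext t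
    exact frob_add_conj _ _
  have c1 := cont_frob (M := fun t => Xᴴ * RA e A t * Y) (cont_comp hs X Y)
  have c2 := cont_frob (M := fun t => Zᴴ * RA e A t * W) (cont_comp hs Z W)
  have c3 := (ext_trace hs X Y Z W).continuousOn
  have c4 : ContinuousOn (fun t => (((Xᴴ * RA e A t * Y) * (Zᴴ * RA e A t * W)).trace).re)
      (sphere 0 1) := Complex.continuous_re.comp_continuousOn c3
  rw [h1, avR_add (φ := fun t => frob (Xᴴ * RA e A t * Y) + frob (Zᴴ * RA e A t * W))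
    (ψ := fun t => 2 * (((Xᴴ * RA e A t * Y) * (Zᴴ * RA e A t * W)).trace).re)
    (c1.add c2) (continuousOn_const.mul c4), avR_add c1 c2, avR_const_mul,
    avR_re c3, (ext_trace hs X Y Z W).av_eq]

end UpperAux

open UpperAux in
theorem upper (hs : Sit e A V) (X Y : Matrix n a ℂ) (hXY : Xᴴ * Y = 0) :
    avR (fun t => frob (Xᴴ * RA e A t * Y))
      ≤ Real.sqrt (2 * (avR (fun t => frob (Xᴴ * RA e A t * X)) + frob (Xᴴ * X)))
        * Real.sqrt (2 * (avR (fun t => frob (Yᴴ * RA e A t * Y)) + frob (Yᴴ * Y))) := by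
  -- diagonal terms
  have hdiag : ∀ Z : Matrix n a ℂ,
      avR (fun t => frob ((Zᴴ * RA e A t * Z) + (Zᴴ * RA e A t * Z)ᴴ)) =
        2 * (avR (fun t => frob (Zᴴ * RA e A t * Z)) + frob (Zᴴ * Z)) := by
    intro Z
    rw [avR_frob_add hs Z Z Z Z]
    have h1 := frob_eq_trace (Zᴴ * Z)
    have h2 : (Zᴴ * Z)ᴴ = Zᴴ * Z := by
      rw [conjTranspose_mul, conjTranspose_conjTranspose]
    rw [h2] at h1
    rw [← h1, Complex.ofReal_re]
    ring
  have hoff : avR (fun t => frob ((Xᴴ * RA e A t * Y) + (Yᴴ * RA e A t * X)ᴴ)) =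
      avR (fun t => frob (Xᴴ * RA e A t * Y)) + avR (fun t => frob (Yᴴ * RA e A t * X)) := by
    rw [avR_frob_add hs X Y Y X, hXY, Matrix.zero_mul, trace_zero]
    simp
  have h0 : 0 ≤ avR (fun t => frob (Yᴴ * RA e A t * X)) :=
    avR_nonneg fun t _ => frob_nonneg _
  -- pointwise
  have hpt : ∀ t : ℂ, ‖t‖ = 1 → frob ((Xᴴ * RA e A t * Y) + (Yᴴ * RA e A t * X)ᴴ) ≤
      Real.sqrt (frob ((Xᴴ * RA e A t * X) + (Xᴴ * RA e A t * X)ᴴ)) *
      Real.sqrt (frob ((Yᴴ * RA e A t * Y) + (Yᴴ * RA e A t * Y)ᴴ)) := by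
    intro t ht
    have h1 := (res_posSemidef hs t ht).conjTranspose_mul_mul_same (Matrix.fromCols Y X)
    have h2 : (Matrix.fromCols Y X)ᴴ * (RA e A t + (RA e A t)ᴴ) * Matrix.fromCols Y X =
        Matrix.fromBlocks ((Yᴴ * RA e A t * Y) + (Yᴴ * RA e A t * Y)ᴴ)
          ((Xᴴ * RA e A t * Y) + (Yᴴ * RA e A t * X)ᴴ)ᴴ
          ((Xᴴ * RA e A t * Y) + (Yᴴ * RA e A t * X)ᴴ)
          ((Xᴴ * RA e A t * X) + (Xᴴ * RA e A t * X)ᴴ) := by
      rw [conjTranspose_fromCols_eq_fromRows_conjTranspose, Matrix.fromRows_mul,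
        Matrix.fromRows_mul_fromCols]
      simp only [conjTranspose_add, conjTranspose_mul, conjTranspose_conjTranspose,
        Matrix.mul_add, Matrix.add_mul, Matrix.mul_assoc]
      congr 1
      exact add_comm _ _
    rw [h2] at h1
    have h3 := block_psd_frob _ _ _ h1
    rw [mul_comm]
    exact h3
  have c1 : ∀ Z W : Matrix n a ℂ, ContinuousOn
      (fun t => frob ((Zᴴ * RA e A t * W) + (Wᴴ * RA e A t * Z)ᴴ)) (sphere 0 1) := by
    intro Z W
    refine cont_frob (M := fun t => (Zᴴ * RA e A t * W) + (Wᴴ * RA e A t * Z)ᴴ) fun i j => ?_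
    have h1 := cont_comp hs Z W i j
    have h2 := cont_comp hs W Z j i
    exact h1.add (Complex.continuous_conj.comp_continuousOn h2)
  have cX := (c1 X X).sqrt
  have cY := (c1 Y Y).sqrt
  have hX2 : ∀ Z : Matrix n a ℂ, (fun t => Real.sqrt (frob ((Zᴴ * RA e A t * Z) +
      (Zᴴ * RA e A t * Z)ᴴ)) ^ 2) = fun t => frob ((Zᴴ * RA e A t * Z) +
      (Zᴴ * RA e A t * Z)ᴴ) := fun Z => funext fun t => Real.sq_sqrt (frob_nonneg _)
  calc avR (fun t => frob (Xᴴ * RA e A t * Y))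
      ≤ avR (fun t => frob ((Xᴴ * RA e A t * Y) + (Yᴴ * RA e A t * X)ᴴ)) := by
        rw [hoff]; linarith
    _ ≤ avR (fun t => Real.sqrt (frob ((Xᴴ * RA e A t * X) + (Xᴴ * RA e A t * X)ᴴ)) *
          Real.sqrt (frob ((Yᴴ * RA e A t * Y) + (Yᴴ * RA e A t * Y)ᴴ))) :=
        avR_mono (c1 X Y) (cX.mul cY) hpt
    _ ≤ _ := avR_mul_le cX cY
    _ = _ := by rw [hX2, hX2, hdiag, hdiag]

end Crest.Agent.R132
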