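import Crest.Agent.R132.Lower
import Crest.Agent.R132.Upper
import Crest.Agent.R132.Star2

/-!
# Piece MAININEQ : combination

`L t = Xᴴ RA(t) Y`.  `lower` with `W = X, c = 1, Θ t Q = v(G t) * Q` and with `W = Y, c = k, Θ t Q = Q * v(G t)`:
`αx + γx ≤ 2 ℓ`, `k² (αy + γy) ≤ 2 ℓ`, `ℓ = avR (frob L)`; `upper`: `ℓ ≤ √(2(αx+γx)) √(2(αy+γy)) ≤ √(4ℓ) √(4ℓ/k²) = 4ℓ/k`; `ℓ > 0` since
`2ℓ ≥ γx = frob (Xᴴ X) > 0`.  So `k ≤ 4`.
The hypotheses `hα`, `hβ` are turned into `hrel` by unfolding `star` (trace of a matrix of averages = average of traces).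
-/

set_option autoImplicit false
open Metric Set Matrix

namespace Crest.Agent.R132

variable {n a : Type} [Fintype n] [DecidableEq n] [Fintype a] [DecidableEq a]
  {e : Ext} {A : Matrix n n ℂ} {V : Set ℂ}

namespace MainAux

theorem trace_star (hs : Sit e A V) (X Y : Matrix n a ℂ) {q : ℂ → Matrix a a ℂ}
    (hq : HolOn V q) :
    (Xᴴ * star e A Y q).trace = av (fun t => (Xᴴ * RA e A t * Y * q (e.G t)).trace) := by
  have h1 : ∀ t : ℂ, (Xᴴ * RA e A t * Y * q (e.G t)).trace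
      = ∑ i, ∑ k, Xᴴ i k * (RA e A t * Y * q (e.G t)) k i := by
    intro t
    rw [Matrix.trace]
    refine Finset.sum_congr rfl fun i _ => ?_
    rw [Matrix.diag_apply, Matrix.mul_assoc, Matrix.mul_assoc, Matrix.mul_apply]
    refine Finset.sum_congr rfl fun k _ => ?_
    rw [Matrix.mul_assoc]
  have hc : ∀ i k, ContinuousOn (fun t => Xᴴ i k * (RA e A t * Y * q (e.G t)) k i)
      (sphere 0 1) := fun i k =>
    continuousOn_const.mul (Star1aux.entry_cont hs Y hq k i)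
  simp only [h1]
  rw [av_sum _ (fun i t => ∑ k, Xᴴ i k * (RA e A t * Y * q (e.G t)) k i)
    fun i _ => continuousOn_finsetSum _ fun k _ => hc i k, Matrix.trace]
  refine Finset.sum_congr rfl fun i _ => ?_
  rw [av_sum _ (fun k t => Xᴴ i k * (RA e A t * Y * q (e.G t)) k i) fun k _ => hc i k,
    Matrix.diag_apply, Matrix.mul_apply]
  refine Finset.sum_congr rfl fun k _ => ?_
  exact (av_const_mul (Xᴴ i k) (fun t => (RA e A t * Y * q (e.G t)) k i)).symm

open scoped ComplexOrder in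
theorem eq_zero_of_gram {X : Matrix n a ℂ} (h : frob (Xᴴ * X) = 0) : X = 0 :=
  Matrix.conjTranspose_mul_self_eq_zero.mp ((frob_eq_zero _).mp h)

theorem final {k a' b' ℓ : ℝ} (hk : 0 < k) (ha0 : 0 < a') (hb0 : 0 ≤ b') (hl1 : a' ≤ 2 * ℓ)
    (hl2 : k ^ 2 * b' ≤ 2 * ℓ) (hu : ℓ ≤ Real.sqrt (2 * a') * Real.sqrt (2 * b')) : k ≤ 4 := by
  have hℓ0 : 0 < ℓ := by linarith
  have hu2 : ℓ ^ 2 ≤ (2 * a') * (2 * b') := by
    have h1 := pow_le_pow_left₀ hℓ0.le hu 2
    rw [mul_pow, Real.sq_sqrt (by linarith), Real.sq_sqrt (by linarith)] at h1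
    exact h1
  have h3 : k ^ 2 * ℓ ^ 2 ≤ 16 * ℓ ^ 2 := by
    have h4 : k ^ 2 * ℓ ^ 2 ≤ k ^ 2 * ((2 * a') * (2 * b')) :=
      mul_le_mul_of_nonneg_left hu2 (sq_nonneg k)
    have h5 : k ^ 2 * ((2 * a') * (2 * b')) = 4 * (a' * (k ^ 2 * b')) := by ring
    have h6 : a' * (k ^ 2 * b') ≤ (2 * ℓ) * (2 * ℓ) :=
      mul_le_mul hl1 hl2 (by positivity) (by linarith)
    nlinarith
  have h8 : 0 < ℓ ^ 2 := by positivity
  have h7 : k ^ 2 ≤ 16 := le_of_mul_le_mul_right h3 h8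
  nlinarith

end MainAux

open MainAux

theorem main_ineq (hs : Sit e A V) (X Y : Matrix n a ℂ) (k : ℝ) (hk : 0 < k)
    (v : ℂ → Matrix a a ℂ) (hv : HolOn V v) (hv1 : ∀ z ∈ V, opn (v z) ≤ 1)
    (hα : ∀ (p : Polynomial ℂ) (Q : Matrix a a ℂ),
      (Xᴴ * star e A Y (fun z => v z * (p.eval z • Q))).trace
        = (Xᴴ * Polynomial.aeval A p * X * Q).trace)
    (hβ : ∀ (p : Polynomial ℂ) (Q : Matrix a a ℂ),
      (Xᴴ * star e A Y (fun z => (p.eval z • Q) * v z)).trace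
        = (k : ℂ) * (Yᴴ * Polynomial.aeval A p * Y * Q).trace)
    (hXY : Xᴴ * Y = 0) (hX : X ≠ 0) : k ≤ 4 := by
  have hLc : ∀ i j, ContinuousOn (fun t => (Xᴴ * RA e A t * Y) i j) (sphere 0 1) :=
    fun i j => UpperAux.cont_comp hs X Y i j
  have hv2 : ∀ t : ℂ, ‖t‖ = 1 → opn (v (e.G t)) ^ 2 ≤ 1 := by
    intro t ht
    have h0 : 0 ≤ opn (v (e.G t)) := norm_nonneg _
    have h1 := hv1 _ (hs.curve t ht)
    exact pow_le_one₀ h0 h1
  have l1 := lower hs (fun t => Xᴴ * RA e A t * Y) hLc X 1 one_pos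
    (fun t => LinearMap.mulLeft ℂ (v (e.G t)))
    (by
      intro Q i j
      have h1 : HolOn V (fun z => v z * Q) := HolOn.mul hv (HolOn.const Q)
      exact HolOn.continuousOn_G hs h1 i j)
    (by
      intro t ht Q
      refine (frob_mul_left_le (v (e.G t)) Q).trans ?_
      exact mul_le_of_le_one_left (frob_nonneg _) (hv2 t ht))
    (by
      intro p Q
      have h1 := hα p Q
      have h2 : HolOn V (fun z => v z * (p.eval z • Q)) := HolOn.mul hv (HolOn.poly_smul p Q)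
      rw [trace_star hs X Y h2] at h1
      rw [Complex.ofReal_one, one_mul]
      exact h1)
  have l2 := lower hs (fun t => Xᴴ * RA e A t * Y) hLc Y k hk
    (fun t => LinearMap.mulRight ℂ (v (e.G t)))
    (by
      intro Q i j
      have h1 : HolOn V (fun z => Q * v z) := HolOn.mul (HolOn.const Q) hv
      exact HolOn.continuousOn_G hs h1 i j)
    (by
      intro t ht Q
      refine (frob_mul_right_le (v (e.G t)) Q).trans ?_
      exact mul_le_of_le_one_left (frob_nonneg _) (hv2 t ht))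
    (by
      intro p Q
      have h1 := hβ p Q
      have h2 : HolOn V (fun z => (p.eval z • Q) * v z) := HolOn.mul (HolOn.poly_smul p Q) hv
      rw [trace_star hs X Y h2] at h1
      exact h1)
  have u := upper hs X Y hXY
  have hγ : 0 < frob (Xᴴ * X) :=
    lt_of_le_of_ne (frob_nonneg _) fun h0 => hX (eq_zero_of_gram h0.symm)
  have hαx : 0 ≤ avR (fun t => frob (Xᴴ * RA e A t * X)) :=
    avR_nonneg fun t _ => frob_nonneg _
  have hαy : 0 ≤ avR (fun t => frob (Yᴴ * RA e A t * Y)) :=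
    avR_nonneg fun t _ => frob_nonneg _
  have hγy : 0 ≤ frob (Yᴴ * Y) := frob_nonneg _
  rw [one_pow, one_mul] at l1
  exact final hk (by linarith) (by linarith) l1 l2 u

end Crest.Agent.R132
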