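import Crest.Agent.R132.Feas
import Crest.Agent.R132.MainIneq

/-!
# Piece CORE : the optimal `τ = κ²` is at most 4

Suppose `τ > 1`.  `sep` (with `M1 = H - 1, M2 = τ - H, M3 = Gam T H`, `opt_no_strict`) gives `X, Y, Z`, `transfer` gives `X', Y', v`.
`H X' = X'` (from `(H - 1) X' X'ᴴ = 0`), `H Y' = τ Y'`, so `X'ᴴ Y' = X'ᴴ H Y' = τ X'ᴴ Y'`, hence `X'ᴴ Y' = 0`.
`X' ≠ 0`: `tr X = τ tr Y` (trace of `H (X - Y + GamA Z)`), so `X' = 0` would give `Y' = 0`, then `Z = 0`.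
`main_ineq` with `k = τ`:  hα: `star Y' (v * (p • Q)) = star (star Y' v) (p • Q) = p(A) X' Q`;
hβ: `star Y' ((p • Q) * v) = star (p(A) Y' Q) v` and `tr (X'ᴴ star g v) = tr (X'ᴴ H star g v) = tr (Y'ᴴ H g) = τ tr (Y'ᴴ g)`.
-/

set_option autoImplicit false
open Matrix
open scoped ComplexOrder Kronecker

namespace Crest.Agent.R132

variable {n m : Type} [Fintype n] [DecidableEq n] [Fintype m] [DecidableEq m]
  {e : Ext} {A : Matrix n n ℂ} {V : Set ℂ}

theorem core (hs : Sit e A V) (h : ℂ → Matrix m m ℂ) (hh : HolOn V h)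
    (hlt : ∀ z ∈ V, opn (h z) < 1) (T : Matrix (n × m) (n × m) ℂ) (hval : IsVal e A h T)
    (H : Matrix n n ℂ) (τ : ℝ) (hopt : TOpt T H τ) : τ ≤ 4 := by
  by_contra hτ4
  rw [not_le] at hτ4
  have hτpos : 0 < τ := by linarith
  have hτne : (τ : ℂ) - 1 ≠ 0 := by
    intro h0
    have h1 : (τ : ℂ) = 1 := by linear_combination h0
    have h2 : τ = 1 := by exact_mod_cast h1
    linarith
  have hτc : (τ : ℂ) ≠ 0 := by exact_mod_cast hτpos.ne'
  obtain ⟨h1, h2, h3⟩ := hopt.1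
  have hH : H.IsHermitian := by
    have ha : (H - 1).IsHermitian := h1.isHermitian
    have hb : ((H - 1) + 1 : Matrix n n ℂ).IsHermitian := ha.add Matrix.isHermitian_one
    simpa using hb
  obtain ⟨X, Y, Z, hX, hY, hZ, hnz, hMX, hMY, hMZ, hrel⟩ :=
    sep (H - 1) ((τ : ℂ) • (1 : Matrix n n ℂ) - H) (Gam T H) h1 h2 h3 (GamL T) (GamA T)
      (GamL_adj T) (GamL_herm T) (fun K hK => opt_no_strict T hopt K hK)
  obtain ⟨X', Y', v, hXX, hYY, hv, hv1, hst, hY0, hHr⟩ :=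
    transfer hs h hh hlt T hval X Y Z hX hY hZ hrel
  have hHX : H * X' = X' := by
    have ha : (H - 1) * (X' * X'ᴴ) = 0 := by rw [hXX]; exact hMX
    have hb : (H - 1) * X' = 0 := (Matrix.mul_self_mul_conjTranspose_eq_zero X' (H - 1)).1 ha
    rw [Matrix.sub_mul, Matrix.one_mul] at hb
    exact sub_eq_zero.1 hb
  have hHY : H * Y' = (τ : ℂ) • Y' := by
    have ha : ((τ : ℂ) • (1 : Matrix n n ℂ) - H) * (Y' * Y'ᴴ) = 0 := by rw [hYY]; exact hMY
    have hb : ((τ : ℂ) • (1 : Matrix n n ℂ) - H) * Y' = 0 :=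
      (Matrix.mul_self_mul_conjTranspose_eq_zero Y' _).1 ha
    rw [Matrix.sub_mul, Matrix.smul_mul, Matrix.one_mul] at hb
    exact (sub_eq_zero.1 hb).symm
  have hXH : X'ᴴ * H = X'ᴴ := by
    have ha := congrArg Matrix.conjTranspose hHX
    rw [Matrix.conjTranspose_mul, hH.eq] at ha
    exact ha
  have hYH : Y'ᴴ * H = (τ : ℂ) • Y'ᴴ := by
    have ha := congrArg Matrix.conjTranspose hHY
    rw [Matrix.conjTranspose_mul, hH.eq, Matrix.conjTranspose_smul] at ha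
    simpa using ha
  have hXY : X'ᴴ * Y' = 0 := by
    have ha : X'ᴴ * (H * Y') = X'ᴴ * Y' := by
      rw [← Matrix.mul_assoc, hXH]
    rw [hHY, Matrix.mul_smul] at ha
    have hb : ((τ : ℂ) - 1) • (X'ᴴ * Y') = 0 := by
      rw [sub_smul, one_smul, ha, sub_self]
    exact (smul_eq_zero.1 hb).resolve_left hτne
  have hX0 : X' ≠ 0 := by
    intro h0
    have hXz : X = 0 := by rw [← hXX, h0]; simp
    have hZtr : (H * GamA T Z).trace = 0 := by
      rw [← GamL_adj]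
      change (Gam T H * Z).trace = 0
      rw [hMZ]; simp
    have hGY : GamA T Z = Y := by rw [← hrel, hXz, zero_add]
    rw [hGY] at hZtr
    have hHYY : H * Y = (τ : ℂ) • Y := by
      rw [← hYY, ← Matrix.mul_assoc, hHY, Matrix.smul_mul]
    rw [hHYY, Matrix.trace_smul, smul_eq_mul] at hZtr
    have hYtr : Y.trace = 0 := (mul_eq_zero.1 hZtr).resolve_left hτc
    have hYz : Y = 0 := hY.trace_eq_zero_iff.1 hYtr
    have hY'z : Y' = 0 := by
      rw [← Matrix.self_mul_conjTranspose_eq_zero, hYY, hYz]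
    exact hnz ⟨hXz, hYz, hY0 hY'z⟩
  have hk := main_ineq hs X' Y' τ hτpos v hv hv1 ?_ ?_ hXY hX0
  · linarith
  · intro p Q
    have ha := star_star hs Y' hv (HolOn.poly_smul (V := V) p Q)
    rw [← ha, ← hst, star_poly hs X' p Q]
    simp only [Matrix.mul_assoc]
  · intro p Q
    have ha := star_star hs Y' (HolOn.poly_smul (V := V) p Q) hv
    rw [← ha, star_poly hs Y' p Q]
    have hb := hHr H hH hMZ (Polynomial.aeval A p * Y' * Q)
    rw [hXH, hYH] at hb
    rw [hb, Matrix.smul_mul, Matrix.trace_smul, smul_eq_mul]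
    simp only [Matrix.mul_assoc]

end Crest.Agent.R132
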