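import Crest.Agent.R132.ExtAnBasic

/-!
# Piece CURVE : Cauchy's theorem on the closed curve `θ ↦ G(e^{iθ})`

`k` holomorphic on the convex open set `V` has a primitive `Ψ` on `V`
(`exists_forall_hasDerivWithinAt` in Mathlib.MeasureTheory.Integral.CurveIntegral.Poincare, convex sets).
`d/dθ Ψ(G(e^{iθ})) = k(G) * dG * i e^{iθ}`, so the integral over a full period vanishes.
First show `HasDerivAt e.G (e.dG t) t` for `‖t‖ = 1`.
-/

set_option autoImplicit false
open Metric Set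

namespace Crest.Agent.R132

theorem Ext.hasDerivAt_G (e : Ext) (t : ℂ) (ht : t ≠ 0) (ht' : ‖t⁻¹‖ < e.ρ) :
    HasDerivAt e.G (e.dG t) t := by
  have h1 : DifferentiableAt ℂ e.g t⁻¹ :=
    e.hg.differentiableAt (isOpen_ball.mem_nhds (by simpa using ht'))
  have h2 : HasDerivAt (fun t : ℂ => e.g t⁻¹) (deriv e.g t⁻¹ * (-(t ^ 2)⁻¹)) t :=
    HasDerivAt.comp t h1.hasDerivAt (hasDerivAt_inv ht)
  have h3 : HasDerivAt (fun t : ℂ => e.c * t + e.g t⁻¹) (e.c * 1 + deriv e.g t⁻¹ * (-(t ^ 2)⁻¹)) t :=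
    ((hasDerivAt_id t).const_mul e.c).add h2
  have h4 : e.c * 1 + deriv e.g t⁻¹ * (-(t ^ 2)⁻¹) = e.dG t := by
    unfold Ext.dG
    rw [inv_pow]; ring
  rw [h4] at h3
  exact h3

theorem Ext.inv_mem_ball (e : Ext) {t : ℂ} (ht : ‖t‖ = 1) : t⁻¹ ∈ ball (0 : ℂ) e.ρ := by
  have := e.hρ
  simp [norm_inv, ht, this]

theorem Ext.ne_zero_of_norm_one {t : ℂ} (ht : ‖t‖ = 1) : t ≠ 0 := by
  rintro rfl
  simp at ht

theorem Ext.continuousOn_G (e : Ext) : ContinuousOn e.G (sphere 0 1) := by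
  intro t ht
  have ht1 : ‖t‖ = 1 := by simpa using ht
  have h := e.hasDerivAt_G t (Ext.ne_zero_of_norm_one ht1) (by simpa using e.inv_mem_ball ht1)
  exact h.continuousAt.continuousWithinAt

theorem Ext.continuousOn_dG (e : Ext) : ContinuousOn e.dG (sphere 0 1) := by
  intro t ht
  have ht1 : ‖t‖ = 1 := by simpa using ht
  have hinv : ContinuousAt (fun t : ℂ => t⁻¹) t := continuousAt_inv₀ (Ext.ne_zero_of_norm_one ht1)
  have hd : DifferentiableOn ℂ (deriv e.g) (ball 0 e.ρ) := e.hg.deriv isOpen_ball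
  have h1 : ContinuousAt (deriv e.g) t⁻¹ :=
    (hd.differentiableAt (isOpen_ball.mem_nhds (e.inv_mem_ball ht1))).continuousAt
  have h2 : ContinuousAt (fun t : ℂ => deriv e.g t⁻¹) t :=
    ContinuousAt.comp (f := fun t : ℂ => t⁻¹) h1 hinv
  have h3 : ContinuousAt e.dG t := by
    unfold Ext.dG
    exact continuousAt_const.sub (h2.mul (hinv.pow 2))
  exact h3.continuousWithinAt

/-- Cauchy's theorem on the image curve -/
theorem curve_zero (e : Ext) (V : Set ℂ) (hV : IsOpen V) (hVc : Convex ℝ V)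
    (hG : ∀ t : ℂ, ‖t‖ = 1 → e.G t ∈ V) (k : ℂ → ℂ) (hk : DifferentiableOn ℂ k V) :
    av (fun t => t * e.dG t * k (e.G t)) = 0 := by
  obtain ⟨Ψ, hΨ⟩ := hVc.exists_forall_hasDerivWithinAt hk
  have hΨ' : ∀ z ∈ V, HasDerivAt Ψ (k z) z := fun z hz => (hΨ z hz).hasDerivAt (hV.mem_nhds hz)
  have hn : ∀ θ : ℝ, ‖circleMap 0 1 θ‖ = 1 := fun θ => by simp
  have hder : ∀ θ : ℝ, HasDerivAt (fun θ : ℝ => Ψ (e.G (circleMap 0 1 θ)))
      (k (e.G (circleMap 0 1 θ)) * (e.dG (circleMap 0 1 θ) * (circleMap 0 1 θ * Complex.I))) θ := by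
    intro θ
    have h1 : HasDerivAt (fun θ : ℝ => circleMap 0 1 θ) (circleMap 0 1 θ * Complex.I) θ :=
      hasDerivAt_circleMap 0 1 θ
    have h2 : HasDerivAt e.G (e.dG (circleMap 0 1 θ)) (circleMap 0 1 θ) :=
      e.hasDerivAt_G _ (Ext.ne_zero_of_norm_one (hn θ)) (by simpa using e.inv_mem_ball (hn θ))
    have h3 : HasDerivAt (fun θ : ℝ => e.G (circleMap 0 1 θ))
        (e.dG (circleMap 0 1 θ) * (circleMap 0 1 θ * Complex.I)) θ :=
      HasDerivAt.comp θ h2 h1
    exact HasDerivAt.comp θ (hΨ' _ (hG _ (hn θ))) h3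
  have hcm : Continuous (circleMap (0 : ℂ) 1) := continuous_circleMap 0 1
  have hms : ∀ θ : ℝ, circleMap 0 1 θ ∈ sphere (0 : ℂ) 1 := fun θ => by simp
  have hc1 : Continuous (fun θ : ℝ => e.dG (circleMap 0 1 θ)) :=
    e.continuousOn_dG.comp_continuous hcm hms
  have hc2 : Continuous (fun θ : ℝ => e.G (circleMap 0 1 θ)) :=
    e.continuousOn_G.comp_continuous hcm hms
  have hc3 : Continuous (fun θ : ℝ => k (e.G (circleMap 0 1 θ))) :=
    hk.continuousOn.comp_continuous hc2 (fun θ => hG _ (hn θ))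
  have hcont : Continuous (fun θ : ℝ => k (e.G (circleMap 0 1 θ)) *
      (e.dG (circleMap 0 1 θ) * (circleMap 0 1 θ * Complex.I))) :=
    hc3.mul (hc1.mul (hcm.mul continuous_const))
  have hint := intervalIntegral.integral_eq_sub_of_hasDerivAt
    (a := 0) (b := 2 * Real.pi) (fun θ _ => hder θ) (hcont.intervalIntegrable _ _)
  have hper : circleMap (0 : ℂ) 1 (2 * Real.pi) = circleMap 0 1 0 := by
    have := periodic_circleMap (0 : ℂ) 1 0
    simpa using this
  rw [hper, sub_self] at hint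
  have hI : (fun θ : ℝ => k (e.G (circleMap 0 1 θ)) *
      (e.dG (circleMap 0 1 θ) * (circleMap 0 1 θ * Complex.I))) =
      fun θ : ℝ => Complex.I * (circleMap 0 1 θ * e.dG (circleMap 0 1 θ) *
        k (e.G (circleMap 0 1 θ))) := by
    funext θ; ring
  rw [hI, intervalIntegral.integral_const_mul] at hint
  have h0 : ∫ θ in (0 : ℝ)..2 * Real.pi, (circleMap 0 1 θ * e.dG (circleMap 0 1 θ) *
        k (e.G (circleMap 0 1 θ))) = 0 := by
    rcases mul_eq_zero.1 hint with h | h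
    · exact absurd h Complex.I_ne_zero
    · exact h
  show Real.circleAverage _ 0 1 = 0
  rw [Real.circleAverage_def, h0, smul_zero]

end Crest.Agent.R132
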