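import Mathlib
import Crest.Prelude.Def_NumRangeMetric

/-!
# Row 132 : definitions (helper18)

Complete Crouzeix conjecture (constant 2).  The paper proof is in the research table (row 132) and is
summarised in `README.lean`.

All integrals are means over the unit circle: `av f = Real.circleAverage f 0 1`.
-/

set_option autoImplicit false
open scoped ComplexOrder Kronecker
open Metric Set

namespace Crest.Agent.R132

/-- mean value of a complex function over the unit circle -/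
noncomputable abbrev av (f : ℂ → ℂ) : ℂ := Real.circleAverage f 0 1

/-- mean value of a real function over the unit circle -/
noncomputable abbrev avR (f : ℂ → ℝ) : ℝ := Real.circleAverage f 0 1

/-- On the unit circle `φ` agrees with a function which is analytic in the exterior (including a
neighbourhood of the circle), with value `a` at infinity. -/
def ExtAn (φ : ℂ → ℂ) (a : ℂ) : Prop :=
  ∃ (ρ : ℝ) (Φ : ℂ → ℂ), 1 < ρ ∧ DifferentiableOn ℂ Φ (ball 0 ρ) ∧ Φ 0 = a ∧
    ∀ t : ℂ, ‖t‖ = 1 → φ t = Φ t⁻¹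

/-- Exterior map `G t = c t + g (1/t)`, with `g` analytic on `ball 0 ρ`, `ρ > 1`. -/
structure Ext where
  c : ℂ
  g : ℂ → ℂ
  ρ : ℝ
  hc : c ≠ 0
  hρ : 1 < ρ
  hg : DifferentiableOn ℂ g (ball 0 ρ)

namespace Ext

/-- the exterior map -/
noncomputable def G (e : Ext) (t : ℂ) : ℂ := e.c * t + e.g t⁻¹

/-- its derivative -/
noncomputable def dG (e : Ext) (t : ℂ) : ℂ := e.c - deriv e.g t⁻¹ * (t⁻¹) ^ 2

/-- The exterior map is univalent at the unit circle and the image of the unit circle is a convex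
curve. -/
structure Conv (e : Ext) : Prop where
  inj : ∀ t s : ℂ, ‖t‖ = 1 → 1 ≤ ‖s‖ → t ≠ s → e.G t ≠ e.G s
  dG_ne : ∀ t : ℂ, ‖t‖ = 1 → e.dG t ≠ 0
  pos : ∀ t s : ℂ, ‖t‖ = 1 → ‖s‖ = 1 → t ≠ s → 0 ≤ (t * e.dG t / (e.G t - e.G s)).re

/-- The image of the unit circle encloses the set `K`. -/
structure Encl (e : Ext) (K : Set ℂ) : Prop where
  ne : ∀ t : ℂ, 1 ≤ ‖t‖ → ∀ a ∈ K, e.G t ≠ a
  pos : ∀ t : ℂ, ‖t‖ = 1 → ∀ a ∈ K, 0 ≤ (t * e.dG t * (starRingEnd ℂ) (e.G t - a)).re

end Ext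

section matrices

variable {n m a b K : Type} [Fintype n] [DecidableEq n] [Fintype m] [DecidableEq m]
  [Fintype a] [DecidableEq a] [Fintype b] [DecidableEq b] [Fintype K] [DecidableEq K]

/-- squared Frobenius norm -/
noncomputable def frob {a b : Type} [Fintype a] [Fintype b] (X : Matrix a b ℂ) : ℝ :=
  ∑ i, ∑ j, ‖X i j‖ ^ 2

/-- operator norm (Euclidean) of a square matrix -/
noncomputable def opn {a : Type} [Fintype a] [DecidableEq a] (X : Matrix a a ℂ) : ℝ :=
  ‖Matrix.toEuclideanCLM (n := a) (𝕜 := ℂ) X‖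

/-- entrywise holomorphic matrix function -/
def HolOn {a b : Type} (V : Set ℂ) (q : ℂ → Matrix a b ℂ) : Prop :=
  ∀ i j, DifferentiableOn ℂ (fun z => q z i j) V

/-- `R_A(t) = t G'(t) (G(t) - A)⁻¹` -/
noncomputable def RA {n : Type} [Fintype n] [DecidableEq n] (e : Ext) (A : Matrix n n ℂ) (t : ℂ) :
    Matrix n n ℂ :=
  (t * e.dG t) • (e.G t • (1 : Matrix n n ℂ) - A)⁻¹

/-- Functional calculus with right multiplication:
`star e A g q = (1/2πi) ∮ (z - A)⁻¹ g q(z) dz` over the curve `G(unit circle)`. -/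
noncomputable def star {n a b : Type} [Fintype n] [DecidableEq n] [Fintype a]
    (e : Ext) (A : Matrix n n ℂ) (g : Matrix n a ℂ) (q : ℂ → Matrix a b ℂ) : Matrix n b ℂ :=
  Matrix.of fun i j => av (fun t => (RA e A t * g * q (e.G t)) i j)

/-- numerical range over an arbitrary finite index type (same as `numRange` for `Fin n`) -/
def nrange {n : Type} [Fintype n] [DecidableEq n] (A : Matrix n n ℂ) : Set ℂ :=
  {z | ∃ x : EuclideanSpace ℂ n, ‖x‖ = 1 ∧ z = inner ℂ x (Matrix.toEuclideanLin A x)}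

/-- reshape `(n × m) × K` to `n × (K × m)` -/
def rsh {n m K : Type} (Z : Matrix (n × m) K ℂ) : Matrix n (K × m) ℂ :=
  Matrix.of fun i p => Z (i, p.2) p.1

/-- `1_K ⊗ hᵀ` -/
def htil {m K : Type} [DecidableEq K] (h : Matrix m m ℂ) : Matrix (K × m) (K × m) ℂ :=
  Matrix.of fun p q => if p.1 = q.1 then h q.2 p.2 else 0

/-- partial trace over the second factor -/
def trm {n m : Type} [Fintype m] (Z : Matrix (n × m) (n × m) ℂ) : Matrix n n ℂ :=
  Matrix.of fun i j => ∑ l, Z (i, l) (j, l)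

/-- `Γ(H) = H ⊗ 1 - 𝒯ᴴ (H ⊗ 1) 𝒯` -/
noncomputable def Gam {n m : Type} [Fintype n] [DecidableEq n] [Fintype m] [DecidableEq m]
    (T : Matrix (n × m) (n × m) ℂ) (H : Matrix n n ℂ) : Matrix (n × m) (n × m) ℂ :=
  H ⊗ₖ (1 : Matrix m m ℂ) - T.conjTranspose * (H ⊗ₖ (1 : Matrix m m ℂ)) * T

/-- feasible pair for the tensor metric problem -/
def TFeas {n m : Type} [Fintype n] [DecidableEq n] [Fintype m] [DecidableEq m]
    (T : Matrix (n × m) (n × m) ℂ) (H : Matrix n n ℂ) (τ : ℝ) : Prop :=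
  (H - 1).PosSemidef ∧ ((τ : ℂ) • (1 : Matrix n n ℂ) - H).PosSemidef ∧ (Gam T H).PosSemidef

/-- optimal pair for the tensor metric problem -/
def TOpt {n m : Type} [Fintype n] [DecidableEq n] [Fintype m] [DecidableEq m]
    (T : Matrix (n × m) (n × m) ℂ) (H : Matrix n n ℂ) (τ : ℝ) : Prop :=
  TFeas T H τ ∧ ∀ (H' : Matrix n n ℂ) (τ' : ℝ), TFeas T H' τ' → τ ≤ τ'

/-- The matrix `T` on `ℂⁿ ⊗ ℂᵐ` is the value `h[A]` of the matrix function `h`. -/
def IsVal {n m : Type} [Fintype n] [DecidableEq n] [Fintype m] [DecidableEq m]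
    (e : Ext) (A : Matrix n n ℂ) (h : ℂ → Matrix m m ℂ) (T : Matrix (n × m) (n × m) ℂ) : Prop :=
  ∀ Z : Matrix (n × m) (n × m) ℂ,
    rsh (T * Z) = star e A (rsh Z) (fun z => htil (K := n × m) (h z))

end matrices

/-- The standing situation: a nice exterior map, its curve lies in the open convex set `V` and
encloses the numerical range of `A`. -/
structure Sit {n : Type} [Fintype n] [DecidableEq n] (e : Ext) (A : Matrix n n ℂ) (V : Set ℂ) :
    Prop where
  conv : e.Conv
  encl : e.Encl (nrange A)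
  isOpen : IsOpen V
  convex : Convex ℝ V
  curve : ∀ t : ℂ, ‖t‖ = 1 → e.G t ∈ V
  range : nrange A ⊆ V

end Crest.Agent.R132
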