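import Mathlib

/-!
# Injective holomorphic functions have nonvanishing derivative
-/

set_option autoImplicit false
open Metric Set Filter Topology

namespace Crest.Agent.R132.DerivNe

/-- an injective holomorphic function is locally open -/
theorem inj_nhds_le {f : ℂ → ℂ} {U : Set ℂ} (hU : IsOpen U) (hf : DifferentiableOn ℂ f U)
    (hinj : InjOn f U) {z : ℂ} (hz : z ∈ U) : 𝓝 (f z) ≤ map f (𝓝 z) := by
  have ha : AnalyticAt ℂ f z := hf.analyticAt (hU.mem_nhds hz)
  rcases ha.eventually_constant_or_nhds_le_map_nhds with h | h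
  · exfalso
    have h2 : ∀ᶠ w in 𝓝 z, w ∈ U := hU.mem_nhds hz
    have h3 : ∀ᶠ w in 𝓝 z, w = z := by
      filter_upwards [h, h2] with w hw hwU
      exact hinj hwU hz hw
    have h4 : ∀ᶠ w in 𝓝[≠] z, w = z := h3.filter_mono nhdsWithin_le_nhds
    have h5 : ∀ᶠ w in 𝓝[≠] z, w ≠ z := self_mem_nhdsWithin
    obtain ⟨w, h6, h7⟩ := (h4.and h5).exists
    exact h7 h6
  · exact h

theorem inj_invFun_continuousAt {f : ℂ → ℂ} {U : Set ℂ} (hU : IsOpen U)
    (hf : DifferentiableOn ℂ f U) (hinj : InjOn f U) {z : ℂ} (hz : z ∈ U) :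
    ContinuousAt (Function.invFunOn f U) (f z) := by
  have h1 : Function.invFunOn f U (f z) = z := hinj.leftInvOn_invFunOn hz
  unfold ContinuousAt
  rw [h1]
  refine Tendsto.mono_left ?_ (inj_nhds_le hU hf hinj hz)
  rw [tendsto_map'_iff]
  refine tendsto_id.congr' ?_
  filter_upwards [hU.mem_nhds hz] with w hw
  exact (hinj.leftInvOn_invFunOn hw).symm

/-- the image of `U` is a neighbourhood -/
theorem inj_image_mem_nhds {f : ℂ → ℂ} {U : Set ℂ} (hU : IsOpen U)
    (hf : DifferentiableOn ℂ f U) (hinj : InjOn f U) {z : ℂ} (hz : z ∈ U) :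
    f '' U ∈ 𝓝 (f z) :=
  inj_nhds_le hU hf hinj hz (image_mem_map (hU.mem_nhds hz))

theorem inj_isOpen_image {f : ℂ → ℂ} {U : Set ℂ} (hU : IsOpen U)
    (hf : DifferentiableOn ℂ f U) (hinj : InjOn f U) : IsOpen (f '' U) := by
  rw [isOpen_iff_mem_nhds]
  rintro _ ⟨z, hz, rfl⟩
  exact inj_image_mem_nhds hU hf hinj hz

/-- an injective holomorphic function has nonvanishing derivative -/
theorem deriv_ne_zero_of_injOn {f : ℂ → ℂ} {U : Set ℂ} (hU : IsOpen U)
    (hf : DifferentiableOn ℂ f U) (hinj : InjOn f U) {μ : ℂ} (hμ : μ ∈ U) : deriv f μ ≠ 0 := by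
  set g := Function.invFunOn f U with hg
  have hgf : ∀ z ∈ U, g (f z) = z := fun z hz => hinj.leftInvOn_invFunOn hz
  have hfg : ∀ w ∈ f '' U, f (g w) = w := by
    rintro _ ⟨z, hz, rfl⟩
    rw [hgf z hz]
  have ha : AnalyticAt ℂ f μ := hf.analyticAt (hU.mem_nhds hμ)
  have hda : AnalyticAt ℂ (deriv f) μ := ha.deriv
  -- the derivative does not vanish near `μ` outside `μ`
  have hne : ∀ᶠ z in 𝓝[≠] μ, deriv f z ≠ 0 := by
    rcases hda.eventually_eq_zero_or_eventually_ne_zero with h | h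
    · exfalso
      have h2 : ∀ᶠ z in 𝓝 μ, z ∈ U ∧ deriv f z = 0 := by
        filter_upwards [hU.mem_nhds hμ, h] with z h1 h2
        exact ⟨h1, h2⟩
      obtain ⟨ε, hε, hball⟩ := Metric.eventually_nhds_iff_ball.mp h2
      have h3 : ∀ z ∈ ball μ ε, f z = f μ := by
        intro z hz
        have hd : DifferentiableOn ℂ f (ball μ ε) := hf.mono fun w hw => (hball w hw).1
        exact (convex_ball μ ε).is_const_of_fderivWithin_eq_zero (𝕜 := ℂ) hd (by
          intro w hw
          rw [fderivWithin_of_isOpen isOpen_ball hw]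
          ext
          simp [(hball w hw).2]) hz (mem_ball_self hε)
      have h4 : μ + (ε / 2 : ℝ) ∈ ball μ ε := by
        rw [mem_ball, dist_eq_norm]
        simp only [add_sub_cancel_left, Complex.norm_real, Real.norm_eq_abs]
        rw [abs_of_pos (by positivity)]
        linarith
      have h5 := hinj (hball _ h4).1 hμ (h3 _ h4)
      have h6 : ((ε / 2 : ℝ) : ℂ) = 0 := by
        have : μ + ((ε / 2 : ℝ) : ℂ) = μ + 0 := by rw [h5, add_zero]
        exact add_left_cancel this
      have h7 : ε / 2 = 0 := by exact_mod_cast h6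
      linarith
    · exact h
  -- the inverse is differentiable near `f μ`, except at `f μ`
  have hop := inj_isOpen_image hU hf hinj
  have hcont : ∀ z ∈ U, ContinuousAt g (f z) := fun z hz =>
    inj_invFun_continuousAt hU hf hinj hz
  have hgne : ∀ᶠ w in 𝓝 (f μ), w ≠ f μ → deriv f (g w) ≠ 0 := by
    have h1 : ∀ᶠ z in 𝓝 μ, z ≠ μ → deriv f z ≠ 0 := by
      rw [eventually_nhdsWithin_iff] at hne
      exact hne
    have h2 : Tendsto g (𝓝 (f μ)) (𝓝 μ) := by
      have := hcont μ hμ
      unfold ContinuousAt at this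
      rwa [hgf μ hμ] at this
    have h3 := h2.eventually h1
    filter_upwards [h3, inj_image_mem_nhds hU hf hinj hμ] with w hw hwU hne
    apply hw
    intro hgw
    apply hne
    rw [← hfg w hwU, hgw]
  have h2 : ∀ᶠ w in 𝓝 (f μ), w ∈ f '' U ∧ (w ≠ f μ → deriv f (g w) ≠ 0) :=
    by
      filter_upwards [hop.mem_nhds ⟨μ, hμ, rfl⟩, hgne] with w h1 h2
      exact ⟨h1, h2⟩
  obtain ⟨ε, hε, hball⟩ := Metric.eventually_nhds_iff_ball.mp h2
  have hd : DifferentiableOn ℂ g (ball (f μ) ε \ {f μ}) := by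
    rintro w ⟨hw, hwne⟩
    obtain ⟨hwU, hw2⟩ := hball w hw
    obtain ⟨z, hz, rfl⟩ := hwU
    have hdz : HasDerivAt f (deriv f (g (f z))) (g (f z)) := by
      rw [hgf z hz]
      exact (hf.differentiableAt (hU.mem_nhds hz)).hasDerivAt
    have h3 := HasDerivAt.of_local_left_inverse (hcont z hz) hdz (hw2 hwne) (by
      filter_upwards [hop.mem_nhds ⟨z, hz, rfl⟩] with y hy
      exact hfg y hy)
    exact h3.differentiableAt.differentiableWithinAt
  have hd2 : DifferentiableOn ℂ g (ball (f μ) ε) :=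
    (Complex.differentiableOn_compl_singleton_and_continuousAt_iff (ball_mem_nhds _ hε)).mp
      ⟨hd, hcont μ hμ⟩
  have hgd : DifferentiableAt ℂ g (f μ) := hd2.differentiableAt (ball_mem_nhds _ hε)
  intro h0
  have hc : HasDerivAt (fun z => g (f z)) (deriv g (f μ) * deriv f μ) μ :=
    hgd.hasDerivAt.comp μ (hf.differentiableAt (hU.mem_nhds hμ)).hasDerivAt
  have hid : HasDerivAt (fun z => g (f z)) 1 μ := by
    refine (hasDerivAt_id μ).congr_of_eventuallyEq ?_
    filter_upwards [hU.mem_nhds hμ] with z hz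
    exact hgf z hz
  have := hc.unique hid
  rw [h0, mul_zero] at this
  exact zero_ne_one this

/-- the inverse of an injective holomorphic function is holomorphic -/
theorem inj_invFun_hasDerivAt {f : ℂ → ℂ} {U : Set ℂ} (hU : IsOpen U)
    (hf : DifferentiableOn ℂ f U) (hinj : InjOn f U) {z : ℂ} (hz : z ∈ U) :
    HasDerivAt (Function.invFunOn f U) (deriv f z)⁻¹ (f z) := by
  have h1 : Function.invFunOn f U (f z) = z := hinj.leftInvOn_invFunOn hz
  have hdz : HasDerivAt f (deriv f z) (Function.invFunOn f U (f z)) := by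
    rw [h1]
    exact (hf.differentiableAt (hU.mem_nhds hz)).hasDerivAt
  refine HasDerivAt.of_local_left_inverse (inj_invFun_continuousAt hU hf hinj hz) hdz
    (deriv_ne_zero_of_injOn hU hf hinj hz) ?_
  filter_upwards [(inj_isOpen_image hU hf hinj).mem_nhds ⟨z, hz, rfl⟩] with y hy
  obtain ⟨x, hx, rfl⟩ := hy
  rw [hinj.leftInvOn_invFunOn hx]

theorem inj_invFun_differentiableOn {f : ℂ → ℂ} {U : Set ℂ} (hU : IsOpen U)
    (hf : DifferentiableOn ℂ f U) (hinj : InjOn f U) :
    DifferentiableOn ℂ (Function.invFunOn f U) (f '' U) := by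
  rintro _ ⟨z, hz, rfl⟩
  exact (inj_invFun_hasDerivAt hU hf hinj hz).differentiableAt.differentiableWithinAt

end Crest.Agent.R132.DerivNe
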