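import Crest.Agent.R132.SCDefs

/-!
# Piece SC5: phase of the Schwarz-Christoffel product on an arc (`sc_dir'`, used in SCFun.lean)
-/

set_option autoImplicit false
open Metric Set

namespace Crest.Agent.R132.SCDiraux

theorem one_sub_exp (φ : ℝ) :
    1 - Complex.exp (-(φ * Complex.I)) =
      ((2 * Real.sin (φ / 2) : ℝ) : ℂ) * Complex.exp (((Real.pi - φ) / 2 : ℝ) * Complex.I) := by
  have h1 : Complex.exp (((Real.pi - φ) / 2 : ℝ) * Complex.I) =
      Complex.exp (-((φ / 2 : ℝ) * Complex.I)) * Complex.I := by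
    have h0 : (((Real.pi - φ) / 2 : ℝ) : ℂ) * Complex.I =
        -((φ / 2 : ℝ) * Complex.I) + Real.pi / 2 * Complex.I := by
      push_cast
      ring
    rw [h0, Complex.exp_add, Complex.exp_pi_div_two_mul_I]
  have h2 : Complex.exp (-(φ * Complex.I)) =
      Complex.exp (-((φ / 2 : ℝ) * Complex.I)) * Complex.exp (-((φ / 2 : ℝ) * Complex.I)) := by
    rw [← Complex.exp_add]
    congr 1
    push_cast
    ring
  have h3 : (1 : ℂ) = Complex.exp (-((φ / 2 : ℝ) * Complex.I)) *
      Complex.exp ((φ / 2 : ℝ) * Complex.I) := by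
    rw [← Complex.exp_add]
    simp
  have h4 : ((2 * Real.sin (φ / 2) : ℝ) : ℂ) =
      (Complex.exp (-((φ / 2 : ℝ) * Complex.I)) - Complex.exp ((φ / 2 : ℝ) * Complex.I)) *
        Complex.I := by
    push_cast
    rw [Complex.sin]
    rw [neg_mul]
    ring
  rw [h1, h4]
  calc 1 - Complex.exp (-(φ * Complex.I))
      = Complex.exp (-((φ / 2 : ℝ) * Complex.I)) * Complex.exp ((φ / 2 : ℝ) * Complex.I) -
        Complex.exp (-((φ / 2 : ℝ) * Complex.I)) * Complex.exp (-((φ / 2 : ℝ) * Complex.I)) := by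
          rw [← h3, ← h2]
    _ = (Complex.exp (-((φ / 2 : ℝ) * Complex.I)) - Complex.exp ((φ / 2 : ℝ) * Complex.I)) *
        Complex.I * (Complex.exp (-((φ / 2 : ℝ) * Complex.I)) * Complex.I) := by
          have := Complex.I_mul_I
          linear_combination (Complex.exp (-((φ / 2 : ℝ) * Complex.I)) ^ 2 -
            Complex.exp ((φ / 2 : ℝ) * Complex.I) *
              Complex.exp (-((φ / 2 : ℝ) * Complex.I))) * (-this)

theorem cpow_phase (N : ℕ) (hN : 1 ≤ N) (φ : ℝ) (h0 : 0 < φ) (h1 : φ < 2 * Real.pi) :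
    (1 - Complex.exp (-(φ * Complex.I))) ^ (2 / (N : ℂ)) =
      (‖(1 - Complex.exp (-(φ * Complex.I))) ^ (2 / (N : ℂ))‖ : ℂ) *
        Complex.exp (((Real.pi - φ) / N : ℝ) * Complex.I) := by
  have hsin : 0 < 2 * Real.sin (φ / 2) := by
    have := Real.sin_pos_of_pos_of_lt_pi (x := φ / 2) (by linarith) (by linarith)
    linarith
  have hN0 : (N : ℝ) ≠ 0 := by
    have : 0 < N := hN
    positivity
  set r := 2 * Real.sin (φ / 2) with hr
  have hz : 1 - Complex.exp (-(φ * Complex.I)) =
      Complex.exp ((Real.log r : ℂ) + ((Real.pi - φ) / 2 : ℝ) * Complex.I) := by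
    rw [one_sub_exp, Complex.exp_add, ← Complex.ofReal_exp, Real.exp_log hsin]
  have hlog : Complex.log (1 - Complex.exp (-(φ * Complex.I))) =
      (Real.log r : ℂ) + ((Real.pi - φ) / 2 : ℝ) * Complex.I := by
    rw [hz, Complex.log_exp]
    · simp only [Complex.add_im, Complex.ofReal_im, Complex.mul_im, Complex.ofReal_re,
        Complex.I_im, Complex.I_re]
      have := Real.pi_pos
      linarith
    · simp only [Complex.add_im, Complex.ofReal_im, Complex.mul_im, Complex.ofReal_re,
        Complex.I_im, Complex.I_re]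
      have := Real.pi_pos
      linarith
  have hne : 1 - Complex.exp (-(φ * Complex.I)) ≠ 0 := by
    rw [hz]; exact Complex.exp_ne_zero _
  have hcp : (1 - Complex.exp (-(φ * Complex.I))) ^ (2 / (N : ℂ)) =
      Complex.exp ((Real.log r * (2 / N) : ℝ)) * Complex.exp (((Real.pi - φ) / N : ℝ) * Complex.I) := by
    rw [Complex.cpow_def_of_ne_zero hne, hlog, ← Complex.exp_add]
    congr 1
    push_cast
    ring
  have hnorm : ‖(1 - Complex.exp (-(φ * Complex.I))) ^ (2 / (N : ℂ))‖ =
      Real.exp (Real.log r * (2 / N)) := by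
    rw [hcp, norm_mul, Complex.norm_exp_ofReal_mul_I, mul_one, ← Complex.ofReal_exp,
      Complex.norm_real, Real.norm_eq_abs, abs_of_pos (Real.exp_pos _)]
  rw [hnorm, hcp, ← Complex.ofReal_exp]

theorem sum_phase (N : ℕ) (hN : 1 ≤ N) (θ : Fin N → ℝ) (k : Fin N) (ψ : ℝ) :
    ∑ j, (Real.pi - (if j ≤ k then ψ - θ j else ψ - θ j + 2 * Real.pi)) / N =
      Real.pi - ψ + (∑ j, θ j) / N - 2 * Real.pi * (N - 1 - k) / N := by
  have hN0 : (N : ℝ) ≠ 0 := by
    have : 0 < N := hN
    positivity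
  have e1 : ∀ j : Fin N, (Real.pi - (if j ≤ k then ψ - θ j else ψ - θ j + 2 * Real.pi)) / N =
      (Real.pi - ψ) / N + θ j / N - (if k < j then 2 * Real.pi / N else 0) := by
    intro j
    by_cases h : j ≤ k
    · rw [if_pos h, if_neg (not_lt.2 h)]; ring
    · rw [if_neg h, if_pos (not_le.1 h)]; ring
  simp_rw [e1]
  rw [Finset.sum_sub_distrib, Finset.sum_add_distrib, Finset.sum_const, Finset.card_univ,
    Fintype.card_fin, nsmul_eq_mul, ← Finset.sum_div, ← Finset.sum_filter, Finset.sum_const,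
    nsmul_eq_mul]
  have e2 : (Finset.univ.filter (fun j : Fin N => k < j)).card = N - 1 - k := by
    rw [← Fin.card_Ioi]
    congr 1
    ext j
    simp
  rw [e2]
  have e3 : ((N - 1 - (k : ℕ) : ℕ) : ℝ) = (N : ℝ) - 1 - k := by
    have hk := k.2
    rw [Nat.cast_sub (by omega), Nat.cast_sub (by omega)]
    simp
  rw [e3]
  field_simp

theorem sc_dir' (N : ℕ) (hN : 1 ≤ N) (θ : Fin N → ℝ) (hθ0 : ∀ j, 0 ≤ θ j) (k : Fin N) (ψ : ℝ)
    (h1 : ∀ j, j ≤ k → θ j < ψ) (h2 : ∀ j, k < j → ψ < θ j) (hψ : ψ < 2 * Real.pi)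
    (hθ1 : ∀ j, θ j ≤ 2 * Real.pi) :
    Complex.exp (ψ * Complex.I) * scE N θ (Complex.exp (-(ψ * Complex.I)))
      = (‖scE N θ (Complex.exp (-(ψ * Complex.I)))‖ : ℂ)
        * (Complex.exp (((∑ j, θ j) / N - Real.pi + 2 * Real.pi / N : ℝ) * Complex.I) * nu N k) := by
  have hN0 : (N : ℂ) ≠ 0 := by
    have : N ≠ 0 := by omega
    exact_mod_cast this
  have hfac : ∀ j : Fin N, (1 - Complex.exp (θ j * Complex.I) * Complex.exp (-(ψ * Complex.I))) ^
      (2 / (N : ℂ)) = (‖(1 - Complex.exp (θ j * Complex.I) * Complex.exp (-(ψ * Complex.I))) ^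
      (2 / (N : ℂ))‖ : ℂ) * Complex.exp
        (((Real.pi - (if j ≤ k then ψ - θ j else ψ - θ j + 2 * Real.pi)) / N : ℝ) *
          Complex.I) := by
    intro j
    have e1 : Complex.exp (θ j * Complex.I) * Complex.exp (-(ψ * Complex.I)) =
        Complex.exp (-((if j ≤ k then ψ - θ j else ψ - θ j + 2 * Real.pi : ℝ) * Complex.I)) := by
      by_cases h : j ≤ k
      · rw [if_pos h, ← Complex.exp_add]
        congr 1
        push_cast
        ring
      · rw [if_neg h, ← Complex.exp_add]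
        have : -(((ψ - θ j + 2 * Real.pi : ℝ) : ℂ) * Complex.I) =
            (θ j * Complex.I + -(ψ * Complex.I)) - 2 * Real.pi * Complex.I := by
          push_cast
          ring
        rw [this, Complex.exp_periodic.sub_eq]
    rw [e1]
    have hk := h1 k le_rfl
    have hk0 := hθ0 k
    have hj0 := hθ0 j
    have hj1 := hθ1 j
    refine cpow_phase N hN _ ?_ ?_
    · by_cases h : j ≤ k
      · rw [if_pos h]
        have := h1 j h
        linarith
      · rw [if_neg h]
        linarith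
    · by_cases h : j ≤ k
      · rw [if_pos h]
        linarith
      · rw [if_neg h]
        have := h2 j (not_le.1 h)
        linarith
  have hprod : scE N θ (Complex.exp (-(ψ * Complex.I))) =
      (‖scE N θ (Complex.exp (-(ψ * Complex.I)))‖ : ℂ) *
        Complex.exp ((Real.pi - ψ + (∑ j, θ j) / N - 2 * Real.pi * (N - 1 - k) / N : ℝ) *
          Complex.I) := by
    rw [← sum_phase N hN θ k ψ]
    push_cast [← Finset.sum_mul]
    rw [Finset.sum_mul, Complex.exp_sum]
    unfold scE
    rw [norm_prod, Complex.ofReal_prod, ← Finset.prod_mul_distrib]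
    refine Finset.prod_congr rfl fun j _ => ?_
    have := hfac j
    push_cast at this
    exact this
  rw [hprod]
  rw [norm_mul, Complex.norm_exp_ofReal_mul_I, mul_one, Complex.norm_real, norm_norm]
  rw [nu, ← Complex.exp_add, mul_left_comm, ← Complex.exp_add]
  congr 2
  push_cast
  field_simp
  ring

end Crest.Agent.R132.SCDiraux
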