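import Crest.Agent.R132.SCDefs
import Crest.Agent.R132.SCDir

/-!
# Pieces SC3 (analysis of scL, scE) and SC5 (directions on the boundary)

SC3: for `|u| < 1` the factor `1 - e^{iθ} u` has positive real part; `log` is analytic there;
`deriv scL u = -(2/N) ∑ e^{iθ_k}/(1 - e^{iθ_k} u)`, so `1 - u L'(u) = (1/N) ∑ (1 + z_k)/(1 - z_k)`, `z_k = e^{iθ_k} u`, real part
`(1 - |z|²)/|1 - z|² > 0`.  `scE` is continuous on the closed disc: `z ↦ z^α` (`α > 0` real) is continuous on `{Re z > 0} ∪ {0}`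
(`Complex.continuousAt_cpow`, at 0: `|z^α| = |z|^α`).

SC5: for `0 < ψ_j < 2π`: `1 - e^{-iψ_j} = 2 sin(ψ_j/2) e^{i(π-ψ_j)/2}` with `|(π - ψ_j)/2| < π/2`, so
`(1 - e^{-iψ_j})^{2/N} = (2 sin (ψ_j/2))^{2/N} e^{i(π-ψ_j)/N}`.  For `ψ` with `θ_j < ψ` for `j ≤ k` and `ψ < θ_j` for `j > k`
(all within `[0, 2π]`): `ψ_j = ψ - θ_j` for `j ≤ k`, `ψ_j = ψ - θ_j + 2π` for `j > k`; sum of the phases:
`∑ (π - ψ_j)/N = π - ψ + mean θ - 2π (N-1-k)/N`.  So `e^{iψ} scE(e^{-iψ}) = |scE| * ω * ν_k`,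
`ω = exp (i (mean θ - π + 2π/N))`.
-/

set_option autoImplicit false
open Metric Set

namespace Crest.Agent.R132

private theorem sc_norm_exp (θ : ℝ) : ‖Complex.exp (θ * Complex.I)‖ = 1 :=
  Complex.norm_exp_ofReal_mul_I θ

/-- the factor has positive real part -/
private theorem sc_re_pos (θ : ℝ) (u : ℂ) (hu : u ∈ ball (0 : ℂ) 1) :
    0 < (1 - Complex.exp (θ * Complex.I) * u).re := by
  have hu' : ‖u‖ < 1 := by simpa using hu
  have h1 : (Complex.exp (θ * Complex.I) * u).re ≤ ‖Complex.exp (θ * Complex.I) * u‖ :=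
    Complex.re_le_norm _
  rw [norm_mul, sc_norm_exp, one_mul] at h1
  rw [Complex.sub_re, Complex.one_re]; linarith

private theorem sc_slit (θ : ℝ) (u : ℂ) (hu : u ∈ ball (0 : ℂ) 1) :
    1 - Complex.exp (θ * Complex.I) * u ∈ Complex.slitPlane :=
  Or.inl (sc_re_pos θ u hu)

private theorem sc_ne (θ : ℝ) (u : ℂ) (hu : u ∈ ball (0 : ℂ) 1) :
    1 - Complex.exp (θ * Complex.I) * u ≠ 0 := by
  intro h
  have := sc_re_pos θ u hu
  rw [h] at this; simp at this

private theorem sc_hasDerivAt_fac (θ : ℝ) (u : ℂ) :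
    HasDerivAt (fun u => 1 - Complex.exp (θ * Complex.I) * u) (-Complex.exp (θ * Complex.I)) u := by
  have := ((hasDerivAt_id u).const_mul (Complex.exp (θ * Complex.I))).const_sub 1
  simpa using this

private theorem scL_hasDerivAt (N : ℕ) (θ : Fin N → ℝ) (u : ℂ) (hu : u ∈ ball (0 : ℂ) 1) :
    HasDerivAt (scL N θ) ((2 / (N : ℂ)) * ∑ k, (-Complex.exp (θ k * Complex.I)) /
      (1 - Complex.exp (θ k * Complex.I) * u)) u := by
  unfold scL
  refine HasDerivAt.const_mul _ ?_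
  refine HasDerivAt.fun_sum fun k _ => ?_
  exact (sc_hasDerivAt_fac (θ k) u).clog (sc_slit (θ k) u hu)

theorem scL_differentiableOn (N : ℕ) (θ : Fin N → ℝ) :
    DifferentiableOn ℂ (scL N θ) (ball 0 1) := fun u hu =>
  (scL_hasDerivAt N θ u hu).differentiableAt.differentiableWithinAt

theorem scL_zero (N : ℕ) (θ : Fin N → ℝ) : scL N θ 0 = 0 := by
  simp [scL]

theorem scL_pos (N : ℕ) (hN : 1 ≤ N) (θ : Fin N → ℝ) (u : ℂ) (hu : u ∈ ball (0 : ℂ) 1) :
    0 < (1 - u * deriv (scL N θ) u).re := by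
  rw [(scL_hasDerivAt N θ u hu).deriv]
  have hN' : (N : ℂ) ≠ 0 := by
    have : N ≠ 0 := by omega
    exact_mod_cast this
  have hkey : 1 - u * ((2 / (N : ℂ)) * ∑ k, (-Complex.exp (θ k * Complex.I)) /
      (1 - Complex.exp (θ k * Complex.I) * u)) =
      ∑ k, ((1 / N : ℝ) : ℂ) * ((1 + Complex.exp (θ k * Complex.I) * u) /
        (1 - Complex.exp (θ k * Complex.I) * u)) := by
    have h1 : (1 : ℂ) = ∑ k : Fin N, (1 / (N : ℂ)) := by
      rw [Finset.sum_const, Finset.card_univ, Fintype.card_fin, nsmul_eq_mul]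
      field_simp
    have h2 : 1 - u * ((2 / (N : ℂ)) * ∑ k, (-Complex.exp (θ k * Complex.I)) /
        (1 - Complex.exp (θ k * Complex.I) * u)) = (∑ k : Fin N, (1 / (N : ℂ))) -
        u * ((2 / (N : ℂ)) * ∑ k, (-Complex.exp (θ k * Complex.I)) /
        (1 - Complex.exp (θ k * Complex.I) * u)) := by rw [← h1]
    rw [h2, Finset.mul_sum, Finset.mul_sum, ← Finset.sum_sub_distrib]
    refine Finset.sum_congr rfl fun k _ => ?_
    have hne := sc_ne (θ k) u hu
    push_cast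
    generalize Complex.exp (θ k * Complex.I) = E at hne ⊢
    have hne' : 1 - u * E ≠ 0 := by rwa [mul_comm u E]
    field_simp
    ring
  rw [hkey, Complex.re_sum]
  have : Nonempty (Fin N) := ⟨⟨0, by omega⟩⟩
  refine Finset.sum_pos (fun k _ => ?_) Finset.univ_nonempty
  rw [Complex.re_ofReal_mul]
  refine mul_pos (by positivity) ?_
  set z := Complex.exp (θ k * Complex.I) * u with hz
  have hz1 : ‖z‖ < 1 := by
    rw [hz, norm_mul, sc_norm_exp, one_mul]; simpa using hu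
  have hne : 1 - z ≠ 0 := sc_ne (θ k) u hu
  rw [Complex.div_re, ← add_div]
  refine div_pos ?_ (Complex.normSq_pos.mpr hne)
  have h2 : z.re ^ 2 + z.im ^ 2 < 1 := by
    have h3 : Complex.normSq z < 1 := by
      rw [Complex.normSq_eq_norm_sq]
      nlinarith [norm_nonneg z]
    rw [Complex.normSq_apply] at h3
    nlinarith
  simp only [Complex.add_re, Complex.sub_re, Complex.add_im, Complex.sub_im, Complex.one_re,
    Complex.one_im]
  nlinarith

theorem scE_eq_exp (N : ℕ) (θ : Fin N → ℝ) (u : ℂ) (hu : u ∈ ball (0 : ℂ) 1) :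
    scE N θ u = Complex.exp (scL N θ u) := by
  unfold scE scL
  rw [Finset.mul_sum, Complex.exp_sum]
  refine Finset.prod_congr rfl fun k _ => ?_
  rw [Complex.cpow_def_of_ne_zero (sc_ne (θ k) u hu), mul_comm]

/-- `z ↦ z ^ α` is continuous on `{Re z > 0} ∪ {0}` -/
private theorem sc_cpow_cont (α : ℝ) (hα : 0 < α) :
    ContinuousOn (fun z : ℂ => z ^ (α : ℂ)) {z : ℂ | 0 < z.re ∨ z = 0} := by
  intro z hz
  rcases hz with hz | hz
  · exact (ContinuousAt.cpow continuousAt_id continuousAt_const (Or.inl hz)).continuousWithinAt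
  · subst hz
    have hα' : (α : ℂ) ≠ 0 := by exact_mod_cast hα.ne'
    have : ContinuousAt (fun z : ℂ => z ^ (α : ℂ)) 0 := by
      rw [ContinuousAt, Complex.zero_cpow hα', tendsto_zero_iff_norm_tendsto_zero]
      have h1 : ∀ z : ℂ, ‖z ^ (α : ℂ)‖ = ‖z‖ ^ α := by
        intro z
        exact Complex.norm_cpow_real z α
      simp only [h1]
      have h2 : Filter.Tendsto (fun z : ℂ => ‖z‖ ^ α) (nhds 0) (nhds (‖(0 : ℂ)‖ ^ α)) :=
        (continuous_norm.tendsto 0).rpow_const (Or.inr hα.le)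
      simpa [Real.zero_rpow hα.ne'] using h2
    exact this.continuousWithinAt

private theorem sc_fac_mem (θ : ℝ) (u : ℂ) (hu : u ∈ closedBall (0 : ℂ) 1) :
    1 - Complex.exp (θ * Complex.I) * u ∈ {z : ℂ | 0 < z.re ∨ z = 0} := by
  set z := Complex.exp (θ * Complex.I) * u with hz
  have hz1 : ‖z‖ ≤ 1 := by
    rw [hz, norm_mul, sc_norm_exp, one_mul]; simpa using hu
  have h1 : z.re ≤ ‖z‖ := Complex.re_le_norm z
  by_cases h : z.re < 1
  · left; rw [Complex.sub_re, Complex.one_re]; linarith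
  · right
    have h2 : z.re = 1 := by linarith
    have h3 : z.re ^ 2 + z.im ^ 2 ≤ 1 := by
      have h3 : Complex.normSq z ≤ 1 := by
        rw [Complex.normSq_eq_norm_sq]
        nlinarith [norm_nonneg z]
      rw [Complex.normSq_apply] at h3
      nlinarith
    have h4 : z.im = 0 := by
      rw [h2] at h3
      nlinarith [sq_nonneg z.im]
    apply Complex.ext
    · simp [h2]
    · simp [h4]

private theorem sc_two_div (N : ℕ) : (2 / (N : ℂ)) = ((2 / (N : ℝ) : ℝ) : ℂ) := by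
  push_cast; rfl

theorem scE_continuousOn (N : ℕ) (hN : 1 ≤ N) (θ : Fin N → ℝ) :
    ContinuousOn (scE N θ) (closedBall 0 1) := by
  have hN' : (0 : ℝ) < N := by exact_mod_cast hN
  have hα : 0 < 2 / (N : ℝ) := by positivity
  unfold scE
  rw [sc_two_div]
  refine continuousOn_finsetProd _ fun k _ => ?_
  refine (sc_cpow_cont _ hα).comp ?_ (fun u hu => sc_fac_mem (θ k) u hu)
  exact (continuous_const.sub (continuous_const.mul continuous_id)).continuousOn

theorem scE_differentiableOn (N : ℕ) (θ : Fin N → ℝ) :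
    DifferentiableOn ℂ (scE N θ) (ball 0 1) := by
  have h : DifferentiableOn ℂ (fun u => Complex.exp (scL N θ u)) (ball 0 1) :=
    (scL_differentiableOn N θ).cexp
  exact h.congr fun u hu => scE_eq_exp N θ u hu

/-- norm of `scE` on the circle: product of chord lengths -/
theorem norm_scE (N : ℕ) (hN : 1 ≤ N) (θ : Fin N → ℝ) (ψ : ℝ) :
    ‖scE N θ (Complex.exp (-(ψ * Complex.I)))‖
      = ∏ k, ‖1 - Complex.exp ((θ k - ψ) * Complex.I)‖ ^ (2 / (N : ℝ)) := by
  unfold scE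
  rw [norm_prod]
  refine Finset.prod_congr rfl fun k _ => ?_
  rw [sc_two_div, Complex.norm_cpow_real, ← Complex.exp_add]
  congr 4
  ring

/-- direction of the boundary tangent on the `k`-th arc -/
theorem sc_dir (N : ℕ) (hN : 1 ≤ N) (θ : Fin N → ℝ) (hθ0 : ∀ j, 0 ≤ θ j) (k : Fin N) (ψ : ℝ)
    (h1 : ∀ j, j ≤ k → θ j < ψ) (h2 : ∀ j, k < j → ψ < θ j) (hψ : ψ < 2 * Real.pi)
    (hθ1 : ∀ j, θ j ≤ 2 * Real.pi) :
    Complex.exp (ψ * Complex.I) * scE N θ (Complex.exp (-(ψ * Complex.I)))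
      = (‖scE N θ (Complex.exp (-(ψ * Complex.I)))‖ : ℂ)
        * (Complex.exp (((∑ j, θ j) / N - Real.pi + 2 * Real.pi / N : ℝ) * Complex.I) * nu N k) := by
  exact SCDiraux.sc_dir' N hN θ hθ0 k ψ h1 h2 hψ hθ1

end Crest.Agent.R132
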