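import Mathlib
import Crest.Agent.Lib.BrouwerA

/-! # SC6a: face preserving self maps of the simplex are onto (Brouwer) -/

set_option autoImplicit false
open Metric Set

namespace Crest.Agent.R132.SC6A

theorem simplex_surj (N : ℕ) (h : (Fin N → ℝ) → (Fin N → ℝ))
    (hc : ContinuousOn h (stdSimplex ℝ (Fin N))) (hm : MapsTo h (stdSimplex ℝ (Fin N)) (stdSimplex ℝ (Fin N)))
    (hface : ∀ x ∈ stdSimplex ℝ (Fin N), ∀ k, x k = 0 → h x k = 0)
    (p : Fin N → ℝ) (hp : p ∈ stdSimplex ℝ (Fin N)) (hp0 : ∀ k, 0 < p k) :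
    ∃ x ∈ stdSimplex ℝ (Fin N), h x = p := by
  classical
  let m : (Fin N → ℝ) → Fin N → ℝ := fun x k => max 0 (p k - h x k)
  let S : (Fin N → ℝ) → ℝ := fun x => ∑ j, m x j
  let F : (Fin N → ℝ) → (Fin N → ℝ) := fun x k => (x k + m x k) / (1 + S x)
  have hm0 : ∀ x k, 0 ≤ m x k := fun x k => le_max_left _ _
  have hS0 : ∀ x, 0 ≤ S x := fun x => Finset.sum_nonneg fun j _ => hm0 x j
  have hS1 : ∀ x, 0 < 1 + S x := fun x => by have := hS0 x; linarith
  have hmc : ∀ k, ContinuousOn (fun x => m x k) (stdSimplex ℝ (Fin N)) := by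
    intro k
    have h1 : ContinuousOn (fun x => h x k) (stdSimplex ℝ (Fin N)) :=
      (continuous_apply k).comp_continuousOn hc
    exact ContinuousOn.sup continuousOn_const (continuousOn_const.sub h1)
  have hSc : ContinuousOn S (stdSimplex ℝ (Fin N)) := continuousOn_finsetSum _ fun j _ => hmc j
  have hFc : ContinuousOn F (stdSimplex ℝ (Fin N)) := by
    refine continuousOn_pi.mpr fun k => ?_
    refine ContinuousOn.div (((continuous_apply k).continuousOn).add (hmc k))
      (continuousOn_const.add hSc) fun x _ => (hS1 x).ne'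
  have hFm : MapsTo F (stdSimplex ℝ (Fin N)) (stdSimplex ℝ (Fin N)) := by
    intro x hx
    refine ⟨fun k => div_nonneg (add_nonneg (hx.1 k) (hm0 x k)) (hS1 x).le, ?_⟩
    show ∑ k, (x k + m x k) / (1 + S x) = 1
    rw [← Finset.sum_div, Finset.sum_add_distrib, hx.2]
    exact div_self (hS1 x).ne'
  obtain ⟨x, hx, hfx⟩ := Crest.Agent.Brouwer.brouwer_convex (convex_stdSimplex ℝ (Fin N))
    (isCompact_stdSimplex ℝ (Fin N)) ⟨p, hp⟩ F hFc hFm
  have hk : ∀ k, x k * S x = m x k := by
    intro k
    have h1 : (x k + m x k) / (1 + S x) = x k := congrFun hfx k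
    rw [div_eq_iff (hS1 x).ne'] at h1
    linarith
  have hhx := hm hx
  rcases (hS0 x).lt_or_eq with hS | hS
  · exfalso
    have hxk : ∀ k, 0 < x k := by
      intro k
      rcases (hx.1 k).lt_or_eq with h1 | h1
      · exact h1
      · exfalso
        have h2 := hface x hx k h1.symm
        have h3 : m x k = p k := by
          show max 0 (p k - h x k) = p k
          rw [h2, sub_zero]; exact max_eq_right (hp0 k).le
        have h4 := hk k
        rw [← h1, zero_mul, h3] at h4
        exact (hp0 k).ne h4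
    have hlt : ∀ k, h x k < p k := by
      intro k
      have h1 : 0 < m x k := by rw [← hk k]; exact mul_pos (hxk k) hS
      rcases lt_max_iff.mp h1 with h2 | h2
      · exact absurd h2 (lt_irrefl _)
      · linarith
    have hne : (Finset.univ : Finset (Fin N)).Nonempty := by
      rw [Finset.univ_nonempty_iff]
      by_contra hem
      rw [not_nonempty_iff] at hem
      have : S x = 0 := by show ∑ j, m x j = 0; simp
      rw [this] at hS; exact lt_irrefl _ hS
    have h3 : ∑ k, h x k < ∑ k, p k := Finset.sum_lt_sum_of_nonempty hne fun k _ => hlt k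
    rw [hhx.2, hp.2] at h3
    exact lt_irrefl _ h3
  · have hmk : ∀ k, m x k = 0 := by
      intro k; rw [← hk k, ← hS, mul_zero]
    have hle : ∀ k, p k ≤ h x k := by
      intro k
      have h1 : p k - h x k ≤ m x k := le_max_right _ _
      rw [hmk k] at h1
      linarith
    refine ⟨x, hx, ?_⟩
    have h2 := (Finset.sum_eq_sum_iff_of_le (s := Finset.univ) fun k _ => hle k).mp
      (by rw [hhx.2, hp.2])
    funext k
    exact (h2 k (Finset.mem_univ k)).symm

end Crest.Agent.R132.SC6A
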