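import Crest.Agent.R132.SCFun
import Crest.Agent.Lib.BrouwerA
import Crest.Agent.R132.SC6A

/-!
# Pieces SC6a (simplex surjectivity from Brouwer) and SC6b (parameter problem)

SC6a: `F(x)_k = (x_k + max 0 (p_k - h(x)_k)) / (1 + ∑_j max 0 (p_j - h(x)_j))` maps the simplex into itself, continuous; Brouwer
(`Crest.Agent.Lib.BrouwerA`, `brouwer_convex`) gives a fixed point: `x_k S = max 0 (p_k - h(x)_k)` with `S = ∑ max 0 (...)`.
If `S > 0`: an index with `x_k = 0` has `h(x)_k = 0 < p_k`, contradiction; so all `x_k > 0`, all `p_k > h(x)_k`, sum: `1 > 1`.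
So `S = 0`, `h(x)_k ≥ p_k` for all `k`, and the sums agree.

SC6b: apply SC6a to `h(x)_k = len x k / ∑_j len x j` and `p_k = Lk k / ∑ Lk`.  Continuity of `len N · k` on the simplex: substitute
`ψ = thx k + 2π x_k s`, `s ∈ [0,1]`, and `norm_scE` (jointly continuous integrand).  `len x k = 0` if `x_k = 0`; `∑ len > 0`: some `x_k > 0`, and the
integrand is continuous, `≥ 0`, and zero only at the finitely many prevertices.  The solution has all `x_k > 0` since `p_k > 0`.
-/

set_option autoImplicit false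
open Metric Set

namespace Crest.Agent.R132

theorem simplex_surj (N : ℕ) (h : (Fin N → ℝ) → (Fin N → ℝ))
    (hc : ContinuousOn h (stdSimplex ℝ (Fin N))) (hm : MapsTo h (stdSimplex ℝ (Fin N)) (stdSimplex ℝ (Fin N)))
    (hface : ∀ x ∈ stdSimplex ℝ (Fin N), ∀ k, x k = 0 → h x k = 0)
    (p : Fin N → ℝ) (hp : p ∈ stdSimplex ℝ (Fin N)) (hp0 : ∀ k, 0 < p k) :
    ∃ x ∈ stdSimplex ℝ (Fin N), h x = p :=
  SC6A.simplex_surj N h hc hm hface p hp hp0

/-- the integrand, as an explicit product -/
noncomputable def lenInt (N : ℕ) (x : Fin N → ℝ) (ψ : ℝ) : ℝ :=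
  ∏ k, ‖1 - Complex.exp ((thx N x k - ψ) * Complex.I)‖ ^ (2 / (N : ℝ))

theorem len_eq (N : ℕ) (hN : 1 ≤ N) (x : Fin N → ℝ) (k : Fin N) :
    len N x k = ∫ ψ in (thx N x k)..(thx N x k + 2 * Real.pi * x k), lenInt N x ψ := by
  unfold len lenInt
  apply intervalIntegral.integral_congr
  intro ψ _
  exact norm_scE N hN (thx N x) ψ

theorem thx_continuous (N : ℕ) (k : Fin N) : Continuous (fun x : Fin N → ℝ => thx N x k) := by
  unfold thx
  fun_prop

theorem lenInt_continuous (N : ℕ) :
    Continuous (Function.uncurry (fun (x : Fin N → ℝ) (ψ : ℝ) => lenInt N x ψ)) := by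
  unfold Function.uncurry lenInt
  apply continuous_finsetProd
  intro k _
  apply Continuous.rpow_const
  · have h1 : Continuous (fun a : (Fin N → ℝ) × ℝ => thx N a.1 k) :=
      (thx_continuous N k).comp continuous_fst
    fun_prop
  · intro a
    right
    positivity

theorem lenInt_continuous' (N : ℕ) (x : Fin N → ℝ) : Continuous (lenInt N x) := by
  have h : Continuous (fun ψ : ℝ => ∏ k, ‖1 - Complex.exp ((thx N x k - ψ) * Complex.I)‖ ^ (2 / (N : ℝ))) := by
    apply continuous_finsetProd
    intro k _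
    apply Continuous.rpow_const
    · fun_prop
    · intro a
      right
      positivity
  exact h

theorem lenInt_nonneg (N : ℕ) (x : Fin N → ℝ) (ψ : ℝ) : 0 ≤ lenInt N x ψ := by
  unfold lenInt
  apply Finset.prod_nonneg
  intro k _
  exact Real.rpow_nonneg (norm_nonneg _) _

theorem len_continuousOn (N : ℕ) (hN : 1 ≤ N) (k : Fin N) :
    ContinuousOn (fun x => len N x k) (stdSimplex ℝ (Fin N)) := by
  apply Continuous.continuousOn
  have h1 : (fun x : Fin N → ℝ => len N x k) = fun x =>
      (∫ ψ in (0 : ℝ)..(thx N x k + 2 * Real.pi * x k), lenInt N x ψ)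
        - ∫ ψ in (0 : ℝ)..(thx N x k), lenInt N x ψ := by
    funext x
    rw [len_eq N hN x k]
    have hc : Continuous (lenInt N x) := lenInt_continuous' N x
    rw [intervalIntegral.integral_interval_sub_left (hc.intervalIntegrable _ _) (hc.intervalIntegrable _ _)]
  rw [h1]
  have hs1 : Continuous (fun x : Fin N → ℝ => thx N x k) := thx_continuous N k
  have hs2 : Continuous (fun x : Fin N → ℝ => thx N x k + 2 * Real.pi * x k) := by
    exact hs1.add (by fun_prop)
  exact (intervalIntegral.continuous_parametric_intervalIntegral_of_continuous (lenInt_continuous N) hs2).sub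
    (intervalIntegral.continuous_parametric_intervalIntegral_of_continuous (lenInt_continuous N) hs1)

theorem len_nonneg (N : ℕ) (x : Fin N → ℝ) (hx : x ∈ stdSimplex ℝ (Fin N)) (k : Fin N) :
    0 ≤ len N x k := by
  unfold len
  apply intervalIntegral.integral_nonneg
  · have := hx.1 k
    have := Real.pi_pos
    nlinarith [mul_nonneg this.le (hx.1 k)]
  · intro ψ _
    exact norm_nonneg _

/-- a partial sum of the gaps, order facts -/
theorem thx_le_of_le (N : ℕ) (x : Fin N → ℝ) (hx : ∀ k, 0 ≤ x k) (j k : Fin N) (hjk : j ≤ k) :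
    thx N x j ≤ thx N x k := by
  unfold thx
  apply mul_le_mul_of_nonneg_left _ (by positivity)
  apply Finset.sum_le_sum_of_subset_of_nonneg
  · intro i hi
    simp only [Finset.mem_filter, Finset.mem_univ, true_and] at hi ⊢
    exact lt_of_lt_of_le hi hjk
  · intro i _ _
    exact hx i

theorem thx_succ_le (N : ℕ) (x : Fin N → ℝ) (hx : ∀ k, 0 ≤ x k) (j k : Fin N) (hkj : k < j) :
    thx N x k + 2 * Real.pi * x k ≤ thx N x j := by
  unfold thx
  rw [← mul_add]
  apply mul_le_mul_of_nonneg_left _ (by positivity)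
  have h1 : ∑ i ∈ Finset.univ.filter (fun i => i < k), x i + x k
      = ∑ i ∈ insert k (Finset.univ.filter (fun i => i < k)), x i := by
    rw [Finset.sum_insert (by simp), add_comm]
  rw [h1]
  apply Finset.sum_le_sum_of_subset_of_nonneg
  · intro i hi
    simp only [Finset.mem_insert, Finset.mem_filter, Finset.mem_univ, true_and] at hi ⊢
    rcases hi with rfl | hi
    · exact hkj
    · exact lt_trans hi hkj
  · intro i _ _
    exact hx i

theorem thx_nonneg (N : ℕ) (x : Fin N → ℝ) (hx : ∀ k, 0 ≤ x k) (k : Fin N) : 0 ≤ thx N x k := by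
  unfold thx
  apply mul_nonneg (by positivity)
  exact Finset.sum_nonneg (fun i _ => hx i)

theorem thx_add_le (N : ℕ) (x : Fin N → ℝ) (hx : x ∈ stdSimplex ℝ (Fin N)) (k : Fin N) :
    thx N x k + 2 * Real.pi * x k ≤ 2 * Real.pi := by
  unfold thx
  rw [← mul_add]
  have h1 : ∑ i ∈ Finset.univ.filter (fun i => i < k), x i + x k
      = ∑ i ∈ insert k (Finset.univ.filter (fun i => i < k)), x i := by
    rw [Finset.sum_insert (by simp), add_comm]
  rw [h1]
  have h2 : ∑ i ∈ insert k (Finset.univ.filter (fun i => i < k)), x i ≤ ∑ i, x i :=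
    Finset.sum_le_sum_of_subset_of_nonneg (Finset.subset_univ _) (fun i _ _ => hx.1 i)
  rw [hx.2] at h2
  nlinarith [Real.pi_pos]

theorem thx_le (N : ℕ) (x : Fin N → ℝ) (hx : x ∈ stdSimplex ℝ (Fin N)) (k : Fin N) :
    thx N x k ≤ 2 * Real.pi := by
  have h1 := thx_add_le N x hx k
  have h2 : 0 ≤ 2 * Real.pi * x k := mul_nonneg (by positivity) (hx.1 k)
  linarith

theorem one_sub_exp_ne (t : ℝ) (h0 : t ≠ 0) (h1 : |t| < 2 * Real.pi) :
    1 - Complex.exp ((t : ℂ) * Complex.I) ≠ 0 := by
  intro h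
  have h2 : Complex.exp ((t : ℂ) * Complex.I) = 1 := (sub_eq_zero.mp h).symm
  rw [Complex.exp_eq_one_iff] at h2
  obtain ⟨n, hn⟩ := h2
  have h3 : (t : ℂ) = n * (2 * Real.pi) := by
    have : (t : ℂ) * Complex.I = (n * (2 * Real.pi)) * Complex.I := by rw [hn]; ring
    exact mul_right_cancel₀ Complex.I_ne_zero this
  have h4 : t = n * (2 * Real.pi) := by exact_mod_cast h3
  have hn0 : n ≠ 0 := by
    rintro rfl
    apply h0; rw [h4]; simp
  have h5 : (1 : ℝ) ≤ |(n : ℝ)| := by
    have : (1 : ℤ) ≤ |n| := Int.one_le_abs hn0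
    exact_mod_cast this
  rw [h4, abs_mul, abs_of_pos (by positivity : (0 : ℝ) < 2 * Real.pi)] at h1
  nlinarith [Real.pi_pos]

theorem len_pos (N : ℕ) (hN : 1 ≤ N) (x : Fin N → ℝ) (hx : x ∈ stdSimplex ℝ (Fin N)) (k : Fin N)
    (hk : 0 < x k) : 0 < len N x k := by
  rw [len_eq N hN x k]
  have hc : Continuous (lenInt N x) := lenInt_continuous' N x
  apply intervalIntegral.intervalIntegral_pos_of_pos_on (hc.intervalIntegrable _ _)
  · intro ψ hψ
    unfold lenInt
    apply Finset.prod_pos
    intro j _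
    apply Real.rpow_pos_of_pos
    rw [norm_pos_iff]
    have e : ((thx N x j : ℂ) - (ψ : ℂ)) = ((thx N x j - ψ : ℝ) : ℂ) := by push_cast; ring
    rw [e]
    have a1 := thx_nonneg N x hx.1 j
    have a2 := thx_le N x hx j
    have a3 := thx_nonneg N x hx.1 k
    have a4 := thx_add_le N x hx k
    apply one_sub_exp_ne
    · intro h0
      rcases le_or_gt j k with hjk | hkj
      · have := thx_le_of_le N x hx.1 j k hjk
        linarith [hψ.1]
      · have := thx_succ_le N x hx.1 j k hkj
        linarith [hψ.2]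
    · rw [abs_lt]
      constructor
      · linarith [hψ.2]
      · linarith [hψ.1]
  · have : 0 < 2 * Real.pi * x k := mul_pos (by positivity) hk
    linarith

theorem sc_param (N : ℕ) (hN : 1 ≤ N) (Lk : Fin N → ℝ) (hL : ∀ k, 0 < Lk k) :
    ∃ x ∈ stdSimplex ℝ (Fin N), (∀ k, 0 < x k) ∧ ∃ μ : ℝ, 0 < μ ∧ ∀ k, len N x k = μ * Lk k := by
  have : Nonempty (Fin N) := ⟨⟨0, hN⟩⟩
  have hSL : 0 < ∑ j, Lk j := Finset.sum_pos (fun j _ => hL j) Finset.univ_nonempty
  have hS : ∀ x ∈ stdSimplex ℝ (Fin N), 0 < ∑ j, len N x j := by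
    intro x hx
    have hex : ∃ k, 0 < x k := by
      by_contra hcon
      push Not at hcon
      have h1 : ∑ k, x k ≤ 0 := Finset.sum_nonpos (fun k _ => hcon k)
      rw [hx.2] at h1
      linarith
    obtain ⟨k, hk⟩ := hex
    exact Finset.sum_pos' (fun j _ => len_nonneg N x hx j) ⟨k, Finset.mem_univ k, len_pos N hN x hx k hk⟩
  have hface : ∀ x ∈ stdSimplex ℝ (Fin N), ∀ k, x k = 0 → len N x k / ∑ j, len N x j = 0 := by
    intro x hx k hk
    have : len N x k = 0 := by
      unfold len
      rw [hk]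
      simp
    rw [this, zero_div]
  have hp : (fun k => Lk k / ∑ j, Lk j) ∈ stdSimplex ℝ (Fin N) := by
    constructor
    · intro k; exact div_nonneg (hL k).le hSL.le
    · rw [← Finset.sum_div, div_self hSL.ne']
  obtain ⟨x, hx, hxp⟩ := simplex_surj N (fun x k => len N x k / ∑ j, len N x j)
    (by
      rw [continuousOn_pi]
      intro k
      apply ContinuousOn.div (len_continuousOn N hN k)
      · exact continuousOn_finsetSum _ (fun j _ => len_continuousOn N hN j)
      · intro x hx; exact (hS x hx).ne')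
    (by
      intro x hx
      constructor
      · intro k; exact div_nonneg (len_nonneg N x hx k) (hS x hx).le
      · rw [← Finset.sum_div, div_self (hS x hx).ne'])
    hface (fun k => Lk k / ∑ j, Lk j) hp (fun k => div_pos (hL k) hSL)
  refine ⟨x, hx, ?_, (∑ j, len N x j) / ∑ j, Lk j, div_pos (hS x hx) hSL, ?_⟩
  · intro k
    rcases (hx.1 k).lt_or_eq with h | h
    · exact h
    · exfalso
      have h1 := hface x hx k h.symm
      have h2 : len N x k / ∑ j, len N x j = Lk k / ∑ j, Lk j := congrFun hxp k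
      rw [h1] at h2
      have := div_pos (hL k) hSL
      linarith
  · intro k
    have h2 : len N x k / ∑ j, len N x j = Lk k / ∑ j, Lk j := congrFun hxp k
    rw [div_eq_div_iff (hS x hx).ne' hSL.ne'] at h2
    field_simp
    linarith

end Crest.Agent.R132
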