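import Crest.Agent.R132.SCDefs

/-!
# Piece SC7A : circumscribed equiangular polygons (helper lemmas and proof of `polygon_exists`)
-/

set_option autoImplicit false
open Metric Set

namespace Crest.Agent.R132

namespace SC7Aaux

theorem nu_succ (N : ℕ) (k : ℕ) :
    nu N (k + 1) = nu N k * Complex.exp (((2 * Real.pi / N : ℝ) : ℂ) * Complex.I) := by
  unfold nu
  rw [← Complex.exp_add]
  congr 1
  push_cast
  ring

theorem nu_period (N : ℕ) (hN : N ≠ 0) (k : ℕ) : nu N (k + N) = nu N k := by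
  unfold nu
  have hN' : (N : ℂ) ≠ 0 := by exact_mod_cast hN
  have h1 : (2 * (Real.pi : ℂ) * ((k + N : ℕ) : ℂ) / (N : ℂ) * Complex.I) =
      2 * (Real.pi : ℂ) * (k : ℂ) / (N : ℂ) * Complex.I + 2 * (Real.pi : ℂ) * Complex.I := by
    push_cast
    field_simp
  rw [h1, Complex.exp_add, Complex.exp_two_pi_mul_I, mul_one]

theorem norm_nu (N k : ℕ) : ‖nu N k‖ = 1 := by
  unfold nu
  have h1 : (2 * (Real.pi : ℂ) * (k : ℂ) / (N : ℂ) * Complex.I) =
      ((2 * Real.pi * k / N : ℝ) : ℂ) * Complex.I := by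
    push_cast; ring
  rw [h1, Complex.norm_exp_ofReal_mul_I]

theorem conj_mul_self_of_norm {ν : ℂ} (h : ‖ν‖ = 1) : (starRingEnd ℂ) ν * ν = 1 := by
  rw [mul_comm, Complex.mul_conj, Complex.normSq_eq_norm_sq, h]
  norm_num

theorem vertex_near (K : Set ℂ) (hKc : Convex ℝ K) (D : ℝ)
    (hD : ∀ a ∈ K, ∀ b ∈ K, ‖a - b‖ ≤ D) (ν : ℂ) (hν : ‖ν‖ = 1) (β : ℝ) (hβ0 : 0 < β)
    (hβ1 : β < Real.pi / 2) (a b : ℂ) (haK : a ∈ K) (hbK : b ∈ K)
    (ha : ∀ z ∈ K, ((starRingEnd ℂ) ν * z).re ≤ ((starRingEnd ℂ) ν * a).re)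
    (h' : ℝ) (hb0 : ((starRingEnd ℂ) ν * b).re * Real.cos β - ((starRingEnd ℂ) ν * b).im *
      Real.sin β = h')
    (hb : ((starRingEnd ℂ) ν * a).re * Real.cos β - ((starRingEnd ℂ) ν * a).im * Real.sin β ≤ h') :
    ∃ r ∈ K, ‖ν * ((((starRingEnd ℂ) ν * a).re : ℂ) +
      Complex.I * (((((starRingEnd ℂ) ν * a).re * Real.cos β - h') / Real.sin β : ℝ) : ℂ)) - r‖ ≤
      Real.tan β * D := by
  have hs : 0 < Real.sin β := Real.sin_pos_of_pos_of_lt_pi hβ0 (by linarith [Real.pi_pos])
  have hc : 0 < Real.cos β := Real.cos_pos_of_mem_Ioo ⟨by linarith, hβ1⟩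
  have htan : 0 < Real.tan β := Real.tan_pos_of_pos_of_lt_pi_div_two hβ0 hβ1
  set A : ℂ := (starRingEnd ℂ) ν * a with hA
  set B : ℂ := (starRingEnd ℂ) ν * b with hB
  set q : ℝ := (A.re * Real.cos β - h') / Real.sin β with hq
  have hνν := conj_mul_self_of_norm hν
  have haA : ν * A = a := by rw [hA, ← mul_assoc, mul_comm ν, hνν, one_mul]
  have hu : B.re ≤ A.re := ha b hbK
  have hyq : q ≤ A.im := by
    rw [hq, div_le_iff₀ hs]; linarith
  have hqv : q - B.im = Real.cos β * (A.re - B.re) / Real.sin β := by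
    rw [hq, ← hb0]; field_simp; ring
  have hqv0 : 0 ≤ q - B.im := by
    rw [hqv]; exact div_nonneg (mul_nonneg hc.le (by linarith)) hs.le
  have hD0 : 0 ≤ D := le_trans (norm_nonneg _) (hD a haK b hbK)
  rcases hyq.eq_or_lt with h1 | h1
  · refine ⟨a, haK, ?_⟩
    have h2 : ((A.re : ℂ) + Complex.I * (q : ℂ)) = A := by
      rw [h1]
      apply Complex.ext <;> simp
    rw [h2, haA, sub_self, norm_zero]
    positivity
  · have hyv : 0 < A.im - B.im := by linarith
    set lam : ℝ := (A.im - q) / (A.im - B.im) with hlam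
    have hl0 : 0 ≤ lam := div_nonneg (by linarith) hyv.le
    have hl1 : lam ≤ 1 := by rw [hlam, div_le_one hyv]; linarith
    refine ⟨(1 - lam) • a + lam • b, hKc haK hbK (by linarith) hl0 (by ring), ?_⟩
    have h3 : ν * ((A.re : ℂ) + Complex.I * (q : ℂ)) - ((1 - lam) • a + lam • b) =
        ν * ((lam * (A.re - B.re) : ℝ) : ℂ) := by
      have hbB : ν * B = b := by rw [hB, ← mul_assoc, mul_comm ν, hνν, one_mul]
      have h4 : ((1 - lam) • a + lam • b : ℂ) = ν * ((1 - lam : ℝ) * A + (lam : ℝ) * B) := by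
        rw [Complex.real_smul, Complex.real_smul]
        nth_rewrite 1 [← haA]
        nth_rewrite 1 [← hbB]
        ring
      rw [h4, ← mul_sub]
      congr 1
      apply Complex.ext
      · simp
        ring
      · simp
        have : lam * (A.im - B.im) = A.im - q := by
          rw [hlam]; field_simp
        linarith
    rw [h3, norm_mul, hν, one_mul, Complex.norm_real, Real.norm_eq_abs,
      abs_of_nonneg (mul_nonneg hl0 (by linarith))]
    have h5 : A.re - B.re = Real.tan β * (q - B.im) := by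
      rw [hqv, Real.tan_eq_sin_div_cos]; field_simp
    have h6 : A.im - B.im ≤ ‖a - b‖ := by
      have h7 : A - B = (starRingEnd ℂ) ν * (a - b) := by rw [hA, hB]; ring
      have h8 : ‖A - B‖ = ‖a - b‖ := by
        rw [h7, norm_mul, Complex.norm_conj, hν, one_mul]
      rw [← h8]
      calc A.im - B.im = (A - B).im := by simp
        _ ≤ |(A - B).im| := le_abs_self _
        _ ≤ _ := Complex.abs_im_le_norm _
    calc lam * (A.re - B.re) ≤ 1 * (A.re - B.re) :=
          mul_le_mul_of_nonneg_right hl1 (by linarith)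
      _ = Real.tan β * (q - B.im) := by rw [one_mul, h5]
      _ ≤ Real.tan β * (A.im - B.im) := mul_le_mul_of_nonneg_left (by linarith) htan.le
      _ ≤ Real.tan β * D := mul_le_mul_of_nonneg_left (h6.trans (hD a haK b hbK)) htan.le

theorem exists_N (D ε : ℝ) (hε : 0 < ε) :
    ∃ N : ℕ, 5 ≤ N ∧ Real.tan (2 * Real.pi / N) * D < ε := by
  have h1 : Filter.Tendsto (fun N : ℕ => Real.tan (2 * Real.pi / N) * D) Filter.atTop
      (nhds (Real.tan 0 * D)) := by
    refine Filter.Tendsto.mul_const _ ?_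
    have h2 : ContinuousAt Real.tan 0 := by
      rw [Real.continuousAt_tan]; simp
    exact h2.tendsto.comp (tendsto_const_div_atTop_nhds_zero_nat _)
  rw [Real.tan_zero, zero_mul] at h1
  obtain ⟨N, hN⟩ := ((h1.eventually (gt_mem_nhds hε)).and (Filter.eventually_ge_atTop 5)).exists
  exact ⟨N, hN.2, hN.1⟩

end SC7Aaux

open SC7Aaux in
theorem polygon_exists_aux (K V : Set ℂ) (hK : IsCompact K) (hKc : Convex ℝ K) (hKn : K.Nonempty)
    (hV : IsOpen V) (hKV : K ⊆ V) :
    ∃ (N : ℕ) (P : ℕ → ℂ) (Lk : ℕ → ℝ), 3 ≤ N ∧ (∀ k, P (k + N) = P k) ∧ (∀ k, 0 < Lk k) ∧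
      (∀ k, P (k + 1) - P k = Complex.I * nu N k * Lk k) ∧ (∀ k, P k ∈ V) ∧
      (∀ a ∈ K, ∀ k, 0 < ((starRingEnd ℂ) (nu N k) * (P k - a)).re) := by
  obtain ⟨ε, hε, hεV⟩ := hK.exists_thickening_subset_open hV hKV
  have hmax : ∀ ν : ℂ, ∃ a ∈ K, ∀ b ∈ K,
      ((starRingEnd ℂ) ν * b).re ≤ ((starRingEnd ℂ) ν * a).re := by
    intro ν
    obtain ⟨a, haK, ha⟩ := hK.exists_isMaxOn hKn
      (f := fun z => ((starRingEnd ℂ) ν * z).re) (by fun_prop)
    exact ⟨a, haK, fun b hb => ha hb⟩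
  choose a haK ha using hmax
  obtain ⟨N, hN5, hNt⟩ := exists_N (Metric.diam K) (ε / 2) (by linarith)
  have hN0 : N ≠ 0 := by omega
  have hNpos : (0 : ℝ) < N := by exact_mod_cast (by omega : 0 < N)
  set β : ℝ := 2 * Real.pi / N with hβ
  have hβ0 : 0 < β := by rw [hβ]; positivity
  have hβ1 : β < Real.pi / 2 := by
    rw [hβ, div_lt_iff₀ hNpos]
    have : (5 : ℝ) ≤ N := by exact_mod_cast hN5
    nlinarith [Real.pi_pos]
  have hs : 0 < Real.sin β := Real.sin_pos_of_pos_of_lt_pi hβ0 (by linarith [Real.pi_pos])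
  have hc : 0 < Real.cos β := Real.cos_pos_of_mem_Ioo ⟨by linarith, hβ1⟩
  have hc1 : Real.cos β < 1 := by
    have := Real.cos_lt_cos_of_nonneg_of_le_pi (le_refl 0) (by linarith [Real.pi_pos]) hβ0
    rwa [Real.cos_zero] at this
  have hcs : 1 - Real.cos β ≤ Real.sin β := by
    have h1 := Real.sin_sq_add_cos_sq β
    have h2 : Real.sin β ≤ 1 := Real.sin_le_one β
    nlinarith
  set w : ℂ := Complex.exp ((β : ℂ) * Complex.I) with hw
  have hwre : w.re = Real.cos β := by
    rw [hw, Complex.exp_ofReal_mul_I_re]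
  have hwim : w.im = Real.sin β := by
    rw [hw, Complex.exp_ofReal_mul_I_im]
  have hwn : ‖w‖ = 1 := by rw [hw, Complex.norm_exp_ofReal_mul_I]
  have hww : (starRingEnd ℂ) w * w = 1 := conj_mul_self_of_norm hwn
  set δ : ℝ := ε / 4 with hδ
  have hδ0 : 0 < δ := by rw [hδ]; positivity
  set h : ℂ → ℝ := fun ν => ((starRingEnd ℂ) ν * a ν).re with hh
  set H : ℂ → ℝ := fun ν => h ν + δ with hH
  set P : ℕ → ℂ := fun k => nu N k * ((H (nu N k) : ℂ) + Complex.I *
    (((H (nu N k) * Real.cos β - H (nu N k * (starRingEnd ℂ) w)) / Real.sin β : ℝ) : ℂ)) with hP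
  set Lk : ℕ → ℝ := fun k => (H (nu N k * w) + H (nu N k * (starRingEnd ℂ) w) -
    2 * H (nu N k) * Real.cos β) / Real.sin β with hLk
  have hsucc : ∀ k, nu N (k + 1) = nu N k * w := fun k => nu_succ N k
  refine ⟨N, P, Lk, by omega, ?_, ?_, ?_, ?_, ?_⟩
  · intro k
    simp only [hP, nu_period N hN0 k]
  · intro k
    simp only [hLk, hH, hh]
    refine div_pos ?_ hs
    set ν := nu N k with hν
    have h1 := ha (ν * w) (a ν) (haK ν)
    have h2 := ha (ν * (starRingEnd ℂ) w) (a ν) (haK ν)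
    have h3 : ((starRingEnd ℂ) (ν * w) * a ν).re + ((starRingEnd ℂ) (ν * (starRingEnd ℂ) w) *
        a ν).re = 2 * Real.cos β * ((starRingEnd ℂ) ν * a ν).re := by
      have h4 : (starRingEnd ℂ) (ν * w) * a ν + (starRingEnd ℂ) (ν * (starRingEnd ℂ) w) * a ν =
          ((2 * Real.cos β : ℝ) : ℂ) * ((starRingEnd ℂ) ν * a ν) := by
        have h5 : (starRingEnd ℂ) w + w = ((2 * Real.cos β : ℝ) : ℂ) := by
          apply Complex.ext
          · rw [Complex.add_re, Complex.conj_re, Complex.ofReal_re, hwre]; ring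
          · rw [Complex.add_im, Complex.conj_im, Complex.ofReal_im]; ring
        rw [map_mul, map_mul, Complex.conj_conj, ← h5]
        ring
      rw [← Complex.add_re, h4, Complex.re_ofReal_mul]
    nlinarith
  · intro k
    simp only [hP, hLk]
    rw [hsucc k]
    have h1 : nu N k * w * (starRingEnd ℂ) w = nu N k := by
      rw [mul_assoc, mul_comm w, hww, mul_one]
    rw [h1]
    set ν := nu N k with hν
    have hsne : (Real.sin β : ℂ) ≠ 0 := by exact_mod_cast hs.ne'
    rw [show ν * w * ((H (ν * w) : ℂ) + Complex.I * (((H (ν * w) * Real.cos β - H ν) /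
      Real.sin β : ℝ) : ℂ)) = ν * (w * ((H (ν * w) : ℂ) + Complex.I *
        (((H (ν * w) * Real.cos β - H ν) / Real.sin β : ℝ) : ℂ))) by ring]
    have key : w * ((H (ν * w) : ℂ) + Complex.I *
        (((H (ν * w) * Real.cos β - H ν) / Real.sin β : ℝ) : ℂ)) =
        (H ν : ℂ) + Complex.I * (((H (ν * w) - Real.cos β * H ν) / Real.sin β : ℝ) : ℂ) := by
      apply Complex.ext
      · simp only [Complex.mul_re, Complex.add_re, Complex.ofReal_re, Complex.I_re, zero_mul,
          Complex.I_im, Complex.ofReal_im, mul_zero, sub_zero, Complex.add_im, one_mul,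
          Complex.mul_im, zero_add, hwre, hwim]
        field_simp
        ring
      · simp only [Complex.mul_re, Complex.add_re, Complex.ofReal_re, Complex.I_re, zero_mul,
          Complex.I_im, Complex.ofReal_im, mul_zero, sub_zero, Complex.add_im, one_mul,
          Complex.mul_im, zero_add, hwre, hwim]
        have := Real.sin_sq_add_cos_sq β
        field_simp
        linear_combination (H (ν * w)) * this
    rw [key]
    push_cast
    field_simp
    ring
  · intro k
    apply hεV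
    rw [Metric.mem_thickening_iff]
    set ν := nu N k with hν
    have hνn : ‖ν‖ = 1 := norm_nu N k
    have hcν : (starRingEnd ℂ) (ν * (starRingEnd ℂ) w) = (starRingEnd ℂ) ν * w := by
      rw [map_mul, Complex.conj_conj]
    have hre : ∀ z : ℂ, ((starRingEnd ℂ) (ν * (starRingEnd ℂ) w) * z).re =
        ((starRingEnd ℂ) ν * z).re * Real.cos β - ((starRingEnd ℂ) ν * z).im * Real.sin β := by
      intro z
      rw [hcν, show (starRingEnd ℂ) ν * w * z = ((starRingEnd ℂ) ν * z) * w by ring,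
        Complex.mul_re, hwre, hwim]
    obtain ⟨r, hrK, hr⟩ := vertex_near K hKc (Metric.diam K)
      (fun x hx y hy => by
        rw [← dist_eq_norm]; exact Metric.dist_le_diam_of_mem hK.isBounded hx hy)
      ν hνn β hβ0 hβ1 (a ν) (a (ν * (starRingEnd ℂ) w)) (haK _) (haK _) (ha ν)
      (h (ν * (starRingEnd ℂ) w)) (by rw [← hre]) (by
        rw [← hre]; exact ha (ν * (starRingEnd ℂ) w) (a ν) (haK ν))
    refine ⟨r, hrK, ?_⟩
    rw [dist_eq_norm]
    have h1 : P k - r = (ν * ((((starRingEnd ℂ) ν * a ν).re : ℂ) +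
      Complex.I * (((((starRingEnd ℂ) ν * a ν).re * Real.cos β - h (ν * (starRingEnd ℂ) w)) /
        Real.sin β : ℝ) : ℂ)) - r) +
        ν * ((δ : ℂ) + Complex.I * ((δ * (Real.cos β - 1) / Real.sin β : ℝ) : ℂ)) := by
      simp only [hP, hH, hh]
      push_cast
      ring
    rw [h1]
    have h2 : ‖ν * ((δ : ℂ) + Complex.I * ((δ * (Real.cos β - 1) / Real.sin β : ℝ) : ℂ))‖ ≤
        2 * δ := by
      rw [norm_mul, hνn, one_mul]
      refine (norm_add_le _ _).trans ?_
      rw [norm_mul, Complex.norm_I, one_mul, Complex.norm_real, Complex.norm_real,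
        Real.norm_eq_abs, Real.norm_eq_abs, abs_of_pos hδ0]
      have h3 : |δ * (Real.cos β - 1) / Real.sin β| ≤ δ := by
        rw [abs_div, abs_of_pos hs, div_le_iff₀ hs, abs_mul, abs_of_pos hδ0]
        refine mul_le_mul_of_nonneg_left ?_ hδ0.le
        rw [abs_sub_comm, abs_of_pos (by linarith)]
        exact hcs
      linarith
    calc _ ≤ _ := norm_add_le _ _
      _ ≤ Real.tan β * Metric.diam K + 2 * δ := add_le_add hr h2
      _ < ε := by rw [hδ]; linarith
  · intro z hz k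
    set ν := nu N k with hν
    have hνn : ‖ν‖ = 1 := norm_nu N k
    have h1 : (starRingEnd ℂ) ν * (P k - z) = ((H ν : ℂ) + Complex.I *
      (((H ν * Real.cos β - H (ν * (starRingEnd ℂ) w)) / Real.sin β : ℝ) : ℂ)) -
        (starRingEnd ℂ) ν * z := by
      simp only [hP]
      rw [mul_sub, ← hν, ← mul_assoc, conj_mul_self_of_norm hνn, one_mul]
    rw [h1, Complex.sub_re]
    have h2 := ha ν z hz
    simp only [Complex.add_re, Complex.mul_re, Complex.ofReal_re, Complex.I_re, zero_mul,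
      Complex.I_im, Complex.ofReal_im, mul_zero, sub_zero, add_zero, hH, hh]
    simp only [Complex.mul_re] at h2
    linarith

end Crest.Agent.R132
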