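import Crest.Agent.R132.SCDefs

/-!
# Piece SC7b : cone decomposition of a direction, `polygon_dir`
-/

set_option autoImplicit false
open Metric Set

namespace Crest.Agent.R132.SC7Baux

theorem exp_dec (β s : ℝ) (h : Real.sin β ≠ 0) :
    Complex.exp ((s : ℂ) * Complex.I) = (Real.sin (β - s) / Real.sin β : ℝ) +
        (Real.sin s / Real.sin β : ℝ) * Complex.exp ((β : ℂ) * Complex.I) := by
  apply Complex.ext
  · rw [Complex.add_re, Complex.re_ofReal_mul, Complex.exp_ofReal_mul_I_re,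
      Complex.exp_ofReal_mul_I_re, Complex.ofReal_re, Real.sin_sub]
    field_simp
    ring
  · rw [Complex.add_im, Complex.im_ofReal_mul, Complex.exp_ofReal_mul_I_im,
      Complex.exp_ofReal_mul_I_im, Complex.ofReal_im]
    field_simp
    ring

/-- any `ν` is a nonnegative combination of two neighbouring equiangular normals. -/
theorem cone (N : ℕ) (hN : 3 ≤ N) (ν : ℂ) (hν : ν ≠ 0) :
    ∃ (k : ℕ) (lam mu : ℝ), k < N ∧ 0 ≤ lam ∧ 0 ≤ mu ∧ 0 < lam + mu ∧
      ν = lam * nu N k + mu * nu N (k + 1) := by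
  have hNpos : (0 : ℝ) < N := by
    have : 0 < N := by omega
    exact_mod_cast this
  have hN3 : (3 : ℝ) ≤ N := by exact_mod_cast hN
  set β : ℝ := 2 * Real.pi / N with hβ
  have hβpos : 0 < β := by positivity
  have hβlt : β < Real.pi := by
    rw [hβ, div_lt_iff₀ hNpos]
    nlinarith [Real.pi_pos]
  have hsinβ : 0 < Real.sin β := Real.sin_pos_of_pos_of_lt_pi hβpos hβlt
  have hNβ : N * β = 2 * Real.pi := by rw [hβ]; field_simp
  -- an argument in [0, 2π)
  obtain ⟨φ, hφ0, hφ1, hφ⟩ : ∃ φ : ℝ, 0 ≤ φ ∧ φ < 2 * Real.pi ∧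
      ν = ‖ν‖ * Complex.exp (φ * Complex.I) := by
    by_cases h : 0 ≤ Complex.arg ν
    · exact ⟨Complex.arg ν, h, by linarith [Complex.arg_le_pi ν, Real.pi_pos],
        (Complex.norm_mul_exp_arg_mul_I ν).symm⟩
    · refine ⟨Complex.arg ν + 2 * Real.pi, ?_, ?_, ?_⟩
      · linarith [Complex.neg_pi_lt_arg ν, Real.pi_pos]
      · push Not at h; linarith
      · have : Complex.exp (((Complex.arg ν + 2 * Real.pi : ℝ) : ℂ) * Complex.I)
            = Complex.exp ((Complex.arg ν : ℂ) * Complex.I) := by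
          push_cast
          rw [add_mul, Complex.exp_add, Complex.exp_two_pi_mul_I, mul_one]
        rw [this]
        exact (Complex.norm_mul_exp_arg_mul_I ν).symm
  have hφβ : 0 ≤ φ / β := div_nonneg hφ0 hβpos.le
  set k : ℕ := ⌊φ / β⌋₊ with hk
  have hk1 : (k : ℝ) ≤ φ / β := Nat.floor_le hφβ
  have hk2 : φ / β < k + 1 := Nat.lt_floor_add_one _
  have hkN : k < N := by
    rw [hk, Nat.floor_lt hφβ, div_lt_iff₀ hβpos, hNβ]
    exact hφ1
  set s : ℝ := φ - k * β with hs
  have hs0 : 0 ≤ s := by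
    rw [le_div_iff₀ hβpos] at hk1
    rw [hs]; linarith
  have hs1 : s < β := by
    rw [div_lt_iff₀ hβpos] at hk2
    rw [hs]; linarith
  have hνpos : 0 < ‖ν‖ := norm_pos_iff.mpr hν
  have h1 : 0 < Real.sin (β - s) := Real.sin_pos_of_pos_of_lt_pi (by linarith) (by linarith)
  have h2 : 0 ≤ Real.sin s := Real.sin_nonneg_of_nonneg_of_le_pi hs0 (by linarith)
  refine ⟨k, ‖ν‖ * (Real.sin (β - s) / Real.sin β), ‖ν‖ * (Real.sin s / Real.sin β), hkN,
    by positivity, by positivity, ?_, ?_⟩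
  · have : 0 < ‖ν‖ * (Real.sin (β - s) / Real.sin β) := by positivity
    have h3 : 0 ≤ ‖ν‖ * (Real.sin s / Real.sin β) := by positivity
    linarith
  · have e1 : nu N k = Complex.exp (((k * β : ℝ) : ℂ) * Complex.I) := by
      unfold nu
      congr 1
      rw [hβ]; push_cast; ring
    have e2 : nu N (k + 1) = Complex.exp (((k * β : ℝ) : ℂ) * Complex.I) *
        Complex.exp ((β : ℂ) * Complex.I) := by
      unfold nu
      rw [← Complex.exp_add]
      congr 1
      rw [hβ]; push_cast; ring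
    have e3 : Complex.exp ((φ : ℂ) * Complex.I) = Complex.exp (((k * β : ℝ) : ℂ) * Complex.I) *
        Complex.exp ((s : ℂ) * Complex.I) := by
      rw [← Complex.exp_add]
      congr 1
      rw [hs]; push_cast; ring
    have e4 := exp_dec β s hsinβ.ne'
    conv_lhs => rw [hφ, e3, e4]
    rw [e1, e2]
    push_cast
    ring

theorem polygon_dir (N : ℕ) (hN : 3 ≤ N) (P : ℕ → ℂ) (Lk : ℕ → ℝ) (hper : ∀ k, P (k + N) = P k)
    (hside : ∀ k, P (k + 1) - P k = Complex.I * nu N k * Lk k) (a : ℂ)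
    (ha : ∀ k, 0 < ((starRingEnd ℂ) (nu N k) * (P k - a)).re) (ν : ℂ) (hν : ν ≠ 0) :
    ∃ k, k < N ∧ 0 < ((starRingEnd ℂ) ν * (P k - a)).re := by
  obtain ⟨k, lam, mu, hkN, hlam, hmu, hsum, hdec⟩ := cone N hN ν hν
  have h1 : 0 < ((starRingEnd ℂ) (nu N k) * (P (k + 1) - a)).re := by
    have e : (starRingEnd ℂ) (nu N k) * (P (k + 1) - a)
        = (starRingEnd ℂ) (nu N k) * (P k - a) + (starRingEnd ℂ) (nu N k) * (P (k + 1) - P k) := by
      ring
    have e2 : ((starRingEnd ℂ) (nu N k) * (P (k + 1) - P k)).re = 0 := by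
      rw [hside]
      have : (starRingEnd ℂ) (nu N k) * (Complex.I * nu N k * Lk k)
          = ((Complex.normSq (nu N k) * Lk k : ℝ) : ℂ) * Complex.I := by
        rw [Complex.ofReal_mul, Complex.normSq_eq_conj_mul_self]; ring
      rw [this]
      simp
    rw [e, Complex.add_re, e2, add_zero]
    exact ha k
  have h2 := ha (k + 1)
  have hmain : 0 < ((starRingEnd ℂ) ν * (P (k + 1) - a)).re := by
    have e : ((starRingEnd ℂ) ν * (P (k + 1) - a)).re
        = lam * ((starRingEnd ℂ) (nu N k) * (P (k + 1) - a)).re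
          + mu * ((starRingEnd ℂ) (nu N (k + 1)) * (P (k + 1) - a)).re := by
      rw [hdec, map_add, map_mul, map_mul, Complex.conj_ofReal, Complex.conj_ofReal, add_mul,
        Complex.add_re, mul_assoc, mul_assoc, Complex.re_ofReal_mul, Complex.re_ofReal_mul]
    rw [e]
    rcases hlam.lt_or_eq with h | h
    · have := mul_pos h h1
      have := mul_nonneg hmu h2.le
      linarith
    · have hmu' : 0 < mu := by linarith
      have := mul_pos hmu' h2
      rw [← h, zero_mul, zero_add]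
      exact this
  by_cases hk : k + 1 < N
  · exact ⟨k + 1, hk, hmain⟩
  · have hk' : k + 1 = 0 + N := by omega
    refine ⟨0, by omega, ?_⟩
    rwa [hk', hper 0] at hmain

end Crest.Agent.R132.SC7Baux
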