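import Crest.Agent.R132.SCDefs
import Crest.Agent.R132.SCPolyDir
import Crest.Agent.R132.SCPolyA

/-!
# Piece SC7 : circumscribed equiangular polygons

Support function `h_K(ν) = sup_{a ∈ K} Re (ν̄ a)` (K compact nonempty), `h_k = h_K(ν_k) + δ`, `β = 2π/N`, `N ≥ 5`:
`P_k = ν_k (h_k + i (h_k cos β - h_{k-1})/sin β)` (intersection of the lines `Re ν̄_{k-1} z = h_{k-1}`, `Re ν̄_k z = h_k`), so
`P_{k+1} - P_k = i ν_k L_k`, `L_k = (h_{k+1} + h_{k-1} - 2 h_k cos β)/sin β ≥ 2 δ (1 - cos β)/ sin β > 0`, because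
`h_K(ν_{k+1}) + h_K(ν_{k-1}) ≥ h_K(ν_{k+1} + ν_{k-1}) = 2 cos β h_K(ν_k)`.
Containment in `V` for large `N` and small `δ`: all vertices satisfy `Re ν̄_j P_k ≤ h_j` for all `j` (partial sums of `- sin(2π(l-j)/N) L_l` over a
period are `≤ 0`), so `P_k` lies in the polygon `Q_N = {z : Re ν̄_j z ≤ h_K(ν_j) + δ ∀ j}`; by compactness (the directions become dense, `h_K` is Lipschitz)
`Q_N ⊆ V` for `N` large if the closed `2δ`-neighbourhood of `K` is in `V` (a point `z` with `Re ν̄ z ≤ h_K(ν) + 2δ` for all unit `ν` is within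
`2δ` of `K`: separate / nearest point).  For a direction `ν` between `ν_{j-1}` and `ν_j`: `ν = λ ν_{j-1} + μ ν_j`, `λ, μ ≥ 0`, `λ + μ ≤ 1/cos(β/2)`.
`polygon_dir`: any `ν ≠ 0` is `λ ν_{k-1} + μ ν_k` with `λ, μ ≥ 0` not both zero for some `k`, then
`Re ν̄ (P_k - a) = λ Re ν̄_{k-1}(P_k - a) + μ Re ν̄_k (P_k - a) > 0`.
-/

set_option autoImplicit false
open Metric Set

namespace Crest.Agent.R132

theorem polygon_exists (K V : Set ℂ) (hK : IsCompact K) (hKc : Convex ℝ K) (hKn : K.Nonempty)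
    (hV : IsOpen V) (hKV : K ⊆ V) :
    ∃ (N : ℕ) (P : ℕ → ℂ) (Lk : ℕ → ℝ), 3 ≤ N ∧ (∀ k, P (k + N) = P k) ∧ (∀ k, 0 < Lk k) ∧
      (∀ k, P (k + 1) - P k = Complex.I * nu N k * Lk k) ∧ (∀ k, P k ∈ V) ∧
      (∀ a ∈ K, ∀ k, 0 < ((starRingEnd ℂ) (nu N k) * (P k - a)).re) :=
  polygon_exists_aux K V hK hKc hKn hV hKV

theorem polygon_dir (N : ℕ) (hN : 3 ≤ N) (P : ℕ → ℂ) (Lk : ℕ → ℝ) (hper : ∀ k, P (k + N) = P k)
    (hside : ∀ k, P (k + 1) - P k = Complex.I * nu N k * Lk k) (a : ℂ)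
    (ha : ∀ k, 0 < ((starRingEnd ℂ) (nu N k) * (P k - a)).re) (ν : ℂ) (hν : ν ≠ 0) :
    ∃ k, k < N ∧ 0 < ((starRingEnd ℂ) ν * (P k - a)).re := by
  exact SC7Baux.polygon_dir N hN P Lk hper hside a ha ν hν

end Crest.Agent.R132
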