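import Crest.Agent.R132.SCDefs

/-!
# Piece SC4 : the primitive and its boundary values

`E` continuous on the closed unit disc, holomorphic inside, `E 0 = 1`; the closing condition says `E'(0) = 0`
(mean value property: `(1/2π) ∫ e^{iψ} E(e^{-iψ}) dψ = av (fun u => E u / u) = E'(0)`; use `dslope E 0`, continuous on the closed disc,
`circleAverage` of a function continuous on the closed disc and holomorphic inside; `av (1/u) = 0`).
Then `q2 = dslope (dslope E 0) 0` (i.e. `E u = 1 + u² q2 u`) is holomorphic inside and continuous on the closed disc, and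
`g0 u = - ∫_0^1 u q2 (s u) ds`.  Boundary formula: for `R > 1`:
`G0(R e^{iθ2}) - G0(R e^{iθ1}) = ∫ i R e^{iψ} E(e^{-iψ}/R) dψ`, let `R → 1` (uniform continuity).
-/

set_option autoImplicit false
open Metric Set

namespace Crest.Agent.R132

namespace SC4aux

/-- radial retraction on the closed unit disc -/
noncomputable def pr (u : ℂ) : ℂ := ((max 1 ‖u‖ : ℝ) : ℂ)⁻¹ * u

theorem pr_cont : Continuous pr := by
  unfold pr
  apply Continuous.mul _ continuous_id
  apply Continuous.inv₀
  · exact Complex.continuous_ofReal.comp (continuous_const.max continuous_norm)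
  · intro u
    have : (0 : ℝ) < max 1 ‖u‖ := lt_of_lt_of_le one_pos (le_max_left _ _)
    exact_mod_cast this.ne'

theorem pr_mem (u : ℂ) : pr u ∈ closedBall (0 : ℂ) 1 := by
  rw [mem_closedBall_zero_iff]
  unfold pr
  have h : (0 : ℝ) < max 1 ‖u‖ := lt_of_lt_of_le one_pos (le_max_left _ _)
  rw [norm_mul, norm_inv, Complex.norm_real, Real.norm_of_nonneg h.le, inv_mul_le_iff₀ h, mul_one]
  exact le_max_right _ _

theorem pr_eq (u : ℂ) (h : ‖u‖ ≤ 1) : pr u = u := by
  unfold pr
  rw [max_eq_left h]; simp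

theorem cont_ext {f : ℂ → ℂ} (hf : ContinuousOn f (closedBall 0 1)) :
    Continuous (fun u => f (pr u)) :=
  hf.comp_continuous pr_cont pr_mem

theorem integral_exp_neg : (∫ θ in (0 : ℝ)..(2 * Real.pi), Complex.exp (-(θ * Complex.I))) = 0 := by
  have h : ∀ θ : ℝ, Complex.exp (-(θ * Complex.I)) = Complex.exp ((-Complex.I) * θ) := by
    intro θ; congr 1; ring
  simp_rw [h]
  rw [integral_exp_mul_complex (by simp)]
  have : Complex.exp (-Complex.I * ((2 * Real.pi : ℝ) : ℂ)) = 1 := by
    rw [Complex.exp_eq_one_iff]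
    exact ⟨-1, by push_cast; ring⟩
  rw [this]; simp

theorem q1_zero (E : ℂ → ℂ) (hc : ContinuousOn E (closedBall 0 1))
    (hd : DifferentiableOn ℂ E (ball 0 1)) (h0 : E 0 = 1)
    (hclose : (∫ ψ in (0 : ℝ)..(2 * Real.pi),
      Complex.exp (ψ * Complex.I) * E (Complex.exp (-(ψ * Complex.I)))) = 0) :
    dslope E 0 0 = 0 := by
  have hq1c : ContinuousOn (dslope E 0) (closedBall 0 1) :=
    (continuousOn_dslope (closedBall_mem_nhds 0 one_pos)).2
      ⟨hc, hd.differentiableAt (ball_mem_nhds 0 one_pos)⟩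
  have hq1d : DifferentiableOn ℂ (dslope E 0) (ball 0 1) :=
    (Complex.differentiableOn_dslope (ball_mem_nhds 0 one_pos)).2 hd
  have hC := Complex.circleIntegral_sub_inv_smul_of_differentiable_on_off_countable
    (s := ∅) (w := 0) Set.countable_empty (mem_ball_self one_pos) hq1c (by
      intro x hx
      exact hq1d.differentiableAt (isOpen_ball.mem_nhds hx.1))
  have hE : ∀ θ : ℝ, Complex.exp (θ * Complex.I) * dslope E 0 (Complex.exp (θ * Complex.I)) =
      E (Complex.exp (θ * Complex.I)) - 1 := by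
    intro θ
    have := sub_smul_dslope E 0 (Complex.exp (θ * Complex.I))
    rw [sub_zero, smul_eq_mul, h0] at this
    exact this
  have hI : (∮ z in C(0, 1), (z - 0)⁻¹ • dslope E 0 z) =
      Complex.I * ((∫ θ in (0 : ℝ)..(2 * Real.pi),
        Complex.exp (-(θ * Complex.I)) * E (Complex.exp (θ * Complex.I))) -
        ∫ θ in (0 : ℝ)..(2 * Real.pi), Complex.exp (-(θ * Complex.I))) := by
    have hcE : Continuous (fun θ : ℝ => E (Complex.exp (θ * Complex.I))) := by
      apply hc.comp_continuous (by fun_prop)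
      intro θ
      rw [mem_closedBall_zero_iff, Complex.norm_exp_ofReal_mul_I]
    rw [← intervalIntegral.integral_sub, ← intervalIntegral.integral_const_mul]
    · unfold circleIntegral
      apply intervalIntegral.integral_congr
      intro θ _
      simp only [deriv_circleMap, circleMap_zero, Complex.ofReal_one, one_mul, smul_eq_mul,
        sub_zero]
      have hne : Complex.exp (θ * Complex.I) ≠ 0 := Complex.exp_ne_zero _
      have h2 := hE θ
      have h3 : dslope E 0 (Complex.exp (θ * Complex.I)) =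
          Complex.exp (-(θ * Complex.I)) * (E (Complex.exp (θ * Complex.I)) - 1) := by
        rw [← h2, Complex.exp_neg]; field_simp
      rw [h3]
      field_simp
    · apply Continuous.intervalIntegrable
      exact (by fun_prop : Continuous fun θ : ℝ => Complex.exp (-(θ * Complex.I))).mul hcE
    · apply Continuous.intervalIntegrable
      fun_prop
  rw [hI, integral_exp_neg, sub_zero] at hC
  have hper : Function.Periodic (fun ψ : ℝ => Complex.exp (ψ * Complex.I) *
      E (Complex.exp (-(ψ * Complex.I)))) (2 * Real.pi) := by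
    intro ψ
    simp only
    have e1 : Complex.exp (((ψ + 2 * Real.pi : ℝ) : ℂ) * Complex.I) =
        Complex.exp (ψ * Complex.I) := by
      rw [Complex.exp_eq_exp_iff_exists_int]
      exact ⟨1, by push_cast; ring⟩
    have e2 : Complex.exp (-(((ψ + 2 * Real.pi : ℝ) : ℂ) * Complex.I)) =
        Complex.exp (-(ψ * Complex.I)) := by
      rw [Complex.exp_eq_exp_iff_exists_int]
      exact ⟨-1, by push_cast; ring⟩
    rw [e1, e2]
  have hflip : (∫ θ in (0 : ℝ)..(2 * Real.pi),
        Complex.exp (-(θ * Complex.I)) * E (Complex.exp (θ * Complex.I))) = 0 := by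
    have h1 := intervalIntegral.integral_comp_neg (a := 0) (b := 2 * Real.pi)
      (fun ψ : ℝ => Complex.exp (ψ * Complex.I) * E (Complex.exp (-(ψ * Complex.I))))
    have h2 := hper.intervalIntegral_add_eq (-(2 * Real.pi)) 0
    rw [neg_add_cancel, zero_add, hclose] at h2
    rw [neg_zero, h2] at h1
    rw [← h1]
    apply intervalIntegral.integral_congr
    intro θ _
    simp
  rw [hflip, mul_zero, smul_eq_mul] at hC
  have hpi : (2 * (Real.pi : ℂ) * Complex.I) ≠ 0 := by
    simp [Real.pi_ne_zero]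
  exact (mul_eq_zero.mp hC.symm).resolve_left hpi

end SC4aux

open SC4aux

theorem exists_g0 (E : ℂ → ℂ) (hc : ContinuousOn E (closedBall 0 1))
    (hd : DifferentiableOn ℂ E (ball 0 1)) (h0 : E 0 = 1)
    (hclose : (∫ ψ in (0 : ℝ)..(2 * Real.pi),
      Complex.exp (ψ * Complex.I) * E (Complex.exp (-(ψ * Complex.I)))) = 0) :
    ∃ g0 : ℂ → ℂ, DifferentiableOn ℂ g0 (ball 0 1) ∧ ContinuousOn g0 (closedBall 0 1) ∧
      (∀ u ∈ ball (0 : ℂ) 1, 1 - u ^ 2 * deriv g0 u = E u) ∧
      ∀ θ1 θ2 : ℝ, G0 g0 (Complex.exp (θ2 * Complex.I)) - G0 g0 (Complex.exp (θ1 * Complex.I))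
        = ∫ ψ in θ1..θ2, Complex.I * Complex.exp (ψ * Complex.I)
            * E (Complex.exp (-(ψ * Complex.I))) := by
  set q1 := dslope E 0 with hq1
  have hq1c : ContinuousOn q1 (closedBall 0 1) :=
    (continuousOn_dslope (closedBall_mem_nhds 0 one_pos)).2
      ⟨hc, hd.differentiableAt (ball_mem_nhds 0 one_pos)⟩
  have hq1d : DifferentiableOn ℂ q1 (ball 0 1) :=
    (Complex.differentiableOn_dslope (ball_mem_nhds 0 one_pos)).2 hd
  have hq10 : q1 0 = 0 := q1_zero E hc hd h0 hclose
  set q2 := dslope q1 0 with hq2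
  have hq2c : ContinuousOn q2 (closedBall 0 1) :=
    (continuousOn_dslope (closedBall_mem_nhds 0 one_pos)).2
      ⟨hq1c, hq1d.differentiableAt (ball_mem_nhds 0 one_pos)⟩
  have hq2d : DifferentiableOn ℂ q2 (ball 0 1) :=
    (Complex.differentiableOn_dslope (ball_mem_nhds 0 one_pos)).2 hq1d
  have hEq : ∀ u, E u = 1 + u ^ 2 * q2 u := by
    intro u
    have a1 := sub_smul_dslope E 0 u
    have a2 := sub_smul_dslope q1 0 u
    rw [sub_zero, smul_eq_mul] at a1 a2
    rw [hq10, sub_zero, ← hq2] at a2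
    rw [h0, ← hq1, ← a2] at a1
    linear_combination -a1
  -- the primitive
  set g0 : ℂ → ℂ := fun u => ∫ s in (0 : ℝ)..1, -(u * q2 (pr (s * u))) with hg0
  have hq2p : Continuous (fun u => q2 (pr u)) := cont_ext hq2c
  have hg0c : Continuous g0 := by
    apply intervalIntegral.continuous_parametric_intervalIntegral_of_continuous'
    have : Continuous (fun p : ℂ × ℝ => -(p.1 * (fun u => q2 (pr u)) ((p.2 : ℂ) * p.1))) := by
      apply Continuous.neg
      apply Continuous.mul continuous_fst
      apply hq2p.comp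
      fun_prop
    exact this
  obtain ⟨F, hF⟩ := (hq2d.neg).isExactOn_ball
  have hg0F : ∀ u ∈ ball (0 : ℂ) 1, g0 u = F u - F 0 := by
    intro u hu
    rw [mem_ball_zero_iff] at hu
    have hmem : ∀ s ∈ Set.uIcc (0 : ℝ) 1, (s : ℂ) * u ∈ ball (0 : ℂ) 1 := by
      intro s hs
      rw [Set.uIcc_of_le zero_le_one, Set.mem_Icc] at hs
      rw [mem_ball_zero_iff, norm_mul, Complex.norm_real, Real.norm_of_nonneg hs.1]
      nlinarith [norm_nonneg u, hs.1, hs.2]
    have hderiv : ∀ s ∈ Set.uIcc (0 : ℝ) 1, HasDerivAt (fun s : ℝ => F ((s : ℂ) * u))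
        (-(u * q2 (pr (s * u)))) s := by
      intro s hs
      have h1 := hF _ (hmem s hs)
      have h2 : HasDerivAt (fun s : ℝ => (s : ℂ) * u) u s := by
        have := (Complex.ofRealCLM.hasDerivAt (x := s)).mul_const u
        simpa using this
      have h3 := HasDerivAt.comp s (h₂ := F) (h := fun s : ℝ => (s : ℂ) * u) h1 h2
      have h4 : pr (s * u) = s * u := pr_eq _ (by
        have := hmem s hs
        rw [mem_ball_zero_iff] at this; exact this.le)
      rw [h4]
      exact h3.congr_deriv (by rw [Pi.neg_apply]; ring)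
    have hint : IntervalIntegrable (fun s : ℝ => -(u * q2 (pr (s * u)))) MeasureTheory.volume 0 1 := by
      apply Continuous.intervalIntegrable
      apply Continuous.neg
      apply Continuous.mul continuous_const
      exact hq2p.comp (by fun_prop : Continuous fun s : ℝ => (s : ℂ) * u)
    have h5 := intervalIntegral.integral_eq_sub_of_hasDerivAt hderiv hint
    rw [hg0]
    simp only
    rw [h5]
    simp
  have hg0d : ∀ u ∈ ball (0 : ℂ) 1, HasDerivAt g0 (-(q2 u)) u := by
    intro u hu
    have h1 := (hF u hu).sub_const (F 0)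
    apply h1.congr_of_eventuallyEq
    filter_upwards [isOpen_ball.mem_nhds hu] with v hv
    exact hg0F v hv
  have hrel : ∀ u ∈ ball (0 : ℂ) 1, 1 - u ^ 2 * deriv g0 u = E u := by
    intro u hu
    rw [(hg0d u hu).deriv, hEq u]; ring
  refine ⟨g0, fun u hu => (hg0d u hu).differentiableAt.differentiableWithinAt,
    hg0c.continuousOn, hrel, ?_⟩
  intro θ1 θ2
  -- r < 1
  have hEp : Continuous (fun u => E (pr u)) := cont_ext hc
  have hr : ∀ r : ℝ, 0 < r → r < 1 →
      ((r : ℂ)⁻¹ * Complex.exp (θ2 * Complex.I) + g0 (r * Complex.exp (-(θ2 * Complex.I)))) -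
      ((r : ℂ)⁻¹ * Complex.exp (θ1 * Complex.I) + g0 (r * Complex.exp (-(θ1 * Complex.I)))) =
      (r : ℂ)⁻¹ * ∫ ψ in θ1..θ2, Complex.I * Complex.exp (ψ * Complex.I)
            * E (pr (r * Complex.exp (-(ψ * Complex.I)))) := by
    intro r hr0 hr1
    have hrne : (r : ℂ) ≠ 0 := by exact_mod_cast hr0.ne'
    have hn : ∀ ψ : ℝ, ‖(r : ℂ) * Complex.exp (-(ψ * Complex.I))‖ = r := by
      intro ψ
      have : -((ψ : ℂ) * Complex.I) = ((-ψ : ℝ) : ℂ) * Complex.I := by push_cast; ring
      rw [norm_mul, this, Complex.norm_exp_ofReal_mul_I, Complex.norm_real,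
        Real.norm_of_nonneg hr0.le, mul_one]
    rw [← intervalIntegral.integral_const_mul]
    symm
    apply intervalIntegral.integral_eq_sub_of_hasDerivAt
      (f := fun ψ : ℝ => (r : ℂ)⁻¹ * Complex.exp (ψ * Complex.I) +
        g0 (r * Complex.exp (-(ψ * Complex.I))))
    · intro ψ _
      have hmem : (r : ℂ) * Complex.exp (-(ψ * Complex.I)) ∈ ball (0 : ℂ) 1 := by
        rw [mem_ball_zero_iff, hn]; exact hr1
      have hI : HasDerivAt (fun ψ : ℝ => (ψ : ℂ) * Complex.I) Complex.I ψ := by
        have := (Complex.ofRealCLM.hasDerivAt (x := ψ)).mul_const Complex.I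
        simpa using this
      have d1 : HasDerivAt (fun ψ : ℝ => (r : ℂ)⁻¹ * Complex.exp (ψ * Complex.I))
          ((r : ℂ)⁻¹ * (Complex.exp (ψ * Complex.I) * Complex.I)) ψ :=
        hI.cexp.const_mul _
      have d2 : HasDerivAt (fun ψ : ℝ => (r : ℂ) * Complex.exp (-(ψ * Complex.I)))
          ((r : ℂ) * (Complex.exp (-(ψ * Complex.I)) * (-Complex.I))) ψ :=
        (hI.fun_neg.cexp).const_mul _
      have d3 := HasDerivAt.comp ψ (h₂ := g0)
        (h := fun ψ : ℝ => (r : ℂ) * Complex.exp (-(ψ * Complex.I))) (hg0d _ hmem) d2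
      have d4 := d1.add d3
      refine d4.congr_deriv ?_
      rw [pr_eq _ (by rw [hn]; exact hr1.le), hEq, Complex.exp_neg]
      have hne : Complex.exp (ψ * Complex.I) ≠ 0 := Complex.exp_ne_zero _
      field_simp
    · apply Continuous.intervalIntegrable
      apply Continuous.mul continuous_const
      apply Continuous.mul (by fun_prop)
      exact hEp.comp (by fun_prop : Continuous fun ψ : ℝ => (r : ℂ) * Complex.exp (-(ψ * Complex.I)))
  -- limit r → 1
  have hL : Continuous (fun r : ℝ => (r : ℂ) * ((g0 (r * Complex.exp (-(θ2 * Complex.I)))) -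
      (g0 (r * Complex.exp (-(θ1 * Complex.I))))) + (Complex.exp (θ2 * Complex.I) -
        Complex.exp (θ1 * Complex.I))) := by
    fun_prop
  have hR : Continuous (fun r : ℝ => ∫ ψ in θ1..θ2, Complex.I * Complex.exp (ψ * Complex.I)
            * E (pr (r * Complex.exp (-(ψ * Complex.I))))) := by
    apply intervalIntegral.continuous_parametric_intervalIntegral_of_continuous'
    have : Continuous (fun p : ℝ × ℝ => Complex.I * Complex.exp (p.2 * Complex.I)
            * (fun u => E (pr u)) ((p.1 : ℂ) * Complex.exp (-(p.2 * Complex.I)))) := by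
      apply Continuous.mul (by fun_prop)
      apply hEp.comp
      fun_prop
    exact this
  have heq : ∀ᶠ r : ℝ in nhdsWithin (1 : ℝ) (Set.Iio 1),
      (r : ℂ) * ((g0 (r * Complex.exp (-(θ2 * Complex.I)))) -
      (g0 (r * Complex.exp (-(θ1 * Complex.I))))) + (Complex.exp (θ2 * Complex.I) -
        Complex.exp (θ1 * Complex.I)) = ∫ ψ in θ1..θ2, Complex.I * Complex.exp (ψ * Complex.I)
            * E (pr (r * Complex.exp (-(ψ * Complex.I)))) := by
    have : Set.Ioo (0 : ℝ) 1 ∈ nhdsWithin (1 : ℝ) (Set.Iio 1) := Ioo_mem_nhdsLT one_pos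
    filter_upwards [this] with r hrr
    have h1 := hr r hrr.1 hrr.2
    have hrne : (r : ℂ) ≠ 0 := by exact_mod_cast hrr.1.ne'
    have h2 : ∀ a b c d e : ℂ, ((r : ℂ)⁻¹ * a + b) - ((r : ℂ)⁻¹ * c + d) = (r : ℂ)⁻¹ * e →
        (r : ℂ) * (b - d) + (a - c) = e := by
      intro a b c d e h
      field_simp at h
      linear_combination h
    exact h2 _ _ _ _ _ h1
  have hlim1 := (hL.tendsto 1).mono_left (nhdsWithin_le_nhds (s := Set.Iio (1 : ℝ)))
  have hlim2 := (hR.tendsto 1).mono_left (nhdsWithin_le_nhds (s := Set.Iio (1 : ℝ)))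
  have hfin := tendsto_nhds_unique (hlim1.congr' heq) hlim2
  unfold G0
  have e1 : ∀ θ : ℝ, (Complex.exp (θ * Complex.I))⁻¹ = Complex.exp (-(θ * Complex.I)) := by
    intro θ; rw [Complex.exp_neg]
  rw [e1, e1]
  simp only [Complex.ofReal_one, one_mul] at hfin
  have hpr : ∀ ψ : ℝ, pr (Complex.exp (-(ψ * Complex.I))) = Complex.exp (-(ψ * Complex.I)) := by
    intro ψ
    apply pr_eq
    have : -((ψ : ℂ) * Complex.I) = ((-ψ : ℝ) : ℂ) * Complex.I := by push_cast; ring
    rw [this, Complex.norm_exp_ofReal_mul_I]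
  simp only [hpr] at hfin
  rw [← hfin]
  ring

end Crest.Agent.R132
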