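import Crest.Agent.R132.SCMk
import Crest.Agent.R132.SCPrim
import Crest.Agent.R132.SCFun
import Crest.Agent.R132.SCParam
import Crest.Agent.R132.SCPoly

/-!
# Piece SC8 : existence of nice exterior maps (assembly)

`polygon_exists` gives `N, P, Lk`.  `sc_param` gives the gap vector `x` (all `x_k > 0`), `μ`; `θ = thx N x` (strictly increasing, `θ_0 = 0`,
`θ_{k+1} = θ_k + 2π x_k`, last arc ends at `2π`).  By `sc_dir` on the `k`-th arc `e^{iψ} scE(e^{-iψ}) = ‖scE‖ ω ν_k`, so
`∫ over arc k = ω ν_k len_k = ω μ ν_k L_k`; the sum over `k` is `0` because `∑ I ν_k L_k = ∑ (P (k+1) - P k) = 0`: closing condition of `exists_g0`.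
So `CD (scL N θ) g0`.  `c = 1/(μ ω)`, `b = P 0 - c G0(1)`: by induction `c G0(e^{iθ_k}) + b = P k` and for `ψ` in the `k`-th arc
`c G0 (e^{iψ}) + b = P k + I ν_k * (partial length)/μ` lies in the segment `[P k, P (k+1)] ⊆ V` (convexity).  So
`c G0(unit circle) + b ⊆ V`; uniform continuity of `g0` on the closed disc and openness give `R > 1` with `c G0(R t) + b ∈ V` for `|t| = 1`.
`mkExt_conv`, `mkExt_encl` with `polygon_dir` (`s = e^{iθ_k}`).
-/

set_option autoImplicit false

namespace Crest.Agent.R132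

namespace SC8aux
open Metric Set

/-- partial sums of the gaps -/
noncomputable def T (N : ℕ) (x : Fin N → ℝ) (k : ℕ) : ℝ :=
  2 * Real.pi * ∑ j ∈ Finset.univ.filter (fun j : Fin N => (j : ℕ) < k), x j

theorem T_zero (N : ℕ) (x : Fin N → ℝ) : T N x 0 = 0 := by
  unfold T; simp

theorem thx_eq (N : ℕ) (x : Fin N → ℝ) (k : Fin N) : thx N x k = T N x k := rfl

theorem T_succ (N : ℕ) (x : Fin N → ℝ) (k : Fin N) :
    T N x ((k : ℕ) + 1) = T N x k + 2 * Real.pi * x k := by
  unfold T
  have : Finset.univ.filter (fun j : Fin N => (j : ℕ) < (k : ℕ) + 1) =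
      insert k (Finset.univ.filter (fun j : Fin N => (j : ℕ) < (k : ℕ))) := by
    ext j
    simp only [Finset.mem_filter, Finset.mem_univ, true_and, Finset.mem_insert, Fin.ext_iff]
    omega
  rw [this, Finset.sum_insert (by simp)]
  ring

theorem T_mono (N : ℕ) (x : Fin N → ℝ) (hx : ∀ k, 0 ≤ x k) : Monotone (T N x) := by
  intro a b hab
  unfold T
  apply mul_le_mul_of_nonneg_left _ (by positivity)
  apply Finset.sum_le_sum_of_subset_of_nonneg
  · intro j hj
    simp only [Finset.mem_filter, Finset.mem_univ, true_and] at hj ⊢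
    omega
  · intro i _ _; exact hx i

theorem T_last (N : ℕ) (x : Fin N → ℝ) (hx : ∑ k, x k = 1) : T N x N = 2 * Real.pi := by
  unfold T
  have : Finset.univ.filter (fun j : Fin N => (j : ℕ) < N) = Finset.univ := by
    ext j; simp
  rw [this, hx, mul_one]

theorem exists_arc (N : ℕ) (x : Fin N → ℝ) (hx1 : ∑ k, x k = 1)
    (ψ : ℝ) (h0 : 0 ≤ ψ) (h1 : ψ < 2 * Real.pi) :
    ∃ k : Fin N, T N x k ≤ ψ ∧ ψ ≤ T N x ((k : ℕ) + 1) := by
  classical
  have hex : ∃ m, ψ < T N x m := ⟨N, by rw [T_last N x hx1]; exact h1⟩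
  set m := Nat.find hex with hm
  have hm1 : ψ < T N x m := Nat.find_spec hex
  have hmN : m ≤ N := Nat.find_min' hex (by rw [T_last N x hx1]; exact h1)
  have hm0 : m ≠ 0 := by
    intro h
    rw [h, T_zero] at hm1; linarith
  obtain ⟨k, hk⟩ := Nat.exists_eq_succ_of_ne_zero hm0
  have hk2 : ¬ ψ < T N x k := Nat.find_min hex (by omega)
  refine ⟨⟨k, by omega⟩, not_lt.mp hk2, ?_⟩
  simp only
  rw [hk] at hm1
  exact hm1.le

theorem exists_angle (t : ℂ) (ht : ‖t‖ = 1) :
    ∃ ψ : ℝ, 0 ≤ ψ ∧ ψ < 2 * Real.pi ∧ Complex.exp (ψ * Complex.I) = t := by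
  have h := Complex.norm_mul_exp_arg_mul_I t
  rw [ht, Complex.ofReal_one, one_mul] at h
  have h1 := Complex.neg_pi_lt_arg t
  have h2 := Complex.arg_le_pi t
  have hpi := Real.pi_pos
  by_cases h0 : 0 ≤ t.arg
  · exact ⟨t.arg, h0, by linarith, h⟩
  · refine ⟨t.arg + 2 * Real.pi, by linarith, by linarith, ?_⟩
    rw [← h]
    rw [Complex.exp_eq_exp_iff_exists_int]
    refine ⟨1, ?_⟩
    push_cast
    rw [h]
    ring

end SC8aux

open SC8aux Metric Set

theorem exists_ext (K V : Set ℂ) (hK : IsCompact K) (hKc : Convex ℝ K) (hKn : K.Nonempty)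
    (hV : IsOpen V) (hVc : Convex ℝ V) (hKV : K ⊆ V) :
    ∃ e : Ext, e.Conv ∧ e.Encl K ∧ ∀ t : ℂ, ‖t‖ = 1 → e.G t ∈ V := by
  obtain ⟨N, P, Lk, hN3, hper, hLk, hside, hPV, hPK⟩ := polygon_exists K V hK hKc hKn hV hKV
  have hN : 1 ≤ N := by omega
  obtain ⟨x, hx, hxpos, μ, hμ, hlen⟩ := sc_param N hN (fun k => Lk k) (fun k => hLk k)
  have hxsum : ∑ k, x k = 1 := hx.2
  have hTm : Monotone (T N x) := T_mono N x (fun k => (hxpos k).le)
  have hTlast : T N x N = 2 * Real.pi := T_last N x hxsum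
  set θ := thx N x with hθ
  have hθT : ∀ k : Fin N, θ k = T N x k := fun k => rfl
  set E := scE N θ with hE
  have hEc : ContinuousOn E (closedBall 0 1) := scE_continuousOn N hN θ
  have hEd : DifferentiableOn ℂ E (ball 0 1) := scE_differentiableOn N θ
  have hE0 : E 0 = 1 := by
    rw [hE]; unfold scE; simp
  set om : ℂ := Complex.exp (((∑ j, θ j) / N - Real.pi + 2 * Real.pi / N : ℝ) * Complex.I)
    with hom
  have homne : om ≠ 0 := Complex.exp_ne_zero _
  set W : ℝ → ℝ := fun ψ => ‖E (Complex.exp (-(ψ * Complex.I)))‖ with hW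
  have hEcc : Continuous (fun ψ : ℝ => E (Complex.exp (-(ψ * Complex.I)))) := by
    apply hEc.comp_continuous (by fun_prop)
    intro ψ
    have : -((ψ : ℂ) * Complex.I) = ((-ψ : ℝ) : ℂ) * Complex.I := by push_cast; ring
    rw [mem_closedBall_zero_iff, this, Complex.norm_exp_ofReal_mul_I]
  have hWc : Continuous W := hEcc.norm
  have hW0 : ∀ ψ, 0 ≤ W ψ := fun ψ => norm_nonneg _
  -- direction
  have hdir : ∀ (k : Fin N) (ψ : ℝ), T N x k < ψ → ψ < T N x ((k : ℕ) + 1) →
      Complex.exp (ψ * Complex.I) * E (Complex.exp (-(ψ * Complex.I))) =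
        (W ψ : ℂ) * (om * nu N k) := by
    intro k ψ h1 h2
    apply sc_dir N hN θ _ k ψ
    · intro j hj
      exact lt_of_le_of_lt (hTm (show (j : ℕ) ≤ k from hj)) h1
    · intro j hj
      exact lt_of_lt_of_le h2 (hTm (show (k : ℕ) + 1 ≤ j from hj))
    · exact lt_of_lt_of_le h2 (hTlast ▸ hTm (show (k : ℕ) + 1 ≤ N from k.2))
    · intro j
      rw [hθT, ← hTlast]; exact hTm j.2.le
    · intro j
      rw [hθT, ← T_zero N x]; exact hTm (Nat.zero_le _)
  -- integral over a piece of the k-th arc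
  have harc : ∀ (k : Fin N) (a b : ℝ), T N x k ≤ a → a ≤ b → b ≤ T N x ((k : ℕ) + 1) →
      (∫ ψ in a..b, Complex.exp (ψ * Complex.I) * E (Complex.exp (-(ψ * Complex.I)))) =
        om * nu N k * ((∫ ψ in a..b, W ψ : ℝ) : ℂ) := by
    intro k a b ha hab hb
    rw [← intervalIntegral.integral_ofReal, ← intervalIntegral.integral_const_mul]
    apply intervalIntegral.integral_congr_ae
    have : ∀ᵐ ψ : ℝ, ψ ≠ b := by
      have := (Set.countable_singleton b).ae_notMem MeasureTheory.volume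
      filter_upwards [this] with ψ hψ
      simpa using hψ
    filter_upwards [this] with ψ hψ hmem
    rw [Set.uIoc_of_le hab, Set.mem_Ioc] at hmem
    rw [hdir k ψ (lt_of_le_of_lt ha hmem.1) (lt_of_lt_of_le (lt_of_le_of_ne hmem.2 hψ) hb)]
    ring
  have hWlen : ∀ k : Fin N, ∫ ψ in (T N x k)..(T N x ((k : ℕ) + 1)), W ψ = μ * Lk k := by
    intro k
    rw [← hlen k, T_succ N x k]
    rfl
  have hTle : ∀ k : ℕ, T N x k ≤ T N x (k + 1) := fun k => hTm (Nat.le_succ k)
  have hintble : ∀ a b : ℝ, IntervalIntegrable (fun ψ : ℝ => Complex.exp (ψ * Complex.I) *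
      E (Complex.exp (-(ψ * Complex.I)))) MeasureTheory.volume a b := by
    intro a b
    apply Continuous.intervalIntegrable
    exact (by fun_prop : Continuous fun ψ : ℝ => Complex.exp (ψ * Complex.I)).mul hEcc
  -- partial integral up to the k-th vertex
  have hpart : ∀ k : ℕ, k ≤ N →
      (∫ ψ in (0 : ℝ)..(T N x k), Complex.exp (ψ * Complex.I) *
        E (Complex.exp (-(ψ * Complex.I)))) = om * μ * (-Complex.I) * (P k - P 0) := by
    intro k
    induction k with
    | zero => intro _; rw [T_zero]; simp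
    | succ k ih =>
      intro hk
      have h1 := ih (by omega)
      have h2 := harc ⟨k, by omega⟩ (T N x k) (T N x (k + 1)) le_rfl (hTle k) le_rfl
      rw [hWlen ⟨k, by omega⟩] at h2
      rw [← intervalIntegral.integral_add_adjacent_intervals (hintble 0 (T N x k))
        (hintble (T N x k) (T N x (k + 1))), h1, h2]
      have h3 := hside k
      have h4 : P (k + 1) = P k + Complex.I * nu N k * Lk k := by linear_combination h3
      rw [h4]
      push_cast
      have hI2 : Complex.I * Complex.I = -1 := Complex.I_mul_I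
      linear_combination (om * nu N k * μ * Lk k) * hI2
  have hclose : (∫ ψ in (0 : ℝ)..(2 * Real.pi),
      Complex.exp (ψ * Complex.I) * E (Complex.exp (-(ψ * Complex.I)))) = 0 := by
    have := hpart N le_rfl
    rw [hTlast] at this
    rw [this]
    have h0 : P N = P 0 := by have := hper 0; simpa using this
    rw [h0]; ring
  obtain ⟨g0, hgd, hgc, hrel, hG⟩ := exists_g0 E hEc hEd hE0 hclose
  have hCD : CD (scL N θ) g0 := {
    hL := scL_differentiableOn N θ
    hg := hgd
    L0 := scL_zero N θ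
    pos := fun u hu => scL_pos N hN θ u hu
    rel := fun u hu => by rw [hrel u hu, hE, scE_eq_exp N θ u hu] }
  set c : ℂ := (μ * om)⁻¹ with hc
  have hμne : (μ : ℂ) ≠ 0 := by exact_mod_cast hμ.ne'
  have hcne : c ≠ 0 := inv_ne_zero (mul_ne_zero hμne homne)
  set b : ℂ := P 0 - c * G0 g0 1 with hb
  set D : ℝ → ℂ := fun ψ => c * G0 g0 (Complex.exp (ψ * Complex.I)) + b with hD
  have hDdiff : ∀ a1 a2 : ℝ, D a2 - D a1 = c * Complex.I *
      ∫ ψ in a1..a2, Complex.exp (ψ * Complex.I) * E (Complex.exp (-(ψ * Complex.I))) := by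
    intro a1 a2
    have h1 := hG a1 a2
    have h2 : (∫ ψ in a1..a2, Complex.I * Complex.exp (ψ * Complex.I)
            * E (Complex.exp (-(ψ * Complex.I)))) = Complex.I * ∫ ψ in a1..a2,
            Complex.exp (ψ * Complex.I) * E (Complex.exp (-(ψ * Complex.I))) := by
      rw [← intervalIntegral.integral_const_mul]
      apply intervalIntegral.integral_congr
      intro ψ _
      ring
    rw [h2] at h1
    rw [hD]
    simp only
    linear_combination c * h1
  have hD0 : D 0 = P 0 := by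
    rw [hD, hb]
    simp
  have hDT : ∀ k : ℕ, k ≤ N → D (T N x k) = P k := by
    intro k hk
    have h1 := hDdiff 0 (T N x k)
    rw [hpart k hk, hD0] at h1
    have hcm : c * (μ * om) = 1 := inv_mul_cancel₀ (mul_ne_zero hμne homne)
    have hI2 : Complex.I * Complex.I = -1 := Complex.I_mul_I
    linear_combination h1 - (Complex.I * Complex.I * (P k - P 0)) * hcm - (P k - P 0) * hI2
  have hDV : ∀ ψ : ℝ, 0 ≤ ψ → ψ < 2 * Real.pi → D ψ ∈ V := by
    intro ψ h0 h1
    obtain ⟨k, hk1, hk2⟩ := exists_arc N x hxsum ψ h0 h1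
    set τ : ℝ := (∫ s in (T N x k)..ψ, W s) / (μ * Lk k) with hτ
    have hμL : 0 < μ * Lk k := mul_pos hμ (hLk k)
    have hI1 : 0 ≤ ∫ s in (T N x k)..ψ, W s :=
      intervalIntegral.integral_nonneg hk1 (fun s _ => hW0 s)
    have hI2 : 0 ≤ ∫ s in ψ..(T N x ((k : ℕ) + 1)), W s :=
      intervalIntegral.integral_nonneg hk2 (fun s _ => hW0 s)
    have hI3 : (∫ s in (T N x k)..ψ, W s) + ∫ s in ψ..(T N x ((k : ℕ) + 1)), W s = μ * Lk k := by
      rw [intervalIntegral.integral_add_adjacent_intervals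
        (hWc.intervalIntegrable _ _) (hWc.intervalIntegrable _ _), hWlen k]
    have hτ0 : 0 ≤ τ := div_nonneg hI1 hμL.le
    have hτ1 : τ ≤ 1 := by
      rw [hτ, div_le_one hμL]; linarith
    have hDψ : D ψ = (1 - τ) • P k + τ • P ((k : ℕ) + 1) := by
      have h2 := hDdiff (T N x k) ψ
      rw [harc k (T N x k) ψ le_rfl hk1 hk2, hDT k k.2.le] at h2
      have h3 := hside k
      have h4 : ((∫ s in (T N x k)..ψ, W s : ℝ) : ℂ) = τ * (μ * Lk k) := by
        have : (∫ s in (T N x k)..ψ, W s) = τ * (μ * Lk k) := by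
          rw [hτ, div_mul_cancel₀ _ hμL.ne']
        rw [this]; push_cast; ring
      rw [h4] at h2
      have hcm : c * (μ * om) = 1 := inv_mul_cancel₀ (mul_ne_zero hμne homne)
      simp only [Complex.real_smul]
      push_cast
      linear_combination h2 + (Complex.I * nu N k * τ * Lk k) * hcm - (τ : ℂ) * h3
    rw [hDψ]
    exact hVc (hPV k) (hPV _) (by linarith) hτ0 (by ring)
  have hcirc : ∀ t : ℂ, ‖t‖ = 1 → c * G0 g0 t + b ∈ V := by
    intro t ht
    obtain ⟨ψ, h0, h1, rfl⟩ := exists_angle t ht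
    exact hDV ψ h0 h1
  -- choose R
  have hSc : IsCompact ((fun t => c * G0 g0 t + b) '' (sphere (0 : ℂ) 1)) := by
    apply (isCompact_sphere (0 : ℂ) 1).image_of_continuousOn
    unfold G0
    apply ContinuousOn.add _ continuousOn_const
    apply ContinuousOn.mul continuousOn_const
    apply ContinuousOn.add continuousOn_id
    apply hgc.comp
    · apply ContinuousOn.inv₀ continuousOn_id
      intro t ht
      rw [mem_sphere_zero_iff_norm] at ht
      intro h
      simp only [id] at h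
      rw [h] at ht; simp at ht
    · intro t ht
      rw [mem_sphere_zero_iff_norm] at ht
      rw [mem_closedBall_zero_iff, norm_inv, ht, inv_one]
  obtain ⟨δ, hδ, hδV⟩ := hSc.exists_thickening_subset_open hV (by
    rintro _ ⟨t, ht, rfl⟩
    exact hcirc t (by rwa [mem_sphere_zero_iff_norm] at ht))
  have huc : UniformContinuousOn g0 (closedBall 0 1) :=
    (isCompact_closedBall (0 : ℂ) 1).uniformContinuousOn_of_continuous hgc
  set ε : ℝ := δ / (2 * (‖c‖ + 1)) with hε
  have hεpos : 0 < ε := by positivity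
  obtain ⟨η, hη, hηg⟩ := Metric.uniformContinuousOn_iff.mp huc ε hεpos
  set R : ℝ := 1 + min ε η / 2 with hR
  have hmin : 0 < min ε η := lt_min hεpos hη
  have hR1 : 1 < R := by rw [hR]; linarith
  have hRε : R - 1 < ε := by
    rw [hR]; have := min_le_left ε η; linarith
  have hRη : R - 1 < η := by
    rw [hR]; have := min_le_right ε η; linarith
  have hRV : ∀ t : ℂ, ‖t‖ = 1 → c * G0 g0 (R * t) + b ∈ V := by
    intro t ht
    apply hδV
    rw [Metric.mem_thickening_iff]
    refine ⟨c * G0 g0 t + b, ⟨t, by rw [mem_sphere_zero_iff_norm]; exact ht, rfl⟩, ?_⟩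
    have htne : t ≠ 0 := by intro h; rw [h] at ht; simp at ht
    have hRne : (R : ℂ) ≠ 0 := by
      have : R ≠ 0 := by linarith
      exact_mod_cast this
    have hRn : ‖(R : ℂ)‖ = R := by
      rw [Complex.norm_real, Real.norm_of_nonneg (by linarith)]
    have h1 : t⁻¹ ∈ closedBall (0 : ℂ) 1 := by
      rw [mem_closedBall_zero_iff, norm_inv, ht, inv_one]
    have h2 : ((R : ℂ) * t)⁻¹ ∈ closedBall (0 : ℂ) 1 := by
      rw [mem_closedBall_zero_iff, norm_inv, norm_mul, ht, mul_one, hRn]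
      exact inv_le_one_of_one_le₀ hR1.le
    have h3 : dist (((R : ℂ) * t)⁻¹) t⁻¹ < η := by
      rw [dist_eq_norm, mul_inv, ← sub_one_mul, norm_mul, norm_inv t, ht, inv_one, mul_one]
      have : (R : ℂ)⁻¹ - 1 = ((R⁻¹ - 1 : ℝ) : ℂ) := by push_cast; ring
      rw [this, Complex.norm_real, Real.norm_eq_abs, abs_sub_comm, abs_of_nonneg]
      · have : 1 - R⁻¹ ≤ R - 1 := by
          have h5 : R⁻¹ * R = 1 := inv_mul_cancel₀ (by linarith)
          nlinarith [sq_nonneg (R - 1), inv_pos.mpr (show 0 < R by linarith)]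
        linarith
      · have := inv_le_one_of_one_le₀ hR1.le
        linarith
    have h4 := hηg _ h2 _ h1 h3
    rw [dist_eq_norm] at h4 ⊢
    have h5 : c * G0 g0 (R * t) + b - (c * G0 g0 t + b) =
        c * (((R - 1 : ℝ) : ℂ) * t + (g0 ((R : ℂ) * t)⁻¹ - g0 t⁻¹)) := by
      unfold G0; push_cast; ring
    rw [h5, norm_mul]
    have h6 : ‖((R - 1 : ℝ) : ℂ) * t + (g0 ((R : ℂ) * t)⁻¹ - g0 t⁻¹)‖ < 2 * ε := by
      refine (norm_add_le _ _).trans_lt ?_
      rw [norm_mul, ht, mul_one, Complex.norm_real, Real.norm_of_nonneg (by linarith)]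
      linarith
    have h7 : 2 * ε * (‖c‖ + 1) = δ := by
      rw [hε]; field_simp
    have hc0 : 0 < ‖c‖ := norm_pos_iff.mpr hcne
    nlinarith [norm_nonneg (((R - 1 : ℝ) : ℂ) * t + (g0 ((R : ℂ) * t)⁻¹ - g0 t⁻¹))]
  refine ⟨mkExt hCD c b hcne R hR1, mkExt_conv hCD c b hcne R hR1, ?_, ?_⟩
  · apply mkExt_encl hCD hgc c b hcne R hR1 K
    intro a ha ν hν
    obtain ⟨k, hkN, hk⟩ := polygon_dir N hN3 P Lk hper hside a (hPK a ha) ν hν
    refine ⟨Complex.exp (T N x k * Complex.I), Complex.norm_exp_ofReal_mul_I _, ?_⟩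
    have := hDT k hkN.le
    rw [hD] at this
    simp only at this
    rw [this]
    exact hk
  · intro t ht
    rw [mkExt_G]
    exact hRV t ht

end Crest.Agent.R132
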