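import Crest.Agent.R132.Defs

/-!
# Piece EXTAN : basic API of exterior analytic functions on the unit circle

`ExtAn φ a` : on the circle, `φ t = Φ t⁻¹` with `Φ` analytic on a ball of radius `> 1`, `Φ 0 = a`.

* sums/products: take the smaller radius.
* continuity: `Φ` is continuous on the ball, `t ↦ t⁻¹` is continuous on the circle.
* `av_eq`: `Real.circleAverage_zero_one_congr_inv` turns `av (fun t => Φ t⁻¹)` into `av Φ`, and the mean
  value property (`circleAverage_of_differentiable_on` in Mathlib.Analysis.Complex.MeanValue) gives `Φ 0`.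
-/

set_option autoImplicit false
open Metric Set

namespace Crest.Agent.R132

/-- `av` only depends on the values on the circle -/
theorem av_congr {φ ψ : ℂ → ℂ} (h : ∀ t : ℂ, ‖t‖ = 1 → φ t = ψ t) : av φ = av ψ := by
  refine Real.circleAverage_congr_sphere ?_
  intro t ht
  exact h t (by simpa using ht)

theorem avR_congr {φ ψ : ℂ → ℝ} (h : ∀ t : ℂ, ‖t‖ = 1 → φ t = ψ t) : avR φ = avR ψ := by
  refine Real.circleAverage_congr_sphere ?_
  intro t ht
  exact h t (by simpa using ht)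

/-- continuous functions on the circle are circle integrable -/
theorem ci_of_cont {φ : ℂ → ℂ} (h : ContinuousOn φ (sphere 0 1)) : CircleIntegrable φ 0 1 := by
  exact h.circleIntegrable zero_le_one

theorem ciR_of_cont {φ : ℂ → ℝ} (h : ContinuousOn φ (sphere 0 1)) : CircleIntegrable φ 0 1 := by
  exact h.circleIntegrable zero_le_one

theorem av_add {φ ψ : ℂ → ℂ} (h1 : ContinuousOn φ (sphere 0 1)) (h2 : ContinuousOn ψ (sphere 0 1)) :
    av (fun t => φ t + ψ t) = av φ + av ψ := by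
  exact Real.circleAverage_fun_add (ci_of_cont h1) (ci_of_cont h2)

theorem av_sub {φ ψ : ℂ → ℂ} (h1 : ContinuousOn φ (sphere 0 1)) (h2 : ContinuousOn ψ (sphere 0 1)) :
    av (fun t => φ t - ψ t) = av φ - av ψ := by
  exact Real.circleAverage_fun_sub (ci_of_cont h1) (ci_of_cont h2)

theorem av_const_mul (c : ℂ) (φ : ℂ → ℂ) : av (fun t => c * φ t) = c * av φ := by
  exact Real.circleAverage_fun_smul (a := c)

theorem av_sum {ι : Type*} (s : Finset ι) (φ : ι → ℂ → ℂ)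
    (h : ∀ i ∈ s, ContinuousOn (φ i) (sphere 0 1)) :
    av (fun t => ∑ i ∈ s, φ i t) = ∑ i ∈ s, av (φ i) := by
  exact Real.circleAverage_fun_sum fun i hi => ci_of_cont (h i hi)

theorem avR_add {φ ψ : ℂ → ℝ} (h1 : ContinuousOn φ (sphere 0 1)) (h2 : ContinuousOn ψ (sphere 0 1)) :
    avR (fun t => φ t + ψ t) = avR φ + avR ψ := by
  exact Real.circleAverage_fun_add (ciR_of_cont h1) (ciR_of_cont h2)

theorem avR_const_mul (c : ℝ) (φ : ℂ → ℝ) : avR (fun t => c * φ t) = c * avR φ := by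
  exact Real.circleAverage_fun_smul (a := c)

theorem avR_sum {ι : Type*} (s : Finset ι) (φ : ι → ℂ → ℝ)
    (h : ∀ i ∈ s, ContinuousOn (φ i) (sphere 0 1)) :
    avR (fun t => ∑ i ∈ s, φ i t) = ∑ i ∈ s, avR (φ i) := by
  exact Real.circleAverage_fun_sum fun i hi => ciR_of_cont (h i hi)

theorem avR_mono {φ ψ : ℂ → ℝ} (h1 : ContinuousOn φ (sphere 0 1)) (h2 : ContinuousOn ψ (sphere 0 1))
    (h : ∀ t : ℂ, ‖t‖ = 1 → φ t ≤ ψ t) : avR φ ≤ avR ψ := by
  refine Real.circleAverage_mono (ciR_of_cont h1) (ciR_of_cont h2) ?_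
  intro t ht
  exact h t (by simpa using ht)

theorem avR_nonneg {φ : ℂ → ℝ} (h : ∀ t : ℂ, ‖t‖ = 1 → 0 ≤ φ t) : 0 ≤ avR φ := by
  refine Real.circleAverage_nonneg_of_nonneg ?_
  intro t ht
  exact h t (by simpa using ht)

theorem avR_re {φ : ℂ → ℂ} (h : ContinuousOn φ (sphere 0 1)) :
    avR (fun t => (φ t).re) = (av φ).re := by
  exact Complex.reCLM.circleAverage_comp_comm (ci_of_cont h)

/-- `av` of the complex conjugate -/
theorem av_conj {φ : ℂ → ℂ} (h : ContinuousOn φ (sphere 0 1)) :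
    av (fun t => (starRingEnd ℂ) (φ t)) = (starRingEnd ℂ) (av φ) := by
  exact (Complex.conjCLE : ℂ →L[ℝ] ℂ).circleAverage_comp_comm (ci_of_cont h)

theorem norm_av_le {φ : ℂ → ℂ} (h : ContinuousOn φ (sphere 0 1)) :
    ‖av φ‖ ≤ avR (fun t => ‖φ t‖) := by
  unfold av avR Real.circleAverage
  rw [norm_smul, Real.norm_of_nonneg (by positivity : 0 ≤ (2 * Real.pi)⁻¹), smul_eq_mul]
  exact mul_le_mul_of_nonneg_left
    (intervalIntegral.norm_integral_le_integral_norm Real.two_pi_pos.le) (by positivity)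

/-- Cauchy-Schwarz on the circle, squared form -/
theorem avR_mul_sq_le {φ ψ : ℂ → ℝ} (h1 : ContinuousOn φ (sphere 0 1))
    (h2 : ContinuousOn ψ (sphere 0 1)) :
    (avR fun t => φ t * ψ t) ^ 2 ≤ (avR fun t => φ t ^ 2) * (avR fun t => ψ t ^ 2) := by
  set A := avR fun t => φ t ^ 2 with hA
  set B := avR fun t => ψ t ^ 2 with hB
  set C := avR fun t => φ t * ψ t with hC
  have key : ∀ s : ℝ, 0 ≤ B * (s * s) + (-2 * C) * s + A := by
    intro s
    have h0 : 0 ≤ avR fun t => (φ t - s * ψ t) ^ 2 := avR_nonneg fun t _ => sq_nonneg _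
    have e1 : (avR fun t => (φ t - s * ψ t) ^ 2) =
        avR fun t => (s * s) * ψ t ^ 2 + ((-2 * s) * (φ t * ψ t) + φ t ^ 2) :=
      avR_congr fun t _ => by ring
    have c1 : ContinuousOn (fun t => (s * s) * ψ t ^ 2) (sphere (0 : ℂ) 1) :=
      continuousOn_const.mul (h2.pow 2)
    have c2 : ContinuousOn (fun t => (-2 * s) * (φ t * ψ t)) (sphere (0 : ℂ) 1) :=
      continuousOn_const.mul (h1.mul h2)
    have c3 : ContinuousOn (fun t => φ t ^ 2) (sphere (0 : ℂ) 1) := h1.pow 2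
    have c4 : ContinuousOn (fun t => (-2 * s) * (φ t * ψ t) + φ t ^ 2) (sphere (0 : ℂ) 1) :=
      c2.add c3
    rw [e1, avR_add c1 c4, avR_add c2 c3, avR_const_mul, avR_const_mul] at h0
    linarith
  have hd := discrim_le_zero key
  rw [discrim] at hd
  nlinarith

/-- Cauchy-Schwarz on the circle -/
theorem avR_mul_le {φ ψ : ℂ → ℝ} (h1 : ContinuousOn φ (sphere 0 1))
    (h2 : ContinuousOn ψ (sphere 0 1)) :
    avR (fun t => φ t * ψ t)
      ≤ Real.sqrt (avR fun t => φ t ^ 2) * Real.sqrt (avR fun t => ψ t ^ 2) := by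
  have hA : 0 ≤ avR fun t => φ t ^ 2 := avR_nonneg fun t _ => sq_nonneg _
  have hsq := avR_mul_sq_le h1 h2
  calc avR (fun t => φ t * ψ t) ≤ |avR (fun t => φ t * ψ t)| := le_abs_self _
    _ = Real.sqrt ((avR fun t => φ t * ψ t) ^ 2) := (Real.sqrt_sq_eq_abs _).symm
    _ ≤ Real.sqrt ((avR fun t => φ t ^ 2) * (avR fun t => ψ t ^ 2)) := Real.sqrt_le_sqrt hsq
    _ = _ := Real.sqrt_mul hA _

theorem norm_av_mul_sq_le {φ ψ : ℂ → ℂ} (h1 : ContinuousOn φ (sphere 0 1))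
    (h2 : ContinuousOn ψ (sphere 0 1)) :
    ‖av (fun t => φ t * ψ t)‖ ^ 2 ≤ (avR fun t => ‖φ t‖ ^ 2) * (avR fun t => ‖ψ t‖ ^ 2) := by
  have h3 : ContinuousOn (fun t => ‖φ t‖) (sphere (0 : ℂ) 1) := h1.norm
  have h4 : ContinuousOn (fun t => ‖ψ t‖) (sphere (0 : ℂ) 1) := h2.norm
  have h5 := norm_av_le (h1.mul h2)
  have h6 : (avR fun t => ‖φ t * ψ t‖) = avR fun t => ‖φ t‖ * ‖ψ t‖ :=
    avR_congr fun t _ => norm_mul _ _
  have h7 := avR_mul_sq_le h3 h4
  refine le_trans ?_ h7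
  rw [← h6]
  exact pow_le_pow_left₀ (norm_nonneg _) h5 2

namespace ExtAn

theorem congr {φ ψ : ℂ → ℂ} {a : ℂ} (h : ExtAn φ a) (hh : ∀ t : ℂ, ‖t‖ = 1 → ψ t = φ t) :
    ExtAn ψ a := by
  obtain ⟨ρ, Φ, h1, h2, h3, h4⟩ := h
  exact ⟨ρ, Φ, h1, h2, h3, fun t ht => (hh t ht).trans (h4 t ht)⟩

theorem const (a : ℂ) : ExtAn (fun _ => a) a := by
  exact ⟨2, fun _ => a, one_lt_two, differentiableOn_const _, rfl, fun _ _ => rfl⟩

theorem add {φ ψ : ℂ → ℂ} {a b : ℂ} (h1 : ExtAn φ a) (h2 : ExtAn ψ b) :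
    ExtAn (fun t => φ t + ψ t) (a + b) := by
  obtain ⟨ρ', Φ', h1', h2', h3', h4'⟩ := h2
  obtain ⟨ρ, Φ, h1, h2, h3, h4⟩ := h1
  refine ⟨min ρ ρ', fun z => Φ z + Φ' z, lt_min h1 h1', ?_, ?_, ?_⟩
  · exact (h2.mono (ball_subset_ball (min_le_left _ _))).add
      (h2'.mono (ball_subset_ball (min_le_right _ _)))
  · simp only [h3, h3']
  · intro t ht
    simp only [h4 t ht, h4' t ht]

theorem sub {φ ψ : ℂ → ℂ} {a b : ℂ} (h1 : ExtAn φ a) (h2 : ExtAn ψ b) :
    ExtAn (fun t => φ t - ψ t) (a - b) := by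
  obtain ⟨ρ', Φ', h1', h2', h3', h4'⟩ := h2
  obtain ⟨ρ, Φ, h1, h2, h3, h4⟩ := h1
  refine ⟨min ρ ρ', fun z => Φ z - Φ' z, lt_min h1 h1', ?_, ?_, ?_⟩
  · exact (h2.mono (ball_subset_ball (min_le_left _ _))).sub
      (h2'.mono (ball_subset_ball (min_le_right _ _)))
  · simp only [h3, h3']
  · intro t ht
    simp only [h4 t ht, h4' t ht]

theorem mul {φ ψ : ℂ → ℂ} {a b : ℂ} (h1 : ExtAn φ a) (h2 : ExtAn ψ b) :
    ExtAn (fun t => φ t * ψ t) (a * b) := by
  obtain ⟨ρ', Φ', h1', h2', h3', h4'⟩ := h2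
  obtain ⟨ρ, Φ, h1, h2, h3, h4⟩ := h1
  refine ⟨min ρ ρ', fun z => Φ z * Φ' z, lt_min h1 h1', ?_, ?_, ?_⟩
  · exact (h2.mono (ball_subset_ball (min_le_left _ _))).mul
      (h2'.mono (ball_subset_ball (min_le_right _ _)))
  · simp only [h3, h3']
  · intro t ht
    simp only [h4 t ht, h4' t ht]

theorem const_mul (c : ℂ) {φ : ℂ → ℂ} {a : ℂ} (h1 : ExtAn φ a) :
    ExtAn (fun t => c * φ t) (c * a) := by
  exact (ExtAn.const c).mul h1

theorem sum {ι : Type*} (s : Finset ι) (φ : ι → ℂ → ℂ) (a : ι → ℂ)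
    (h : ∀ i ∈ s, ExtAn (φ i) (a i)) : ExtAn (fun t => ∑ i ∈ s, φ i t) (∑ i ∈ s, a i) := by
  classical
  induction s using Finset.induction_on with
  | empty => simpa using ExtAn.const 0
  | insert i s hi ih =>
    simp only [Finset.sum_insert hi]
    exact (h i (Finset.mem_insert_self _ _)).add
      (ih fun j hj => h j (Finset.mem_insert_of_mem hj))

/-- negative powers (`t⁻¹ ^ n`, `n ≥ 1`) vanish at infinity -/
theorem inv_pow (n : ℕ) (hn : 1 ≤ n) : ExtAn (fun t => (t⁻¹) ^ n) 0 := by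
  refine ⟨2, fun z => z ^ n, one_lt_two, (differentiable_id.pow n).differentiableOn, ?_,
    fun _ _ => rfl⟩
  exact zero_pow (by omega)

/-- `t⁻¹ * q(t⁻¹)` with `q` analytic on a ball of radius `> 1` -/
theorem inv_mul (ρ : ℝ) (hρ : 1 < ρ) (q : ℂ → ℂ) (hq : DifferentiableOn ℂ q (ball 0 ρ)) :
    ExtAn (fun t => t⁻¹ * q t⁻¹) 0 := by
  exact ⟨ρ, fun z => z * q z, hρ, differentiableOn_id.mul hq, by simp, fun _ _ => rfl⟩

theorem continuousOn {φ : ℂ → ℂ} {a : ℂ} (h : ExtAn φ a) : ContinuousOn φ (sphere 0 1) := by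
  obtain ⟨ρ, Φ, h1, h2, h3, h4⟩ := h
  have h5 : ContinuousOn (fun t : ℂ => Φ t⁻¹) (sphere 0 1) := by
    refine h2.continuousOn.comp (continuousOn_inv₀.mono ?_) ?_
    · intro t ht h0
      have ht' : ‖t‖ = 1 := by simpa using ht
      rw [h0] at ht'
      simp at ht'
    · intro t ht
      have ht' : ‖t‖ = 1 := by simpa using ht
      simp [ht', h1]
  refine h5.congr ?_
  intro t ht
  exact h4 t (by simpa using ht)

theorem av_eq {φ : ℂ → ℂ} {a : ℂ} (h : ExtAn φ a) : av φ = a := by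
  obtain ⟨ρ, Φ, h1, h2, h3, h4⟩ := h
  rw [av_congr h4, ← h3]
  have e : av (fun t => Φ t⁻¹) = av Φ := Real.circleAverage_zero_one_congr_inv
  rw [e]
  refine DiffContOnCl.circleAverage (h2.diffContOnCl_ball ?_)
  rw [abs_one]
  exact closedBall_subset_ball h1

end ExtAn

end Crest.Agent.R132
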