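import Crest.Agent.R132.Defs

/-!
# Piece FABER : Faber polynomials

Strong induction: `F 0 = 1`, `q 0 = 0`.  Given `F_j(G t) = t^j + u q_j(u)` (`u = t⁻¹`) for `j ≤ n`:
`G t * F_n(G t) = (c t + g(u)) (tⁿ + u q_n(u)) = c t^{n+1} + tⁿ g(u) + c q_n(u) + u g(u) q_n(u)`.
Write `g(u) = ∑_{k ≤ n} g_k u^k + u^{n+1} g_{n+1}(u)` with analytic remainder (iterate `dslope` at `0`; on the ball the
function `dslope g 0` is differentiable), `q_n(u) = q_n(0) + u q̃_n(u)`.  Then
`X F_n - ∑_{k ≤ n} g_k F_{n-k} - c q_n(0) F_0` has leading part `c t^{n+1}`; divide by `c`.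
-/

set_option autoImplicit false
open Metric Set

namespace Crest.Agent.R132

/-- Taylor expansion with an analytic remainder, at `0` -/
theorem faber_taylor (g : ℂ → ℂ) (ρ : ℝ) (hρ : 0 < ρ) (hg : DifferentiableOn ℂ g (ball 0 ρ))
    (N : ℕ) : ∃ (a : ℕ → ℂ) (r : ℂ → ℂ), DifferentiableOn ℂ r (ball 0 ρ) ∧
      ∀ u, g u = ∑ k ∈ Finset.range N, a k * u ^ k + u ^ N * r u := by
  induction N with
  | zero => exact ⟨fun _ => 0, g, hg, fun u => by simp⟩
  | succ N ih =>
    obtain ⟨a, r, hr, h⟩ := ih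
    refine ⟨fun k => if k = N then r 0 else a k, dslope r 0,
      (Complex.differentiableOn_dslope (ball_mem_nhds 0 hρ)).2 hr, fun u => ?_⟩
    have h1 : r u = r 0 + u * dslope r 0 u := by
      have := sub_smul_dslope r 0 u
      rw [sub_zero, smul_eq_mul] at this
      rw [this]; ring
    show g u = ∑ k ∈ Finset.range (N + 1), (if k = N then r 0 else a k) * u ^ k +
      u ^ (N + 1) * dslope r 0 u
    rw [h u, Finset.sum_range_succ, if_pos rfl, h1, pow_succ]
    have h2 : ∑ k ∈ Finset.range N, (if k = N then r 0 else a k) * u ^ k =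
        ∑ k ∈ Finset.range N, a k * u ^ k := by
      refine Finset.sum_congr rfl fun k hk => ?_
      rw [if_neg (Finset.mem_range.1 hk).ne]
    rw [h2]
    ring

theorem faber_step (e : Ext) (n : ℕ)
    (ih : ∀ j, j ≤ n → ∃ (F : Polynomial ℂ) (q : ℂ → ℂ), DifferentiableOn ℂ q (ball 0 e.ρ) ∧
      ∀ t : ℂ, t ≠ 0 → ‖t⁻¹‖ < e.ρ → F.eval (e.G t) = t ^ j + t⁻¹ * q t⁻¹) :
    ∃ (F : Polynomial ℂ) (q : ℂ → ℂ), DifferentiableOn ℂ q (ball 0 e.ρ) ∧
      ∀ t : ℂ, t ≠ 0 → ‖t⁻¹‖ < e.ρ → F.eval (e.G t) = t ^ (n + 1) + t⁻¹ * q t⁻¹ := by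
  have hρ : 0 < e.ρ := lt_trans one_pos e.hρ
  have hex : ∀ j, ∃ (F : Polynomial ℂ) (q : ℂ → ℂ), j ≤ n → (DifferentiableOn ℂ q (ball 0 e.ρ) ∧
      ∀ t : ℂ, t ≠ 0 → ‖t⁻¹‖ < e.ρ → F.eval (e.G t) = t ^ j + t⁻¹ * q t⁻¹) := by
    intro j
    by_cases hj : j ≤ n
    · obtain ⟨F, q, h⟩ := ih j hj
      exact ⟨F, q, fun _ => h⟩
    · exact ⟨0, 0, fun h => absurd h hj⟩
  choose F q hF using hex
  obtain ⟨a, r, hr, hg⟩ := faber_taylor e.g e.ρ hρ e.hg (n + 1)
  have hqn := hF n le_rfl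
  refine ⟨Polynomial.C (e.c)⁻¹ * (Polynomial.X * F n -
      ∑ k ∈ Finset.range (n + 1), Polynomial.C (a k) * F (n - k) -
      Polynomial.C (e.c * q n 0)),
    fun u => (e.c)⁻¹ * (r u - ∑ k ∈ Finset.range (n + 1), a k * q (n - k) u +
      e.c * dslope (q n) 0 u + e.g u * q n u), ?_, ?_⟩
  · refine DifferentiableOn.const_mul ?_ _
    refine DifferentiableOn.add (DifferentiableOn.add (DifferentiableOn.sub hr ?_) ?_) ?_
    · exact DifferentiableOn.fun_sum fun k _ => ((hF (n - k) (Nat.sub_le _ _)).1).const_mul _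
    · exact ((Complex.differentiableOn_dslope (ball_mem_nhds 0 hρ)).2 hqn.1).const_mul _
    · exact e.hg.mul hqn.1
  · intro t ht htρ
    set u : ℂ := t⁻¹ with hu
    have htu : t * u = 1 := mul_inv_cancel₀ ht
    have h1 : q n u = q n 0 + u * dslope (q n) 0 u := by
      have := sub_smul_dslope (q n) 0 u
      rw [sub_zero, smul_eq_mul] at this
      rw [this]; ring
    have h2 : (F n).eval (e.G t) = t ^ n + u * q n u := hqn.2 t ht htρ
    have h3 : ∀ k ∈ Finset.range (n + 1), a k * (F (n - k)).eval (e.G t) =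
        a k * (t ^ n * u ^ k) + u * (a k * q (n - k) u) := by
      intro k hk
      have hk' : k ≤ n := Nat.lt_succ_iff.1 (Finset.mem_range.1 hk)
      rw [(hF (n - k) (Nat.sub_le _ _)).2 t ht htρ]
      have : t ^ (n - k) = t ^ n * u ^ k := by
        have h4 : t ^ n = t ^ (n - k) * t ^ k := by rw [← pow_add, Nat.sub_add_cancel hk']
        rw [h4, mul_assoc, ← mul_pow, htu, one_pow, mul_one]
      rw [this]; ring
    have hG : e.G t = e.c * t + e.g u := rfl
    have h5 : t ^ n * e.g u = ∑ k ∈ Finset.range (n + 1), a k * (t ^ n * u ^ k) + u * r u := by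
      rw [hg u, mul_add, Finset.mul_sum]
      congr 1
      · exact Finset.sum_congr rfl fun k _ => by ring
      · rw [pow_succ, ← mul_assoc, ← mul_assoc, ← mul_pow, htu, one_pow, one_mul]
    simp only [Polynomial.eval_mul, Polynomial.eval_sub, Polynomial.eval_C, Polynomial.eval_X,
      Polynomial.eval_finsetSum]
    rw [Finset.sum_congr rfl h3, Finset.sum_add_distrib, ← Finset.mul_sum, h2]
    have h6 : e.G t * (t ^ n + u * q n u) =
        e.c * t ^ (n + 1) + t ^ n * e.g u + e.c * q n u + u * (e.g u * q n u) := by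
      rw [hG]
      have : e.c * t * (u * q n u) = e.c * q n u * (t * u) := by ring
      calc (e.c * t + e.g u) * (t ^ n + u * q n u) =
          e.c * (t ^ n * t) + t ^ n * e.g u + e.c * t * (u * q n u) + u * (e.g u * q n u) := by
            ring
        _ = _ := by rw [this, htu, pow_succ]; ring
    rw [h6, h5]
    have h7 : e.c * q n u = e.c * q n 0 + u * (e.c * dslope (q n) 0 u) := by rw [h1]; ring
    rw [h7]
    have hc := e.hc
    generalize ∑ k ∈ Finset.range (n + 1), a k * (t ^ n * u ^ k) = Sg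
    generalize ∑ k ∈ Finset.range (n + 1), a k * q (n - k) u = Sq
    field_simp
    ring

theorem faber_one (e : Ext) (n : ℕ) : ∃ (F : Polynomial ℂ) (q : ℂ → ℂ),
    DifferentiableOn ℂ q (ball 0 e.ρ) ∧
      ∀ t : ℂ, t ≠ 0 → ‖t⁻¹‖ < e.ρ → F.eval (e.G t) = t ^ n + t⁻¹ * q t⁻¹ := by
  induction n using Nat.strong_induction_on with
  | _ n ih =>
    cases n with
    | zero => exact ⟨1, 0, differentiableOn_const _, fun t _ _ => by simp⟩
    | succ n => exact faber_step e n fun j hj => ih j (Nat.lt_succ_of_le hj)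

theorem faber_exists (e : Ext) : ∃ (F : ℕ → Polynomial ℂ) (q : ℕ → ℂ → ℂ), F 0 = 1 ∧ q 0 = 0 ∧
    (∀ n, DifferentiableOn ℂ (q n) (ball 0 e.ρ)) ∧
    ∀ (n : ℕ) (t : ℂ), t ≠ 0 → ‖t⁻¹‖ < e.ρ → (F n).eval (e.G t) = t ^ n + t⁻¹ * q n t⁻¹ := by
  choose F q hq hF using faber_one e
  refine ⟨fun n => if n = 0 then 1 else F n, fun n => if n = 0 then 0 else q n, rfl, rfl, ?_, ?_⟩
  · intro n
    by_cases hn : n = 0
    · simp only [hn, if_true]
      exact differentiableOn_const _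
    · simp only [hn, if_false]
      exact hq n
  · intro n t ht htρ
    by_cases hn : n = 0
    · simp [hn]
    · simp only [hn, if_false]
      exact hF n t ht htρ

end Crest.Agent.R132
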