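import Crest.Agent.R132.Div
import Crest.Agent.R132.DerivNe

/-!
# Piece S181D: the factorisation `f z - p(B) = (z - B) D z` with `D z` invertible
-/

set_option autoImplicit false
open Metric Set Matrix Polynomial
open Crest.AnalysisR.NumRange

namespace Crest.Agent.R132

/-- division of `p(z) - p(X)` by `z - X`, with holomorphic dependence on `z` -/
theorem poly_fac {n : ℕ} (B : Matrix (Fin n) (Fin n) ℂ) (p : Polynomial ℂ) :
    ∃ R : ℂ → Polynomial ℂ,
      (∀ z, C (p.eval z) - p = (C z - X) * R z) ∧
      (∀ i j, Differentiable ℂ fun z => (aeval B (R z)) i j) ∧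
      (∀ μ, Differentiable ℂ fun z => (R z).eval μ) := by
  induction p using Polynomial.induction_on with
  | C a => exact ⟨fun _ => 0, by simp, by simp, by simp⟩
  | add p q hp hq =>
    obtain ⟨R, h1, h2, h3⟩ := hp
    obtain ⟨S, k1, k2, k3⟩ := hq
    refine ⟨fun z => R z + S z, ?_, ?_, ?_⟩
    · intro z
      rw [eval_add, C_add, mul_add, ← h1, ← k1]
      ring
    · intro i j
      simp only [map_add, Matrix.add_apply]
      exact (h2 i j).add (k2 i j)
    · intro μ
      simp only [eval_add]
      exact (h3 μ).add (k3 μ)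
  | monomial m a ih =>
    obtain ⟨R, h1, h2, h3⟩ := ih
    refine ⟨fun z => C z * R z + C a * X ^ m, ?_, ?_, ?_⟩
    · intro z
      have h := h1 z
      have e1 : (C a * X ^ (m + 1) : Polynomial ℂ).eval z = (C a * X ^ m : Polynomial ℂ).eval z * z := by
        simp [pow_succ, mul_assoc]
      rw [e1, C_mul]
      have e2 : (C z - X) * (C z * R z + C a * X ^ m) =
          C z * ((C z - X) * R z) + (C z - X) * (C a * X ^ m) := by ring
      rw [e2, ← h]
      ring
    · intro i j
      simp only [map_add, map_mul, aeval_C, Matrix.add_apply]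
      refine Differentiable.add ?_ (differentiable_const _)
      have : (fun z : ℂ => ((algebraMap ℂ (Matrix (Fin n) (Fin n) ℂ)) z * aeval B (R z)) i j) =
          fun z => z * (aeval B (R z)) i j := by
        funext z
        rw [← Algebra.smul_def, Matrix.smul_apply, smul_eq_mul]
      rw [this]
      exact differentiable_id.mul (h2 i j)
    · intro μ
      simp only [eval_add, eval_mul, eval_C]
      exact (differentiable_id.mul (h3 μ)).add (differentiable_const _)

theorem fac_aux {n : ℕ} (B : Matrix (Fin n) (Fin n) ℂ) (U : Set ℂ) (hU : IsOpen U) (f : ℂ → ℂ)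
    (hf₁ : DifferentiableOn ℂ f U) (hf₂ : Set.InjOn f U) (hB : spectrum ℂ B ⊆ U)
    (p : Polynomial ℂ) (hp : AgreesOnSpectrum B f p) :
    ∃ D : ℂ → Matrix (Fin n) (Fin n) ℂ, HolOn U D ∧
      (∀ z ∈ U, f z • (1 : Matrix (Fin n) (Fin n) ℂ) - Polynomial.aeval B p
        = (z • (1 : Matrix (Fin n) (Fin n) ℂ) - B) * D z) ∧
      (∀ z ∈ U, D z * B = B * D z) ∧ (∀ z ∈ U, IsUnit (D z)) := by
  obtain ⟨k, hk, hfk⟩ := agrees_div B U hU hB f hf₁ p hp
  obtain ⟨R, r1, r2, r3⟩ := poly_fac B p
  obtain ⟨S, s1, s2, s3⟩ := poly_fac B B.charpoly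
  let Q : ℂ → Polynomial ℂ := fun z => R z + C (k z) * S z
  have hev : ∀ z ∈ U, ∀ μ ∈ spectrum ℂ B, (z - μ) * (Q z).eval μ = f z - f μ := by
    intro z hz μ hμ
    have hχ : B.charpoly.eval μ = 0 := Matrix.mem_spectrum_iff_isRoot_charpoly.mp hμ
    have h1 := congrArg (Polynomial.eval μ) (r1 z)
    have h2 := congrArg (Polynomial.eval μ) (s1 z)
    simp only [eval_sub, eval_C, eval_mul, eval_X] at h1 h2
    rw [hfk z hz, hfk μ (hB hμ), hχ]
    rw [hχ] at h2
    simp only [Q, eval_add, eval_mul, eval_C]
    linear_combination (-1 : ℂ) * h1 - k z * h2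
  refine ⟨fun z => aeval B (Q z), ?_, ?_, ?_, ?_⟩
  · intro i j
    have : (fun z => (aeval B (Q z)) i j) =
        fun z => (aeval B (R z)) i j + k z * (aeval B (S z)) i j := by
      funext z
      simp only [Q, map_add, map_mul, aeval_C, Matrix.add_apply]
      rw [← Algebra.smul_def, Matrix.smul_apply, smul_eq_mul]
    rw [this]
    exact (r2 i j).differentiableOn.add (hk.mul (s2 i j).differentiableOn)
  · intro z hz
    have h1 := congrArg (aeval B) (r1 z)
    have h2 := congrArg (aeval B) (s1 z)
    rw [map_sub, map_mul, map_sub, aeval_C, aeval_C, aeval_X] at h1 h2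
    rw [Matrix.aeval_self_charpoly, sub_zero] at h2
    simp only [Algebra.algebraMap_eq_smul_one] at h1 h2
    simp only [Q, map_add, map_mul, aeval_C, Algebra.algebraMap_eq_smul_one, smul_mul_assoc,
      one_mul, mul_add, mul_smul_comm]
    rw [← h1, ← h2, hfk z hz, smul_smul, add_smul, mul_comm (k z)]
    abel
  · intro z _
    show aeval B (Q z) * B = B * aeval B (Q z)
    have h1 : aeval B (Q z * X) = aeval B (X * Q z) := by rw [mul_comm]
    rw [map_mul, map_mul, aeval_X] at h1
    exact h1
  · intro z hz
    rcases Nat.eq_zero_or_pos n with h0 | h0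
    · subst h0
      exact isUnit_of_subsingleton _
    · have : Nonempty (Fin n) := ⟨⟨0, h0⟩⟩
      rw [← spectrum.zero_notMem_iff ℂ]
      intro h
      have hne : (spectrum ℂ B).Nonempty := spectrum.nonempty_of_isAlgClosed_of_finiteDimensional ℂ B
      rw [spectrum.map_polynomial_aeval_of_nonempty B (Q z) hne] at h
      obtain ⟨μ, hμ, hQ⟩ := h
      have hQ' : (Q z).eval μ = 0 := hQ
      have h1 := hev z hz μ hμ
      rw [hQ', mul_zero] at h1
      have h2 : z = μ := hf₂ hz (hB hμ) (sub_eq_zero.mp h1.symm)
      subst h2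
      -- the derivative
      have hd : deriv f z ≠ 0 := DerivNe.deriv_ne_zero_of_injOn hU hf₁ hf₂ hz
      apply hd
      have h3 : HasDerivAt f ((Q z).eval z) z := by
        have hc : ContinuousAt (fun w => (Q w).eval z) z := by
          have e : (fun w => (Q w).eval z) = fun w => (R w).eval z + k w * (S w).eval z := by
            funext w
            simp only [Q, eval_add, eval_mul, eval_C]
          rw [e]
          exact ((r3 z).continuous.continuousAt).add
            (((hk.differentiableAt (hU.mem_nhds hz)).continuousAt).mul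
              (s3 z).continuous.continuousAt)
        rw [hasDerivAt_iff_tendsto_slope]
        have h4 : Filter.Tendsto (fun w => (Q w).eval z) (nhdsWithin z {z}ᶜ)
            (nhds ((Q z).eval z)) := hc.tendsto.mono_left nhdsWithin_le_nhds
        refine h4.congr' ?_
        filter_upwards [self_mem_nhdsWithin, nhdsWithin_le_nhds (hU.mem_nhds hz)] with w hw hwU
        have h5 := hev w hwU z hμ
        rw [slope_def_field, ← h5]
        have : w - z ≠ 0 := sub_ne_zero.mpr hw
        field_simp
      rw [h3.deriv, hQ']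

end Crest.Agent.R132
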