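import Crest.Agent.R132.Defs

/-!
# Piece SEP : Lagrange multipliers by separation

Let `P` be the open convex cone `{(P1,P2,P3) : Hermitian, P_i.PosDef}` (in the real vector space of triples of Hermitian matrices,
e.g. `selfAdjoint (Matrix n n ℂ) × selfAdjoint (Matrix n n ℂ) × selfAdjoint (Matrix p p ℂ)`, with any norm), and
`𝓛 = {(M1 + K, M2 - K, M3 + Γ K)}` the affine subspace.  `hno`: disjoint.  `geometric_hahn_banach_open` gives a continuous real linear
functional `f` and `s` with `f < s` on `P` and `s ≤ f` on `𝓛` (or the negative); since `P` is a cone with `0` in its closure, `s = 0` may be taken,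
`-f ≥ 0` on `P`, `-f ≤ 0` on `𝓛`; `f` bounded below on an affine subspace, so `f` is constant in the directions `(K, -K, Γ K)`.
Represent `-f(P1,P2,P3) = Re tr(X P1) + Re tr(Y P2) + Re tr(Z P3)` with Hermitian `X, Y, Z`; positivity on `P` gives `X, Y, Z ≥ 0`
(test with `ε 1 + x xᴴ`), not all zero.  `Re tr ((X - Y + Γ' Z) K) = 0` for all Hermitian `K`, and `X - Y + Γ' Z` is Hermitian, so it is `0`.
Value at `K = 0`: `tr(X M1) + tr(Y M2) + tr(Z M3) ≤ 0` with all terms `≥ 0`, so every `tr(M_i X_i) = 0`, hence `M_i * X_i = 0`.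

To avoid quotients one can work on all matrices as a real space with the set `{P : P.PosDef-part ...}`; alternatively use
finite dimensional coordinates.  `Γ' Z` Hermitian for Hermitian `Z`: `tr (K (Γ' Z)) = tr(Γ K Z)` is real for Hermitian `K`.
-/

set_option autoImplicit false
open Matrix
open scoped ComplexOrder

namespace Crest.Agent.R132

namespace SepAux

section herm
open scoped Matrix.Norms.L2Operator MatrixOrder

theorem exists_add_smul_psd {n : Type} [Fintype n] [DecidableEq n] (H : Matrix n n ℂ)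
    (hH : H.IsHermitian) : ∃ c : ℝ, 0 ≤ c ∧ (H + (c : ℂ) • (1 : Matrix n n ℂ)).PosSemidef := by
  refine ⟨‖H‖, norm_nonneg _, ?_⟩
  have h1 : -algebraMap ℝ (Matrix n n ℂ) ‖H‖ ≤ H := IsSelfAdjoint.neg_algebraMap_norm_le_self hH
  rw [← Matrix.nonneg_iff_posSemidef]
  have h2 : algebraMap ℝ (Matrix n n ℂ) ‖H‖ = ((‖H‖ : ℝ) : ℂ) • (1 : Matrix n n ℂ) := by
    rw [Algebra.algebraMap_eq_smul_one]
    ext i j
    simp
  rw [← h2]
  have h3 := add_le_add_left h1 (algebraMap ℝ (Matrix n n ℂ) ‖H‖)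
  simpa [add_comm] using h3

theorem psd_factor {n : Type} [Fintype n] [DecidableEq n] {A : Matrix n n ℂ}
    (hA : A.PosSemidef) : ∃ S : Matrix n n ℂ, A = Sᴴ * S := by
  rw [← Matrix.nonneg_iff_posSemidef] at hA
  exact CStarAlgebra.nonneg_iff_eq_star_mul_self.1 hA

end herm

theorem trace_herm_conj {n : Type} [Fintype n] [DecidableEq n] (X P : Matrix n n ℂ)
    (hP : P.IsHermitian) : (Xᴴ * P).trace = (starRingEnd ℂ) ((X * P).trace) := by
  have h3 := Matrix.trace_conjTranspose (X * P)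
  rw [Matrix.conjTranspose_mul, hP.eq, Matrix.trace_mul_comm] at h3
  rw [h3]
  rfl

theorem repr_herm {n : Type} [Fintype n] [DecidableEq n] (φ : Matrix n n ℂ →ₗ[ℝ] ℝ) :
    ∃ X : Matrix n n ℂ, X.IsHermitian ∧ ∀ P, P.IsHermitian → φ P = (X * P).trace.re := by
  set X0 : Matrix n n ℂ := Matrix.of fun j i =>
    (φ (Matrix.single i j 1) : ℂ) - Complex.I * (φ (Matrix.single i j Complex.I) : ℂ) with hX0
  have h1 : ∀ P : Matrix n n ℂ, φ P = (X0 * P).trace.re := by
    intro P
    have hP : P = ∑ i, ∑ j, ((P i j).re • Matrix.single i j (1:ℂ) +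
        (P i j).im • Matrix.single i j Complex.I) := by
      conv_lhs => rw [Matrix.matrix_eq_sum_single P]
      apply Finset.sum_congr rfl
      intro i _
      apply Finset.sum_congr rfl
      intro j _
      rw [Matrix.smul_single, Matrix.smul_single, ← Matrix.single_add]
      congr 1
      simp only [Complex.real_smul, mul_one]
      exact (Complex.re_add_im _).symm
    conv_lhs => rw [hP]
    rw [map_sum]
    simp only [map_sum, map_add, map_smul, smul_eq_mul]
    rw [Matrix.trace]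
    simp only [Matrix.diag_apply, Matrix.mul_apply]
    rw [Finset.sum_comm, Complex.re_sum]
    apply Finset.sum_congr rfl
    intro j _
    rw [Complex.re_sum]
    apply Finset.sum_congr rfl
    intro i _
    simp only [hX0, Matrix.of_apply]
    simp
    ring
  refine ⟨(1/2 : ℂ) • (X0 + X0ᴴ), ?_, ?_⟩
  · rw [Matrix.IsHermitian, Matrix.conjTranspose_smul, Matrix.conjTranspose_add,
      Matrix.conjTranspose_conjTranspose, add_comm]
    congr 1
    simp
  · intro P hP
    rw [h1 P, Matrix.smul_mul, Matrix.trace_smul, Matrix.add_mul, Matrix.trace_add]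
    rw [trace_herm_conj X0 P hP]
    simp
    ring

theorem psd_mul_eq_zero {n : Type} [Fintype n] [DecidableEq n] {A B : Matrix n n ℂ}
    (hA : A.PosSemidef) (hB : B.PosSemidef) :
    0 ≤ (B * A).trace.re ∧ ((B * A).trace.re = 0 → A * B = 0) := by
  obtain ⟨S, rfl⟩ := psd_factor hA
  obtain ⟨T, rfl⟩ := psd_factor hB
  have h1 : ((Tᴴ * T) * (Sᴴ * S)).trace = ((S * Tᴴ)ᴴ * (S * Tᴴ)).trace := by
    rw [Matrix.conjTranspose_mul, Matrix.conjTranspose_conjTranspose]
    rw [Matrix.mul_assoc, Matrix.trace_mul_comm]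
    simp only [Matrix.mul_assoc]
  have h2 : 0 ≤ ((S * Tᴴ)ᴴ * (S * Tᴴ)).trace :=
    (Matrix.posSemidef_conjTranspose_mul_self _).trace_nonneg
  rw [h1]
  rw [Complex.nonneg_iff] at h2
  refine ⟨h2.1, fun h3 => ?_⟩
  have h4 : ((S * Tᴴ)ᴴ * (S * Tᴴ)).trace = 0 := Complex.ext h3 h2.2.symm
  rw [Matrix.trace_conjTranspose_mul_self_eq_zero_iff] at h4
  rw [Matrix.mul_assoc, ← Matrix.mul_assoc S, h4, Matrix.zero_mul, Matrix.mul_zero]

theorem psd_of_test {n : Type} [Fintype n] [DecidableEq n] {X : Matrix n n ℂ}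
    (hX : X.IsHermitian) (h : ∀ P : Matrix n n ℂ, P.PosSemidef → 0 ≤ (X * P).trace.re) :
    X.PosSemidef := by
  apply Matrix.PosSemidef.of_dotProduct_mulVec_nonneg hX
  intro x
  have h1 := h _ (Matrix.posSemidef_vecMulVec_self_star x)
  rw [Matrix.mul_vecMulVec, Matrix.trace_vecMulVec] at h1
  rw [Complex.nonneg_iff]
  refine ⟨?_, ?_⟩
  · rwa [dotProduct_comm]
  · exact (hX.im_star_dotProduct_mulVec_self x).symm

theorem exists_herm_decomp {n : Type} (K : Matrix n n ℂ) :
    ∃ A B : Matrix n n ℂ, A.IsHermitian ∧ B.IsHermitian ∧ K = A + Complex.I • B := by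
  refine ⟨(1/2 : ℂ) • (K + Kᴴ), (-Complex.I/2 : ℂ) • (K - Kᴴ), ?_, ?_, ?_⟩
  · rw [Matrix.IsHermitian, Matrix.conjTranspose_smul, Matrix.conjTranspose_add,
      Matrix.conjTranspose_conjTranspose, add_comm]
    congr 1
    simp
  · rw [Matrix.IsHermitian, Matrix.conjTranspose_smul, Matrix.conjTranspose_sub,
      Matrix.conjTranspose_conjTranspose]
    ext i j
    simp
    ring
  · ext i j
    simp
    ring_nf
    rw [Complex.I_sq]
    ring

abbrev ET (n p : Type) := Matrix n n ℂ × Matrix n n ℂ × Matrix p p ℂ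

end SepAux

open SepAux in
theorem sep {n p : Type} [Fintype n] [DecidableEq n] [Fintype p] [DecidableEq p]
    (M1 M2 : Matrix n n ℂ) (M3 : Matrix p p ℂ)
    (h1 : M1.PosSemidef) (h2 : M2.PosSemidef) (h3 : M3.PosSemidef)
    (Γ : Matrix n n ℂ →ₗ[ℂ] Matrix p p ℂ) (Γ' : Matrix p p ℂ →ₗ[ℂ] Matrix n n ℂ)
    (hadj : ∀ K Z, (Γ K * Z).trace = (K * Γ' Z).trace)
    (hH : ∀ K : Matrix n n ℂ, K.IsHermitian → (Γ K).IsHermitian)
    (hno : ∀ K : Matrix n n ℂ, K.IsHermitian →
      ¬ ((M1 + K).PosDef ∧ (M2 - K).PosDef ∧ (M3 + Γ K).PosDef)) :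
    ∃ (X Y : Matrix n n ℂ) (Z : Matrix p p ℂ), X.PosSemidef ∧ Y.PosSemidef ∧ Z.PosSemidef ∧
      ¬ (X = 0 ∧ Y = 0 ∧ Z = 0) ∧ M1 * X = 0 ∧ M2 * Y = 0 ∧ M3 * Z = 0 ∧ X + Γ' Z = Y := by
  -- the key disjointness
  have key : ∀ (K : Matrix n n ℂ) (a : ℝ), K.IsHermitian →
      ¬ ((K + (a : ℂ) • M1).PosDef ∧ (-K + (a : ℂ) • M2).PosDef ∧ (Γ K + (a : ℂ) • M3).PosDef) := by
    rintro K a hK ⟨hp1, hp2, hp3⟩
    rcases le_or_gt a 0 with ha | ha
    · have ha' : (0 : ℂ) ≤ ((1 - a : ℝ) : ℂ) := by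
        rw [Complex.zero_le_real]
        linarith
      apply hno K hK
      refine ⟨?_, ?_, ?_⟩
      · have := hp1.add_posSemidef (h1.smul ha')
        convert this using 1
        push_cast
        module
      · have := hp2.add_posSemidef (h2.smul ha')
        convert this using 1
        push_cast
        module
      · have := hp3.add_posSemidef (h3.smul ha')
        convert this using 1
        push_cast
        module
    · have ha' : (0 : ℂ) < ((a⁻¹ : ℝ) : ℂ) := by
        rw [Complex.zero_lt_real]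
        positivity
      have ha0 : (a : ℂ) ≠ 0 := by exact_mod_cast ha.ne'
      apply hno (((a⁻¹ : ℝ) : ℂ) • K)
      · rw [Matrix.IsHermitian, Matrix.conjTranspose_smul, hK.eq]
        simp
      · refine ⟨?_, ?_, ?_⟩
        · have := hp1.smul ha'
          convert this using 1
          rw [smul_add, smul_smul]
          push_cast
          rw [inv_mul_cancel₀ ha0, one_smul, add_comm]
        · have := hp2.smul ha'
          convert this using 1
          rw [smul_add, smul_smul, smul_neg]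
          push_cast
          rw [inv_mul_cancel₀ ha0, one_smul]
          abel
        · have := hp3.smul ha'
          convert this using 1
          rw [smul_add, smul_smul, map_smul]
          push_cast
          rw [inv_mul_cancel₀ ha0, one_smul, add_comm]
  -- the cone
  let s : PointedCone ℝ (ET n p) :=
    { carrier := {P | (P.1 + P.1ᴴ).PosSemidef ∧ (P.2.1 + P.2.1ᴴ).PosSemidef ∧
        (P.2.2 + P.2.2ᴴ).PosSemidef}
      add_mem' := by
        rintro P Q ⟨a1, a2, a3⟩ ⟨b1, b2, b3⟩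
        refine ⟨?_, ?_, ?_⟩
        · have := a1.add b1
          convert this using 1
          simp only [Prod.fst_add, Matrix.conjTranspose_add]
          abel
        · have := a2.add b2
          convert this using 1
          simp only [Prod.fst_add, Prod.snd_add, Matrix.conjTranspose_add]
          abel
        · have := a3.add b3
          convert this using 1
          simp only [Prod.snd_add, Matrix.conjTranspose_add]
          abel
      zero_mem' := by
        refine ⟨?_, ?_, ?_⟩ <;> simpa using Matrix.PosSemidef.zero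
      smul_mem' := by
        rintro ⟨c, hc⟩ P ⟨a1, a2, a3⟩
        have hc' : (0 : ℂ) ≤ (c : ℂ) := by exact_mod_cast hc
        have hsm : ∀ {k : Type} [Fintype k] (Q : Matrix k k ℂ),
            (Q + Qᴴ).PosSemidef → (c • Q + (c • Q)ᴴ).PosSemidef := by
          intro k _ Q hQ
          have := hQ.smul hc'
          convert this using 1
          ext i j
          simp [Matrix.conjTranspose_apply, mul_add]
        exact ⟨hsm _ a1, hsm _ a2, hsm _ a3⟩ }
  have hs_mem : ∀ P : ET n p, P ∈ s ↔ ((P.1 + P.1ᴴ).PosSemidef ∧ (P.2.1 + P.2.1ᴴ).PosSemidef ∧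
        (P.2.2 + P.2.2ᴴ).PosSemidef) := fun P => Iff.rfl
  have hherm_mem : ∀ P : ET n p, P.1.PosSemidef → P.2.1.PosSemidef → P.2.2.PosSemidef → P ∈ s := by
    intro P a1 a2 a3
    rw [hs_mem, a1.1.eq, a2.1.eq, a3.1.eq]
    exact ⟨a1.add a1, a2.add a2, a3.add a3⟩
  -- the subspace
  let D : Submodule ℝ (ET n p) :=
    { carrier := {P | ∃ (K : Matrix n n ℂ) (a : ℝ), K.IsHermitian ∧
        P = (K + (a : ℂ) • M1, -K + (a : ℂ) • M2, Γ K + (a : ℂ) • M3)}
      add_mem' := by
        rintro _ _ ⟨K, a, hK, rfl⟩ ⟨K', a', hK', rfl⟩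
        refine ⟨K + K', a + a', hK.add hK', ?_⟩
        simp only [Prod.mk_add_mk, map_add, Complex.ofReal_add]
        refine Prod.ext ?_ (Prod.ext ?_ ?_) <;> simp only <;> module
      zero_mem' := ⟨0, 0, Matrix.isHermitian_zero, by simp; rfl⟩
      smul_mem' := by
        rintro c _ ⟨K, a, hK, rfl⟩
        refine ⟨(c : ℂ) • K, c * a, ?_, ?_⟩
        · rw [Matrix.IsHermitian, Matrix.conjTranspose_smul, hK.eq]
          simp
        · have hreal : ∀ {k : Type} (Q : Matrix k k ℂ), c • Q = (c : ℂ) • Q := by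
            intro k Q
            ext i j
            simp
          simp only [Prod.smul_mk, hreal, map_smul, Complex.ofReal_mul]
          refine Prod.ext ?_ (Prod.ext ?_ ?_) <;> simp only <;> module }
  have hD_mem : ∀ P : ET n p, P ∈ D ↔ ∃ (K : Matrix n n ℂ) (a : ℝ), K.IsHermitian ∧
        P = (K + (a : ℂ) • M1, -K + (a : ℂ) • M2, Γ K + (a : ℂ) • M3) := fun P => Iff.rfl
  let I : ET n p := (1, 1, 1)
  have hI : I ∉ D := by
    rw [hD_mem]
    rintro ⟨K, a, hK, hP⟩
    simp only [I, Prod.mk.injEq] at hP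
    refine key K a hK ⟨?_, ?_, ?_⟩
    · rw [← hP.1]
      exact Matrix.PosDef.one
    · rw [← hP.2.1]
      exact Matrix.PosDef.one
    · rw [← hP.2.2]
      exact Matrix.PosDef.one
  let f0 : (ET n p) →ₗ.[ℝ] ℝ := ⟨D, 0⟩
  let f := f0.supSpanSingleton I 1 hI
  have hf_apply : ∀ (P : ET n p) (hP : P ∈ D) (c : ℝ) (h : P + c • I ∈ f.domain),
      f ⟨P + c • I, h⟩ = c := by
    intro P hP c h
    have := f0.supSpanSingleton_apply_mk I 1 hI P hP c
    rw [this]
    simp [f0]
  have hmem_dom : ∀ (P : ET n p) (hP : P ∈ D) (c : ℝ), P + c • I ∈ f.domain := by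
    intro P hP c
    exact Submodule.mem_sup.2 ⟨P, hP, _, Submodule.mem_span_singleton.2 ⟨c, rfl⟩, rfl⟩
  obtain ⟨g, hg1, hg2⟩ := riesz_extension s f (by
    rintro ⟨x, hx⟩ hxs
    obtain ⟨P, hP, z, hz, rfl⟩ := Submodule.mem_sup.1 hx
    obtain ⟨c, rfl⟩ := Submodule.mem_span_singleton.1 hz
    rw [hf_apply P hP c]
    by_contra hc
    push Not at hc
    obtain ⟨K, a, hK, rfl⟩ := (hD_mem P).1 hP
    obtain ⟨p1, p2, p3⟩ := (hs_mem _).1 hxs
    have hgen : ∀ {k : Type} [Fintype k] [DecidableEq k] (Q : Matrix k k ℂ), Q.IsHermitian →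
        ((Q + c • 1) + (Q + c • 1)ᴴ).PosSemidef → Q.PosDef := by
      intro k _ _ Q hQ h
      have h1 : (Q + c • 1)ᴴ = Q + c • 1 := by
        rw [Matrix.conjTranspose_add, hQ.eq, Matrix.conjTranspose_smul, Matrix.conjTranspose_one]
        simp
      rw [h1] at h
      have h2 : (0 : ℂ) ≤ ((1/2 : ℝ) : ℂ) := by
        rw [Complex.zero_le_real]
        norm_num
      have h3 : (0 : ℂ) < ((-c : ℝ) : ℂ) := by
        rw [Complex.zero_lt_real]
        linarith
      have h4 := (Matrix.PosDef.one (n := k) (R := ℂ)).smul h3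
      have h5 := h4.add_posSemidef (h.smul h2)
      convert h5 using 1
      ext i j
      simp
      ring
    have hr : ∀ {k : Type} [Fintype k] (Q : Matrix k k ℂ) (r : ℝ), Q.IsHermitian →
        ((r : ℂ) • Q).IsHermitian := by
      intro k _ Q r hQ
      rw [Matrix.IsHermitian, Matrix.conjTranspose_smul, hQ.eq]
      simp
    refine key K a hK ⟨?_, ?_, ?_⟩
    · exact hgen _ (hK.add (hr _ _ h1.1)) p1
    · exact hgen _ (hK.neg.add (hr _ _ h2.1)) p2
    · exact hgen _ ((hH K hK).add (hr _ _ h3.1)) p3) (by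
    intro y
    have hgen : ∀ {k : Type} [Fintype k] [DecidableEq k] (Q : Matrix k k ℂ),
        ∃ c : ℝ, 0 ≤ c ∧ (Q + Qᴴ + (c : ℂ) • (1 : Matrix k k ℂ)).PosSemidef := by
      intro k _ _ Q
      exact exists_add_smul_psd _ (by
        rw [Matrix.IsHermitian, Matrix.conjTranspose_add, Matrix.conjTranspose_conjTranspose,
          add_comm])
    obtain ⟨c1, hc1, q1⟩ := hgen y.1
    obtain ⟨c2, hc2, q2⟩ := hgen y.2.1
    obtain ⟨c3, hc3, q3⟩ := hgen y.2.2
    refine ⟨⟨0 + (c1 + c2 + c3) • I, hmem_dom 0 (zero_mem _) _⟩, ?_⟩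
    have hgen2 : ∀ {k : Type} [Fintype k] [DecidableEq k] (Q : Matrix k k ℂ) (c C : ℝ),
        (Q + Qᴴ + (c : ℂ) • (1 : Matrix k k ℂ)).PosSemidef → c ≤ 2 * C →
        ((C • 1 + Q) + (C • 1 + Q)ᴴ).PosSemidef := by
      intro k _ _ Q c C hQ hc
      have h3 : (0 : ℂ) ≤ ((2 * C - c : ℝ) : ℂ) := by
        rw [Complex.zero_le_real]
        linarith
      have := hQ.add ((Matrix.PosDef.one (n := k) (R := ℂ)).posSemidef.smul h3)
      convert this using 1
      rw [Matrix.conjTranspose_add, Matrix.conjTranspose_smul, Matrix.conjTranspose_one]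
      ext i j
      simp
      ring
    rw [hs_mem]
    simp only [zero_add]
    refine ⟨?_, ?_, ?_⟩
    · exact hgen2 y.1 c1 _ q1 (by linarith)
    · exact hgen2 y.2.1 c2 _ q2 (by linarith)
    · exact hgen2 y.2.2 c3 _ q3 (by linarith))
  have hgD : ∀ P ∈ D, g P = 0 := by
    intro P hP
    have h := hmem_dom P hP 0
    have h4 := hg1 ⟨P + (0 : ℝ) • I, h⟩
    rw [hf_apply P hP 0 h] at h4
    simpa using h4
  have hgI : g I = 1 := by
    have h := hmem_dom 0 (zero_mem _) 1
    have h4 := hg1 ⟨0 + (1 : ℝ) • I, h⟩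
    rw [hf_apply 0 (zero_mem _) 1 h] at h4
    simpa using h4
  obtain ⟨X, hX, hXg⟩ := repr_herm (g.comp (LinearMap.inl ℝ (Matrix n n ℂ)
    (Matrix n n ℂ × Matrix p p ℂ)))
  obtain ⟨Y, hY, hYg⟩ := repr_herm (g.comp ((LinearMap.inr ℝ (Matrix n n ℂ)
    (Matrix n n ℂ × Matrix p p ℂ)).comp (LinearMap.inl ℝ (Matrix n n ℂ) (Matrix p p ℂ))))
  obtain ⟨Z, hZ, hZg⟩ := repr_herm (g.comp ((LinearMap.inr ℝ (Matrix n n ℂ)
    (Matrix n n ℂ × Matrix p p ℂ)).comp (LinearMap.inr ℝ (Matrix n n ℂ) (Matrix p p ℂ))))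
  have hsum : ∀ (P1 P2 : Matrix n n ℂ) (P3 : Matrix p p ℂ), P1.IsHermitian → P2.IsHermitian →
      P3.IsHermitian → g (P1, P2, P3) =
        (X * P1).trace.re + (Y * P2).trace.re + (Z * P3).trace.re := by
    intro P1 P2 P3 a1 a2 a3
    rw [← hXg P1 a1, ← hYg P2 a2, ← hZg P3 a3]
    simp only [LinearMap.comp_apply, LinearMap.inl_apply, LinearMap.inr_apply]
    rw [← map_add, ← map_add]
    congr 1
    simp
  have hXp : X.PosSemidef := by
    apply psd_of_test hX
    intro P hP
    rw [← hXg P hP.1]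
    exact hg2 _ (hherm_mem _ hP Matrix.PosSemidef.zero Matrix.PosSemidef.zero)
  have hYp : Y.PosSemidef := by
    apply psd_of_test hY
    intro P hP
    rw [← hYg P hP.1]
    exact hg2 _ (hherm_mem _ Matrix.PosSemidef.zero hP Matrix.PosSemidef.zero)
  have hZp : Z.PosSemidef := by
    apply psd_of_test hZ
    intro P hP
    rw [← hZg P hP.1]
    exact hg2 _ (hherm_mem _ Matrix.PosSemidef.zero Matrix.PosSemidef.zero hP)
  have hM : (X * M1).trace.re + (Y * M2).trace.re + (Z * M3).trace.re = 0 := by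
    rw [← hsum M1 M2 M3 h1.1 h2.1 h3.1]
    apply hgD
    rw [hD_mem]
    exact ⟨0, 1, Matrix.isHermitian_zero, by simp⟩
  obtain ⟨n1, e1⟩ := psd_mul_eq_zero h1 hXp
  obtain ⟨n2, e2⟩ := psd_mul_eq_zero h2 hYp
  obtain ⟨n3, e3⟩ := psd_mul_eq_zero h3 hZp
  -- the adjoint map preserves Hermitian matrices
  have hΓstar : ∀ K : Matrix n n ℂ, Γ Kᴴ = (Γ K)ᴴ := by
    intro K
    obtain ⟨A, B, hAh, hBh, rfl⟩ := exists_herm_decomp K
    have hKA' : (A + Complex.I • B)ᴴ = A - Complex.I • B := by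
      rw [Matrix.conjTranspose_add, Matrix.conjTranspose_smul, hAh.eq, hBh.eq]
      simp [sub_eq_add_neg]
    rw [hKA', map_sub, map_add, map_smul, Matrix.conjTranspose_add, Matrix.conjTranspose_smul,
      (hH A hAh).eq, (hH B hBh).eq]
    simp [sub_eq_add_neg]
  have hΓZ : (Γ' Z).IsHermitian := by
    rw [Matrix.IsHermitian]
    rw [Matrix.ext_iff_trace_mul_left]
    intro K
    have a1 : (K * (Γ' Z)ᴴ).trace = (starRingEnd ℂ) ((Kᴴ * Γ' Z).trace) := by
      have h := Matrix.trace_conjTranspose (Kᴴ * Γ' Z)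
      rw [Matrix.conjTranspose_mul, Matrix.conjTranspose_conjTranspose,
        Matrix.trace_mul_comm] at h
      rw [h]
      rfl
    rw [a1, ← hadj, hΓstar]
    have a2 := Matrix.trace_conjTranspose ((Γ K)ᴴ * Z)
    rw [Matrix.conjTranspose_mul, Matrix.conjTranspose_conjTranspose, hZ.eq,
      Matrix.trace_mul_comm] at a2
    rw [← hadj, a2]
    rfl
  refine ⟨X, Y, Z, hXp, hYp, hZp, ?_, e1 (by linarith), e2 (by linarith), e3 (by linarith), ?_⟩
  · rintro ⟨rfl, rfl, rfl⟩
    have h := hsum 1 1 1 Matrix.isHermitian_one Matrix.isHermitian_one Matrix.isHermitian_one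
    have h' : g (1, 1, 1) = 1 := hgI
    rw [h'] at h
    simp at h
  · set W : Matrix n n ℂ := X + Γ' Z - Y with hW
    have hWh : W.IsHermitian := (hX.add hΓZ).sub hY
    have hz : g (W, -W, Γ W) = 0 := by
      apply hgD
      rw [hD_mem]
      exact ⟨W, 0, hWh, by simp⟩
    rw [hsum _ _ _ hWh hWh.neg (hH W hWh)] at hz
    have a3 : (Z * Γ W).trace = (Γ' Z * W).trace := by
      rw [Matrix.trace_mul_comm, hadj, Matrix.trace_mul_comm]
    have a4 : (W * W).trace.re = 0 := by
      conv_lhs => rw [hW]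
      rw [← hW, Matrix.sub_mul, Matrix.add_mul, Matrix.trace_sub, Matrix.trace_add, ← a3]
      rw [Matrix.mul_neg, Matrix.trace_neg] at hz
      simp only [Complex.add_re, Complex.sub_re, Complex.neg_re] at hz ⊢
      linarith
    have a5 : 0 ≤ (Wᴴ * W).trace := (Matrix.posSemidef_conjTranspose_mul_self _).trace_nonneg
    rw [hWh.eq, Complex.nonneg_iff] at a5
    have a6 : (Wᴴ * W).trace = 0 := by
      rw [hWh.eq]
      exact Complex.ext a4 a5.2.symm
    rw [Matrix.trace_conjTranspose_mul_self_eq_zero_iff] at a6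
    rw [hW] at a6
    exact sub_eq_zero.1 a6

end Crest.Agent.R132
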