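import Crest.Agent.R132.Transfer
import Crest.Agent.R132.Sep

/-!
# Piece FEAS : a feasible pair exists

`star_bound`: `star e A g v` is an average of `RA(t) g v(G t)`, all continuous on the circle, `opn (v (G t)) ≤ 1`,
`frob (RA g v) ≤ opn (RA)² frob g`; so `C = sup opn(RA t)²`-type constant works (entrywise estimates with any constant are fine).
`feas_exists`: take `τ = max 1 (C+1)`, `slack T τ` gives `H, s`.  If `s = 0` done.  Otherwise `sep` with `M1 = H - 1`,
`M2 = τ - H`, `M3 = Gam T H + s` gives `X, Y, Z`, `transfer` gives `X' = star Y' v`, so `tr X = frob X' ≤ C frob Y' = C tr Y`.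
Trace of `H * (X - Y + GamA T Z) = 0`: `tr X - τ tr Y + tr (Gam T H * Z) = 0` and `Gam T H * Z = - s Z`:
`tr X = τ tr Y + s tr Z`.  So `(τ - C) tr Y + s tr Z ≤ 0`, all traces vanish, `X = Y = Z = 0`, contradiction.
-/

set_option autoImplicit false
open Matrix
open scoped ComplexOrder Kronecker

namespace Crest.Agent.R132

variable {n m : Type} [Fintype n] [DecidableEq n] [Fintype m] [DecidableEq m]
  {e : Ext} {A : Matrix n n ℂ} {V : Set ℂ}

omit [DecidableEq n] in
theorem FEASaux.frob_mul_le (X Y : Matrix n n ℂ) : frob (X * Y) ≤ frob X * frob Y := by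
  have h1 : ∀ i j, ‖(X * Y) i j‖ ^ 2 ≤ (∑ k, ‖X i k‖ ^ 2) * ∑ k, ‖Y k j‖ ^ 2 := by
    intro i j
    have h2 : ‖(X * Y) i j‖ ≤ ∑ k, ‖X i k‖ * ‖Y k j‖ := by
      rw [Matrix.mul_apply]
      refine (norm_sum_le _ _).trans (le_of_eq ?_)
      exact Finset.sum_congr rfl fun k _ => norm_mul _ _
    calc ‖(X * Y) i j‖ ^ 2 ≤ (∑ k, ‖X i k‖ * ‖Y k j‖) ^ 2 :=
          pow_le_pow_left₀ (norm_nonneg _) h2 2
      _ ≤ _ := Finset.sum_mul_sq_le_sq_mul_sq _ _ _
  unfold frob
  calc ∑ i, ∑ j, ‖(X * Y) i j‖ ^ 2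
      ≤ ∑ i, ∑ j, (∑ k, ‖X i k‖ ^ 2) * ∑ k, ‖Y k j‖ ^ 2 :=
        Finset.sum_le_sum fun i _ => Finset.sum_le_sum fun j _ => h1 i j
    _ = (∑ i, ∑ k, ‖X i k‖ ^ 2) * ∑ j, ∑ k, ‖Y k j‖ ^ 2 := by
        rw [Finset.sum_mul]
        exact Finset.sum_congr rfl fun i _ => by rw [Finset.mul_sum]
    _ = _ := by rw [Finset.sum_comm (f := fun j k => ‖Y k j‖ ^ 2)]

theorem star_bound (hs : Sit e A V) : ∃ C : ℝ, 0 ≤ C ∧ ∀ (g : Matrix n n ℂ) (v : ℂ → Matrix n n ℂ),
    HolOn V v → (∀ z ∈ V, opn (v z) ≤ 1) → frob (star e A g v) ≤ C * frob g := by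
  have hRA : ∀ i j, ContinuousOn (fun t => RA e A t i j) (Metric.sphere 0 1) :=
    fun i j => RA_continuousOn hs i j
  have hfrobRA : ContinuousOn (fun t => frob (RA e A t)) (Metric.sphere 0 1) := by
    unfold frob
    exact continuousOn_finsetSum _ fun i _ => continuousOn_finsetSum _ fun j _ =>
      ((hRA i j).norm).pow 2
  refine ⟨avR (fun t => frob (RA e A t)), avR_nonneg fun t _ => frob_nonneg _, ?_⟩
  intro g v hv hv1
  have hvc : ∀ i j, ContinuousOn (fun t => v (e.G t) i j) (Metric.sphere 0 1) :=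
    fun i j => hv.continuousOn_G hs i j
  have hent : ∀ i j, ContinuousOn (fun t => (RA e A t * g * v (e.G t)) i j) (Metric.sphere 0 1) := by
    intro i j
    simp only [Matrix.mul_apply]
    exact continuousOn_finsetSum _ fun k _ =>
      (continuousOn_finsetSum _ fun l _ => (hRA i l).mul continuousOn_const).mul (hvc k j)
  have h1 : ∀ i j, ‖(star e A g v) i j‖ ^ 2 ≤
      avR (fun t => ‖(RA e A t * g * v (e.G t)) i j‖ ^ 2) := by
    intro i j
    have h2 := norm_av_mul_sq_le (φ := fun _ => 1) (ψ := fun t => (RA e A t * g * v (e.G t)) i j)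
      continuousOn_const (hent i j)
    simp only [one_mul, norm_one, one_pow] at h2
    have h3 : avR (fun _ => (1 : ℝ)) = 1 := by
      exact Real.circleAverage_const 1 0 1
    rw [h3, one_mul] at h2
    exact h2
  have hcont : ∀ i j, ContinuousOn (fun t => ‖(RA e A t * g * v (e.G t)) i j‖ ^ 2)
      (Metric.sphere 0 1) := fun i j => ((hent i j).norm).pow 2
  calc frob (star e A g v) ≤ ∑ i, ∑ j, avR (fun t => ‖(RA e A t * g * v (e.G t)) i j‖ ^ 2) :=
        Finset.sum_le_sum fun i _ => Finset.sum_le_sum fun j _ => h1 i j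
    _ = avR (fun t => frob (RA e A t * g * v (e.G t))) := by
        unfold frob
        rw [avR_sum _ _ fun i _ => continuousOn_finsetSum _ fun j _ => hcont i j]
        exact Finset.sum_congr rfl fun i _ => (avR_sum _ _ fun j _ => hcont i j).symm
    _ ≤ avR (fun t => frob g * frob (RA e A t)) := by
        refine avR_mono ?_ (continuousOn_const.mul hfrobRA) ?_
        · unfold frob
          exact continuousOn_finsetSum _ fun i _ => continuousOn_finsetSum _ fun j _ => hcont i j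
        · intro t ht
          have hV := hv1 _ (hs.curve t ht)
          calc frob (RA e A t * g * v (e.G t)) ≤ opn (v (e.G t)) ^ 2 * frob (RA e A t * g) :=
                frob_mul_right_le _ _
            _ ≤ 1 * frob (RA e A t * g) := by
                refine mul_le_mul_of_nonneg_right ?_ (frob_nonneg _)
                exact pow_le_one₀ (norm_nonneg _) hV
            _ = frob (RA e A t * g) := one_mul _
            _ ≤ frob (RA e A t) * frob g := FEASaux.frob_mul_le _ _
            _ = _ := mul_comm _ _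
    _ = _ := by rw [avR_const_mul, mul_comm]

theorem feas_exists (hs : Sit e A V) (h : ℂ → Matrix m m ℂ) (hh : HolOn V h)
    (hlt : ∀ z ∈ V, opn (h z) < 1) (T : Matrix (n × m) (n × m) ℂ) (hval : IsVal e A h T) :
    ∃ (H : Matrix n n ℂ) (τ : ℝ), TFeas T H τ := by
  obtain ⟨C, hC0, hC⟩ := star_bound hs
  obtain ⟨H, s, hs0, h1, h2, h3, h4⟩ := slack T (C + 1) (by linarith)
  rcases h4 with h4 | h4
  · refine ⟨H, C + 1, h1, h2, ?_⟩
    simpa [h4] using h3
  exfalso
  obtain ⟨X, Y, Z, hX, hY, hZ, hne, hMX, hMY, hMZ, hrel⟩ :=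
    sep (H - 1) (((C + 1 : ℝ) : ℂ) • (1 : Matrix n n ℂ) - H)
      (Gam T H + (s : ℂ) • (1 : Matrix (n × m) (n × m) ℂ)) h1 h2 h3 (GamL T) (GamA T)
      (fun K Z => GamL_adj T K Z) (fun K hK => GamL_herm T K hK) h4
  obtain ⟨X', Y', v, hX', hY', hv, hv1, hstar, hYZ, -⟩ :=
    transfer hs h hh hlt T hval X Y Z hX hY hZ hrel
  -- traces
  have tX : X.trace = ((frob X' : ℝ) : ℂ) := by rw [frob_eq_trace, hX']
  have tY : Y.trace = ((frob Y' : ℝ) : ℂ) := by rw [frob_eq_trace, hY']
  have hbd : frob X' ≤ C * frob Y' := by rw [hstar]; exact hC Y' v hv hv1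
  have hHX : H * X = X := by
    rw [sub_mul, one_mul, sub_eq_zero] at hMX; exact hMX
  have hHY : H * Y = ((C + 1 : ℝ) : ℂ) • Y := by
    rw [sub_mul, smul_mul_assoc, one_mul, sub_eq_zero] at hMY; exact hMY.symm
  have hHZ : Gam T H * Z = -((s : ℂ) • Z) := by
    rw [add_mul, smul_mul_assoc, one_mul] at hMZ
    exact eq_neg_of_add_eq_zero_left hMZ
  have htr : X.trace + (-((s : ℂ) * Z.trace)) = ((C + 1 : ℝ) : ℂ) * Y.trace := by
    have e1 : (H * (X + GamA T Z)).trace = (H * Y).trace := by rw [hrel]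
    rw [mul_add, Matrix.trace_add, hHX, hHY, Matrix.trace_smul, smul_eq_mul, ← GamL_adj] at e1
    have e2 : GamL T H = Gam T H := rfl
    rw [e2, hHZ, Matrix.trace_neg, Matrix.trace_smul, smul_eq_mul] at e1
    exact e1
  have tZ : 0 ≤ Z.trace.re := (Complex.le_def.1 hZ.trace_nonneg).1
  have hre : frob X' - s * Z.trace.re = (C + 1) * frob Y' := by
    have := congrArg Complex.re htr
    rw [tX, tY] at this
    simp only [Complex.add_re, Complex.neg_re, Complex.mul_re, Complex.ofReal_re,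
      Complex.ofReal_im, zero_mul, sub_zero, mul_zero] at this
    linarith
  have hsZ : 0 ≤ s * Z.trace.re := mul_nonneg hs0 tZ
  have hY0 : frob Y' = 0 := by
    have := frob_nonneg Y'
    nlinarith
  have hY'0 : Y' = 0 := (frob_eq_zero Y').1 hY0
  have hZ0 := hYZ hY'0
  have hX'0 : X' = 0 := by rw [hstar, hY'0, star_zero_left]
  refine hne ⟨?_, ?_, hZ0⟩
  · rw [← hX', hX'0, Matrix.zero_mul]
  · rw [← hY', hY'0, Matrix.zero_mul]

end Crest.Agent.R132
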