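import Crest.Agent.R132.OptAAux

/-!
# Row 132, piece S180A: strict feasibility and spectral mapping (helper81)
-/

set_option autoImplicit false
open Matrix
open scoped ComplexOrder Kronecker
open Crest.AnalysisR.NumRange

namespace Crest.Agent.R132

namespace S180A

section

variable {n : Type} [Fintype n] [DecidableEq n]

/-- a Hermitian matrix is `< τ • 1` for large `τ` -/
theorem exists_smul_one_sub {M : Matrix n n ℂ} (hH : M.IsHermitian) :
    ∃ τ : ℝ, ((τ : ℂ) • (1 : Matrix n n ℂ) - M).PosDef := by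
  obtain ⟨τ, hτ⟩ : ∃ τ : ℝ, ∀ i, hH.eigenvalues i < τ := by
    rcases isEmpty_or_nonempty n with h | h
    · exact ⟨1, fun i => h.elim i⟩
    · obtain ⟨i, hi⟩ := Finite.exists_max hH.eigenvalues
      exact ⟨hH.eigenvalues i + 1, fun j => by linarith [hi j]⟩
  refine ⟨τ, ?_⟩
  have h1 : (τ : ℂ) • (1 : Matrix n n ℂ) - M =
      Unitary.conjStarAlgAut ℂ _ hH.eigenvectorUnitary
        ((τ : ℂ) • 1 - diagonal (RCLike.ofReal ∘ hH.eigenvalues)) := by
    rw [map_sub, map_smul, map_one]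
    congr 1
    exact hH.spectral_theorem
  rw [h1, Unitary.conjStarAlgAut_apply,
    Unitary.isUnit_coe.posDef_star_right_conjugate_iff]
  have h2 : (τ : ℂ) • (1 : Matrix n n ℂ) - diagonal (RCLike.ofReal ∘ hH.eigenvalues) =
      diagonal (fun i => ((τ - hH.eigenvalues i : ℝ) : ℂ)) := by
    ext i j
    by_cases hij : i = j
    · subst hij; simp
    · simp [hij]
  rw [h2, Matrix.posDef_diagonal_iff]
  intro i
  have : (0:ℝ) < τ - hH.eigenvalues i := by linarith [hτ i]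
  exact_mod_cast this

open scoped Matrix.Norms.L2Operator in
/-- a matrix of operator norm `< 1` : `1 - Sᴴ S` is positive definite -/
theorem posDef_one_sub {S : Matrix n n ℂ} (hS : ‖S‖ < 1) : (1 - Sᴴ * S).PosDef := by
  apply Matrix.PosDef.of_dotProduct_mulVec_pos
  · exact Matrix.isHermitian_one.sub (Matrix.isHermitian_conjTranspose_mul_self S)
  · intro x hx
    set y : EuclideanSpace ℂ n := WithLp.toLp 2 x with hy
    have hxy : x = y.ofLp := rfl
    have h1 : Star.star x ⬝ᵥ ((1 - Sᴴ * S) *ᵥ x) =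
        ((‖y‖ ^ 2 - ‖(WithLp.toLp 2 (S *ᵥ x) : EuclideanSpace ℂ n)‖ ^ 2 : ℝ) : ℂ) := by
      rw [Matrix.sub_mulVec, Matrix.one_mulVec, dotProduct_sub, ← Matrix.mulVec_mulVec,
        Matrix.dotProduct_mulVec, ← Matrix.star_mulVec]
      have e1 : ∀ v : n → ℂ, Star.star v ⬝ᵥ v = ((‖(WithLp.toLp 2 v : EuclideanSpace ℂ n)‖ ^ 2 : ℝ) : ℂ) := by
        intro v
        rw [EuclideanSpace.norm_sq_eq]
        simp only [dotProduct, Pi.star_apply]
        push_cast
        apply Finset.sum_congr rfl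
        intro i _
        rw [← Complex.conj_mul']
        rfl
      rw [e1 x, e1 (S *ᵥ x), hy]
      push_cast
      ring
    rw [h1]
    have h2 := Matrix.l2_opNorm_mulVec S y
    have hy0 : y ≠ 0 := by
      intro h
      apply hx
      rw [hxy, h]
      rfl
    have h3 : 0 < ‖y‖ := norm_pos_iff.mpr hy0
    have h4 : ‖(WithLp.toLp 2 (S *ᵥ x) : EuclideanSpace ℂ n)‖ < ‖y‖ := by
      refine lt_of_le_of_lt h2 ?_
      nlinarith
    have h5 : (0:ℝ) < ‖y‖ ^ 2 - ‖(WithLp.toLp 2 (S *ᵥ x) : EuclideanSpace ℂ n)‖ ^ 2 := by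
      have := norm_nonneg (WithLp.toLp 2 (S *ᵥ x) : EuclideanSpace ℂ n)
      nlinarith
    exact_mod_cast h5

open scoped Matrix.Norms.L2Operator in
/-- Gelfand formula -/
theorem exists_pow_lt (T : Matrix n n ℂ) (hT : ∀ μ ∈ spectrum ℂ T, ‖μ‖ < 1) :
    ∃ k : ℕ, ‖T ^ (k + 1)‖ < 1 := by
  rcases isEmpty_or_nonempty n with h | h
  · refine ⟨0, ?_⟩
    have : T ^ (0 + 1) = 0 := Subsingleton.elim _ _
    rw [this, norm_zero]
    exact one_pos
  · have h1 : spectralRadius ℂ T < (1 : NNReal) := by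
      apply spectrum.spectralRadius_lt_of_forall_lt
      intro z hz
      exact_mod_cast hT z hz
    have h2 := spectrum.pow_nnnorm_pow_one_div_tendsto_nhds_spectralRadius T
    have h3 := h2.eventually (gt_mem_nhds h1)
    obtain ⟨N, hN⟩ := Filter.eventually_atTop.mp h3
    refine ⟨N, ?_⟩
    have h4 := hN (N + 1) (Nat.le_succ N)
    by_contra h5
    rw [not_lt] at h5
    have h6 : (1 : ENNReal) ≤ (‖T ^ (N + 1)‖₊ : ENNReal) := by
      exact_mod_cast h5
    have h7 : (1 : ENNReal) ≤ (‖T ^ (N + 1)‖₊ : ENNReal) ^ (1 / ((N + 1 : ℕ) : ℝ)) :=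
      ENNReal.one_le_rpow h6 (by positivity)
    exact absurd h4 (not_lt.mpr (by simpa using h7))

end

theorem strict_feasible {n : ℕ} (T : Matrix (Fin n) (Fin n) ℂ)
    (hT : ∀ μ ∈ spectrum ℂ T, ‖μ‖ < 1) :
    ∃ (H : Matrix (Fin n) (Fin n) ℂ) (τ : ℝ), MetricStrictlyFeasible T H τ := by
  obtain ⟨k, hk⟩ := exists_pow_lt T hT
  set a : ℕ → Matrix (Fin n) (Fin n) ℂ := fun j => (T ^ j)ᴴ * T ^ j with ha
  have hapsd : ∀ j, (a j).PosSemidef := fun j => Matrix.posSemidef_conjTranspose_mul_self _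
  have hsum : ∀ s : Finset ℕ, ∀ f : ℕ → ℕ, (∑ j ∈ s, a (f j)).PosSemidef := by
    intro s f
    exact Matrix.posSemidef_sum s (fun j _ => hapsd (f j))
  set H : Matrix (Fin n) (Fin n) ℂ := ∑ j ∈ Finset.range (k + 1), a j +
    ∑ j ∈ Finset.range (k + 1), a j with hH
  have hHpsd : H.PosSemidef := (hsum _ id).add (hsum _ id)
  obtain ⟨τ, hτ⟩ := exists_smul_one_sub hHpsd.isHermitian
  refine ⟨H, τ, ?_, hτ, ?_⟩
  · have h0 : a 0 = 1 := by simp [ha]
    have h1 : H - 1 = 1 + (∑ j ∈ Finset.range k, a (j + 1) + ∑ j ∈ Finset.range k, a (j + 1)) := by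
      rw [hH, Finset.sum_range_succ' a k, h0]
      abel
    rw [h1]
    exact Matrix.PosDef.one.add_posSemidef
      ((hsum _ (fun j => j + 1)).add (hsum _ (fun j => j + 1)))
  · have h1 : ∀ j, Tᴴ * a j * T = a (j + 1) := by
      intro j
      simp only [ha]
      rw [pow_succ, Matrix.conjTranspose_mul]
      simp only [Matrix.mul_assoc]
    have h2 : Tᴴ * (∑ j ∈ Finset.range (k + 1), a j) * T =
        ∑ j ∈ Finset.range (k + 1), a (j + 1) := by
      rw [Finset.mul_sum, Finset.sum_mul]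
      exact Finset.sum_congr rfl (fun j _ => h1 j)
    have h3 : (∑ j ∈ Finset.range (k + 1), a j) - ∑ j ∈ Finset.range (k + 1), a (j + 1) =
        1 - (T ^ (k + 1))ᴴ * T ^ (k + 1) := by
      rw [Finset.sum_range_succ' a k, Finset.sum_range_succ (fun j => a (j + 1)) k]
      have h0 : a 0 = 1 := by simp [ha]
      rw [h0]
      simp only [ha]
      abel
    have h4 : H - Tᴴ * H * T = (1 - (T ^ (k + 1))ᴴ * T ^ (k + 1)) +
        (1 - (T ^ (k + 1))ᴴ * T ^ (k + 1)) := by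
      rw [hH, Matrix.mul_add, Matrix.add_mul, h2, ← h3]
      abel
    rw [h4]
    exact (posDef_one_sub hk).add (posDef_one_sub hk)

/-- eigenvalues are in the numerical range -/
theorem spectrum_subset_numRange {n : ℕ} (A : Matrix (Fin n) (Fin n) ℂ) :
    spectrum ℂ A ⊆ numRange A := by
  intro μ hμ
  rw [← Matrix.spectrum_toLpLin 2] at hμ
  have h1 := Module.End.hasEigenvalue_iff_mem_spectrum.mpr hμ
  obtain ⟨v, hv⟩ := h1.exists_hasEigenvector
  have hv0 : ‖v‖ ≠ 0 := norm_ne_zero_iff.mpr hv.2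
  have hv1 : Matrix.toEuclideanLin A v = μ • v := hv.apply_eq_smul
  refine ⟨((‖v‖⁻¹ : ℝ) : ℂ) • v, ?_, ?_⟩
  · rw [norm_smul, Complex.norm_real, norm_inv, norm_norm, inv_mul_cancel₀ hv0]
  · rw [map_smul, hv1, inner_smul_left, inner_smul_right, inner_smul_right,
      inner_self_eq_norm_sq_to_K]
    simp only [Complex.conj_ofReal]
    have : ((‖v‖⁻¹ : ℝ) : ℂ) * (‖v‖ : ℂ) = 1 := by
      rw [← Complex.ofReal_mul, inv_mul_cancel₀ hv0, Complex.ofReal_one]
    calc μ = μ * (((‖v‖⁻¹ : ℝ) : ℂ) * (‖v‖ : ℂ)) * (((‖v‖⁻¹ : ℝ) : ℂ) * (‖v‖ : ℂ)) := by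
          rw [this]; ring
      _ = _ := by
          simp only [Complex.coe_algebraMap]
          ring

theorem spectrum_aeval_lt {n : ℕ} (A : Matrix (Fin n) (Fin n) ℂ) (Ω : Set ℂ) (f : ℂ → ℂ)
    (hf : f '' Ω = Metric.ball 0 1) (hA : numRange A ⊆ Ω) (p : Polynomial ℂ)
    (hp : AgreesOnSpectrum A f p) :
    ∀ μ ∈ spectrum ℂ (Polynomial.aeval A p), ‖μ‖ < 1 := by
  intro μ hμ
  rcases Nat.eq_zero_or_pos n with hn | hn
  · subst hn
    exfalso
    rw [spectrum.mem_iff] at hμ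
    exact hμ (isUnit_of_subsingleton _)
  · have : Nonempty (Fin n) := ⟨⟨0, hn⟩⟩
    have hne : (spectrum ℂ A).Nonempty := spectrum.nonempty_of_isAlgClosed_of_finiteDimensional ℂ A
    rw [spectrum.map_polynomial_aeval_of_nonempty A p hne] at hμ
    obtain ⟨l, hl, rfl⟩ := hμ
    have h1 := hp l hl 0 hn
    simp only [iteratedDeriv_zero] at h1
    simp only
    rw [h1]
    have h2 : f l ∈ f '' Ω := ⟨l, hA (spectrum_subset_numRange A hl), rfl⟩
    rw [hf, mem_ball_zero_iff] at h2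
    exact h2

end S180A

end Crest.Agent.R132
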