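import Crest.Agent.R132.Defs

/-!
# Piece NRANGE : the numerical range is compact, convex (Toeplitz-Hausdorff), nonempty

Compact: continuous image of the unit sphere of `EuclideanSpace ℂ n`.
Convex (Toeplitz-Hausdorff): given unit vectors `x, y` with values `α ≠ β` and `t ∈ [0,1]`: after `A ↦ (A - α)/(β - α)` we may assume
values `0` and `1`; `x, y` are linearly independent; replace `x` by `ω x` (`|ω| = 1`) such that `⟨x, A y⟩ + ⟨y, A x⟩` is real;
then `s ↦ ⟨z_s, A z_s⟩ / ‖z_s‖²`, `z_s = (1-s) x + s y`, is real valued and continuous from `0` to `1`: intermediate value theorem.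
-/

set_option autoImplicit false
open Matrix

namespace Crest.Agent.R132

namespace NRaux

variable {E : Type} [NormedAddCommGroup E] [InnerProductSpace ℂ E]

theorem key (S : E →ₗ[ℂ] E) (x y : E) (hx : ‖x‖ = 1) (hy : ‖y‖ = 1)
    (h0 : inner ℂ x (S x) = 0) (h1 : inner ℂ y (S y) = 1) (b : ℝ) (hb0 : 0 ≤ b) (hb1 : b ≤ 1) :
    ∃ w : E, ‖w‖ = 1 ∧ inner ℂ w (S w) = (b : ℂ) := by
  set p : ℂ := inner ℂ x (S y) with hp
  set q : ℂ := inner ℂ y (S x) with hq
  set d : ℂ := q - (starRingEnd ℂ) p with hd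
  obtain ⟨ω, hω, hωd⟩ : ∃ ω : ℂ, ‖ω‖ = 1 ∧ (ω * d).im = 0 := by
    by_cases hd0 : d = 0
    · exact ⟨1, by simp, by simp [hd0]⟩
    · refine ⟨(starRingEnd ℂ) d / ‖d‖, ?_, ?_⟩
      · rw [norm_div, RCLike.norm_conj, Complex.norm_real, norm_norm,
          div_self (norm_ne_zero_iff.2 hd0)]
      · rw [div_mul_eq_mul_div, mul_comm, Complex.mul_conj, Complex.normSq_eq_norm_sq,
          ← Complex.ofReal_div]
        exact Complex.ofReal_im _
  set x' : E := ω • x with hx'
  have hx'n : ‖x'‖ = 1 := by rw [hx', norm_smul, hω, hx, one_mul]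
  have hωc : (starRingEnd ℂ) ω * ω = 1 := by
    rw [mul_comm, Complex.mul_conj, Complex.normSq_eq_norm_sq, hω]; simp
  have h0' : inner ℂ x' (S x') = 0 := by
    rw [hx', map_smul, inner_smul_left, inner_smul_right, h0]; simp
  set r : ℂ := inner ℂ x' (S y) + inner ℂ y (S x') with hr
  have hrim : r.im = 0 := by
    have e1 : r = (starRingEnd ℂ) ω * p + ω * q := by
      rw [hr, hx', map_smul, inner_smul_left, inner_smul_right]
    have e2 : ((starRingEnd ℂ) ω * p).im = -(ω * (starRingEnd ℂ) p).im := by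
      have : ((starRingEnd ℂ) ω * p) = (starRingEnd ℂ) (ω * (starRingEnd ℂ) p) := by simp
      rw [this, Complex.conj_im]
    rw [e1, Complex.add_im, e2]
    have e3 : (ω * d).im = (ω * q).im - (ω * (starRingEnd ℂ) p).im := by
      rw [hd, mul_sub, Complex.sub_im]
    rw [e3] at hωd
    linarith
  set z : ℝ → E := fun s => ((1 - s : ℝ) : ℂ) • x' + ((s : ℝ) : ℂ) • y with hz
  have hzne : ∀ s, z s ≠ 0 := by
    intro s hs
    have e1 : ((s : ℝ) : ℂ) • y = -(((1 - s : ℝ) : ℂ) • x') := by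
      rw [eq_neg_iff_add_eq_zero, add_comm]; exact hs
    have e2 : |s| = |1 - s| := by
      have := congrArg norm e1
      rw [norm_neg, norm_smul, norm_smul, hy, hx'n, mul_one, mul_one, Complex.norm_real,
        Complex.norm_real, Real.norm_eq_abs, Real.norm_eq_abs] at this
      exact this
    have e3 : s = 1 / 2 := by
      rcases abs_eq_abs.1 e2 with h | h <;> linarith
    rw [e3] at e1
    have e4 : y = -x' := by
      have e5 : (((1 / 2 : ℝ)) : ℂ) ≠ 0 := by norm_num
      have e6 : ((1 - 1 / 2 : ℝ) : ℂ) = ((1 / 2 : ℝ) : ℂ) := by norm_num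
      rw [e6, ← smul_neg] at e1
      exact smul_right_injective E e5 e1
    rw [e4, map_neg, inner_neg_neg, h0'] at h1
    exact zero_ne_one h1
  have hzi : ∀ s : ℝ, inner ℂ (z s) (S (z s)) = (s ^ 2 : ℝ) + ((s * (1 - s) : ℝ) : ℂ) * r := by
    intro s
    simp only [hz, map_add, map_smul, inner_add_left, inner_add_right, inner_smul_left,
      inner_smul_right, h0', h1, hr, Complex.conj_ofReal]
    push_cast
    ring
  set f : ℝ → ℝ := fun s => (inner ℂ (z s) (S (z s))).re / ‖z s‖ ^ 2 with hf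
  have hzc : Continuous z := by
    rw [hz]
    fun_prop
  have hfc : Continuous f := by
    rw [hf]
    refine Continuous.div ?_ (by fun_prop) (fun s => by
      have := norm_ne_zero_iff.2 (hzne s); positivity)
    have : (fun s => (inner ℂ (z s) (S (z s))).re) =
        fun s : ℝ => (((s ^ 2 : ℝ) : ℂ) + ((s * (1 - s) : ℝ) : ℂ) * r).re := by
      funext s; rw [hzi]
    rw [this]
    fun_prop
  have hf0 : f 0 = 0 := by
    simp only [hf]; rw [hzi]; simp
  have hf1 : f 1 = 1 := by
    simp only [hf]; rw [hzi]; simp [hz, hy]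
  obtain ⟨s, _, hs⟩ : ∃ s ∈ Set.Icc (0 : ℝ) 1, f s = b := by
    have := intermediate_value_Icc (zero_le_one) hfc.continuousOn
    exact this ⟨by rw [hf0]; exact hb0, by rw [hf1]; exact hb1⟩
  have hn : (‖z s‖ : ℝ) ≠ 0 := norm_ne_zero_iff.2 (hzne s)
  refine ⟨((‖z s‖⁻¹ : ℝ) : ℂ) • z s, ?_, ?_⟩
  · rw [norm_smul, Complex.norm_real, Real.norm_eq_abs, abs_of_nonneg (by positivity)]
    exact inv_mul_cancel₀ hn
  · rw [map_smul, inner_smul_left, inner_smul_right, Complex.conj_ofReal]
    have him : (inner ℂ (z s) (S (z s))).im = 0 := by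
      rw [hzi, Complex.add_im, Complex.ofReal_im, Complex.im_ofReal_mul, hrim]; simp
    have hre : inner ℂ (z s) (S (z s)) = (((inner ℂ (z s) (S (z s))).re : ℝ) : ℂ) := by
      apply Complex.ext <;> simp [him]
    rw [hre, ← Complex.ofReal_mul, ← Complex.ofReal_mul]
    congr 1
    rw [← hs, hf]
    field_simp

theorem convex_range (T : E →ₗ[ℂ] E) :
    Convex ℝ {z : ℂ | ∃ x : E, ‖x‖ = 1 ∧ z = inner ℂ x (T x)} := by
  rintro _ ⟨x, hx, rfl⟩ _ ⟨y, hy, rfl⟩ a b ha hb hab
  set α : ℂ := inner ℂ x (T x) with hα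
  set β : ℂ := inner ℂ y (T y) with hβ
  by_cases hαβ : α = β
  · refine ⟨x, hx, ?_⟩
    rw [← hαβ, ← add_smul, hab, one_smul]
  · have hne : β - α ≠ 0 := sub_ne_zero.2 (Ne.symm hαβ)
    set S : E →ₗ[ℂ] E := (β - α)⁻¹ • (T - α • LinearMap.id) with hS
    have hSv : ∀ v : E, ‖v‖ = 1 → inner ℂ v (S v) = (β - α)⁻¹ * (inner ℂ v (T v) - α) := by
      intro v hv
      simp only [hS, LinearMap.smul_apply, LinearMap.sub_apply, LinearMap.id_apply,
        inner_smul_right, inner_sub_right]
      rw [inner_self_eq_norm_sq_to_K, hv]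
      simp
    obtain ⟨w, hw, hwS⟩ := key S x y hx hy (by rw [hSv x hx, ← hα]; simp)
      (by rw [hSv y hy, ← hβ]; exact inv_mul_cancel₀ hne) b hb (by linarith)
    refine ⟨w, hw, ?_⟩
    rw [hSv w hw] at hwS
    have : inner ℂ w (T w) = (β - α) * b + α := by
      rw [← hwS]; field_simp; ring
    rw [this]
    have ha' : (a : ℂ) = 1 - b := by
      rw [← Complex.ofReal_one, ← Complex.ofReal_sub]; congr 1; linarith
    simp only [Complex.real_smul]
    rw [ha']
    ring

end NRaux

variable {n : Type} [Fintype n] [DecidableEq n]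

theorem nrange_convex (A : Matrix n n ℂ) : Convex ℝ (nrange A) :=
  NRaux.convex_range (Matrix.toEuclideanLin A)

theorem nrange_compact (A : Matrix n n ℂ) : IsCompact (nrange A) := by
  have h1 : IsCompact (Metric.sphere (0 : EuclideanSpace ℂ n) 1) := isCompact_sphere _ _
  have h2 : Continuous fun x : EuclideanSpace ℂ n => inner ℂ x (Matrix.toEuclideanLin A x) := by
    have : Continuous fun x : EuclideanSpace ℂ n => Matrix.toEuclideanLin A x :=
      LinearMap.continuous_of_finiteDimensional _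
    exact continuous_id.inner this
  have h3 : nrange A = (fun x : EuclideanSpace ℂ n => inner ℂ x (Matrix.toEuclideanLin A x)) ''
      Metric.sphere (0 : EuclideanSpace ℂ n) 1 := by
    ext z
    simp only [nrange, Set.mem_ofPred_eq, Set.mem_image, mem_sphere_iff_norm, sub_zero]
    constructor
    · rintro ⟨x, hx, rfl⟩; exact ⟨x, hx, rfl⟩
    · rintro ⟨x, hx, rfl⟩; exact ⟨x, hx, rfl⟩
  rw [h3]
  exact h1.image h2

theorem nrange_nonempty [Nonempty n] (A : Matrix n n ℂ) : (nrange A).Nonempty := by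
  obtain ⟨i⟩ := ‹Nonempty n›
  refine ⟨_, EuclideanSpace.single i (1 : ℂ), ?_, rfl⟩
  simp

end Crest.Agent.R132
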