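import Crest.Agent.R132.Star1
import Crest.Agent.R132.Frob

/-!
# Piece VALPOLY : polynomial matrix functions satisfy `IsVal`

`h z = ∑_j z^j • B_j + χ_A(z) • k z`, `T = ∑_j A^j ⊗ₖ B_j`.  Entrywise: `rsh ((A^j ⊗ₖ B_j) * Z) = A^j * rsh Z * htil B_j`;
`htil` is linear; `star_poly` (`p = X^j`), `star_charpoly`, `star_add`, `star_congr` (the formula for `h` holds on `V`).
-/

set_option autoImplicit false
open Matrix
open scoped Kronecker

namespace Crest.Agent.R132

variable {n m : Type} [Fintype n] [DecidableEq n] [Fintype m] [DecidableEq m]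
  {e : Ext} {A : Matrix n n ℂ} {V : Set ℂ}

theorem vp_htil_add {K : Type} [DecidableEq K] (h1 h2 : Matrix m m ℂ) :
    htil (K := K) (h1 + h2) = htil (K := K) h1 + htil (K := K) h2 := by
  ext p q
  simp only [htil, Matrix.of_apply, Matrix.add_apply]
  split_ifs <;> simp

theorem vp_htil_smul {K : Type} [DecidableEq K] (c : ℂ) (h : Matrix m m ℂ) :
    htil (K := K) (c • h) = c • htil (K := K) h := by
  ext p q
  simp only [htil, Matrix.of_apply, Matrix.smul_apply]
  split_ifs <;> simp

theorem vp_htil_sum {K : Type} [DecidableEq K] (s : Finset ℕ) (h : ℕ → Matrix m m ℂ) :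
    htil (K := K) (∑ j ∈ s, h j) = ∑ j ∈ s, htil (K := K) (h j) := by
  classical
  induction s using Finset.induction_on with
  | empty => ext p q; simp [htil]
  | insert a s ha ih => rw [Finset.sum_insert ha, Finset.sum_insert ha, vp_htil_add, ih]

theorem vp_rsh_sum {K : Type} (s : Finset ℕ) (Z : ℕ → Matrix (n × m) K ℂ) :
    rsh (∑ j ∈ s, Z j) = ∑ j ∈ s, rsh (Z j) := by
  ext i p
  simp [rsh, Matrix.sum_apply]

theorem vp_rsh_kron_mul {K : Type} [Fintype K] [DecidableEq K] (X : Matrix n n ℂ) (Y : Matrix m m ℂ)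
    (Z : Matrix (n × m) K ℂ) :
    rsh ((X ⊗ₖ Y) * Z) = X * rsh Z * htil (K := K) Y := by
  ext i p
  obtain ⟨k, l⟩ := p
  simp only [rsh, htil, Matrix.of_apply, Matrix.mul_apply, Matrix.kroneckerMap_apply,
    Fintype.sum_prod_type, mul_ite, mul_zero]
  rw [Finset.sum_eq_single k]
  · rw [Finset.sum_comm]
    refine Finset.sum_congr rfl fun q _ => ?_
    rw [if_pos rfl, Finset.sum_mul]
    refine Finset.sum_congr rfl fun i' _ => ?_
    ring
  · intro k' _ hk'
    exact Finset.sum_eq_zero fun q _ => by rw [if_neg hk']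
  · intro hk; exact absurd (Finset.mem_univ k) hk

theorem vp_holOn_htil {K : Type} [DecidableEq K] {k : ℂ → Matrix m m ℂ} (hk : HolOn V k) :
    HolOn V (fun z => htil (K := K) (k z)) := by
  intro i j
  simp only [htil, Matrix.of_apply]
  split_ifs
  · exact hk _ _
  · exact differentiableOn_const _

theorem vp_holOn_charpoly_smul {a b : Type} {k : ℂ → Matrix a b ℂ} (hk : HolOn V k) :
    HolOn V (fun z => A.charpoly.eval z • k z) := by
  intro i j
  simp only [Matrix.smul_apply, smul_eq_mul]
  exact (A.charpoly.differentiable.differentiableOn).mul (hk i j)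

theorem vp_holOn_sum_pow {a b : Type} [Fintype a] [DecidableEq a] [Fintype b] [DecidableEq b]
    (N : ℕ) (B : ℕ → Matrix a b ℂ) :
    HolOn V (fun z => ∑ j ∈ Finset.range N, z ^ j • B j) := by
  intro i j
  simp only [Matrix.sum_apply, Matrix.smul_apply, smul_eq_mul]
  fun_prop

theorem vp_star_sum_pow {a b : Type} [Fintype a] [DecidableEq a] [Fintype b] [DecidableEq b]
    (hs : Sit e A V) (g : Matrix n a ℂ) (N : ℕ) (B : ℕ → Matrix a b ℂ) :
    star e A g (fun z => ∑ j ∈ Finset.range N, z ^ j • B j)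
      = ∑ j ∈ Finset.range N, A ^ j * g * B j := by
  induction N with
  | zero =>
    simp only [Finset.range_zero, Finset.sum_empty]
    have := star_const (V := V) hs g (0 : Matrix a b ℂ)
    rw [this, Matrix.mul_zero]
  | succ N ih =>
    simp only [Finset.sum_range_succ]
    rw [star_add hs g (vp_holOn_sum_pow N B) (by
      intro i j
      simp only [Matrix.smul_apply, smul_eq_mul]
      fun_prop), ih]
    congr 1
    have := star_poly (V := V) hs g (Polynomial.X ^ N) (B N)
    simpa using this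

theorem isVal_poly (hs : Sit e A V) (d : ℕ) (B : ℕ → Matrix m m ℂ) (h k : ℂ → Matrix m m ℂ)
    (hk : HolOn V k)
    (hh : ∀ z ∈ V, h z = (∑ j ∈ Finset.range (d + 1), z ^ j • B j) + A.charpoly.eval z • k z) :
    IsVal e A h (∑ j ∈ Finset.range (d + 1), (A ^ j) ⊗ₖ (B j)) := by
  intro Z
  have h1 : star e A (rsh Z) (fun z => htil (K := n × m) (h z)) =
      star e A (rsh Z) (fun z => (∑ j ∈ Finset.range (d + 1), z ^ j • htil (K := n × m) (B j)) +
        A.charpoly.eval z • htil (K := n × m) (k z)) := by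
    refine star_congr hs _ fun z hz => ?_
    rw [hh z hz, vp_htil_add, vp_htil_sum, vp_htil_smul]
    simp only [vp_htil_smul]
  rw [h1, star_add hs _ (vp_holOn_sum_pow _ _) (vp_holOn_charpoly_smul (vp_holOn_htil hk)),
    star_charpoly hs _ (vp_holOn_htil hk), add_zero, vp_star_sum_pow hs, Finset.sum_mul, vp_rsh_sum]
  exact Finset.sum_congr rfl fun j _ => vp_rsh_kron_mul _ _ _

end Crest.Agent.R132
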