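import Crest.Agent.R132.Core
import Crest.Agent.R132.Fin180A
import Crest.Agent.R132.ValPoly
import Crest.Agent.R132.NRange
import Crest.Agent.R132.ExistsExt
import Crest.Agent.R132.Div

/-!
# Pieces for S0180

* `strict_feasible`: spectral radius `< 1` gives `k ≥ 1` with operator norm of `T^k` less than 1 (Gelfand formula), and
  `H = 2 ∑_{j<k} (T^j)ᴴ T^j`: `H ≥ 2`, `H - Tᴴ H T = 2 (1 - (T^k)ᴴ T^k) > 0`; `τ` large.
* `spectrum_aeval_lt`: spectrum of `p(A)` is `p` of the spectrum of `A`, `p μ = f μ` (order 0 agreement, `n ≥ 1`), and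
  `μ ∈ spectrum A ⊆ numRange A ⊆ Ω`.
* `tfeas_iff_metricFeasible`: tensor problem with `m = Unit` (reindex `Fin n × Unit ≃ Fin n`).
* `s0180_aux`: `V = Ω`; `K = nrange A`, `exists_ext K Ω`, `h z = f z` (1 × 1 matrix), `agrees_div`, `isVal_poly`
  (`B_j = coeff p j`, `d = natDegree p`), `core`.  Existence of the optimum: `opt_exists`.
-/

set_option autoImplicit false
open Matrix
open scoped ComplexOrder Kronecker
open Crest.AnalysisR.NumRange

namespace Crest.Agent.R132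

theorem strict_feasible {n : ℕ} (T : Matrix (Fin n) (Fin n) ℂ)
    (hT : ∀ μ ∈ spectrum ℂ T, ‖μ‖ < 1) :
    ∃ (H : Matrix (Fin n) (Fin n) ℂ) (τ : ℝ), MetricStrictlyFeasible T H τ :=
  S180A.strict_feasible T hT

theorem spectrum_aeval_lt {n : ℕ} (A : Matrix (Fin n) (Fin n) ℂ) (Ω : Set ℂ) (f : ℂ → ℂ)
    (hf : f '' Ω = Metric.ball 0 1) (hA : numRange A ⊆ Ω) (p : Polynomial ℂ)
    (hp : AgreesOnSpectrum A f p) :
    ∀ μ ∈ spectrum ℂ (Polynomial.aeval A p), ‖μ‖ < 1 :=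
  S180A.spectrum_aeval_lt A Ω f hf hA p hp

/-- the tensor version of `T : Matrix (Fin n) (Fin n) ℂ` -/
def tens {n : ℕ} (T : Matrix (Fin n) (Fin n) ℂ) : Matrix (Fin n × Unit) (Fin n × Unit) ℂ :=
  Matrix.of fun p q => T p.1 q.1

theorem gam_tens {n : ℕ} (T H : Matrix (Fin n) (Fin n) ℂ) :
    Gam (tens T) H = (H - T.conjTranspose * H * T).submatrix
      (Equiv.prodUnique (Fin n) Unit) (Equiv.prodUnique (Fin n) Unit) := by
  ext ⟨i, u⟩ ⟨j, v⟩
  simp only [Gam, tens, Matrix.sub_apply, Matrix.kroneckerMap_apply, Matrix.mul_apply,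
    Matrix.submatrix_apply, Matrix.conjTranspose_apply, Matrix.of_apply, Fintype.sum_prod_type,
    Finset.univ_unique, Finset.sum_singleton, Equiv.prodUnique_apply]
  simp

theorem tfeas_iff {n : ℕ} (T H : Matrix (Fin n) (Fin n) ℂ) (τ : ℝ) :
    TFeas (tens T) H τ ↔ MetricFeasible T H τ := by
  unfold TFeas MetricFeasible
  rw [gam_tens, Matrix.posSemidef_submatrix_equiv]

theorem s180b_spec {n : ℕ} (A : Matrix (Fin n) (Fin n) ℂ) : spectrum ℂ A ⊆ numRange A := by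
  intro μ hμ
  rw [← Matrix.spectrum_toEuclideanLin] at hμ
  obtain ⟨v, hv⟩ := ((Module.End.hasEigenvalue_iff_mem_spectrum).2 hμ).exists_hasEigenvector
  have hv1 : Matrix.toEuclideanLin A v = μ • v := hv.apply_eq_smul
  have hv0 : v ≠ 0 := hv.2
  have hn : ‖v‖ ≠ 0 := norm_ne_zero_iff.2 hv0
  refine ⟨((‖v‖⁻¹ : ℝ) : ℂ) • v, ?_, ?_⟩
  · rw [norm_smul, Complex.norm_real, norm_inv, norm_norm, inv_mul_cancel₀ hn]
  · rw [map_smul, hv1, inner_smul_left, inner_smul_right, inner_smul_right,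
      inner_self_eq_norm_sq_to_K, Complex.conj_ofReal]
    have hn' : ((‖v‖ : ℝ) : ℂ) ≠ 0 := by exact_mod_cast hn
    push_cast
    field_simp
    rfl

theorem s180b_opn (c : ℂ) (hc : ‖c‖ < 1) : opn (c • (1 : Matrix Unit Unit ℂ)) < 1 := by
  unfold opn
  rw [map_smul, norm_smul, map_one]
  calc ‖c‖ * ‖(1 : EuclideanSpace ℂ Unit →L[ℂ] EuclideanSpace ℂ Unit)‖
      ≤ ‖c‖ * 1 := mul_le_mul_of_nonneg_left ContinuousLinearMap.norm_id_le (norm_nonneg _)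
    _ < 1 := by linarith

theorem kappa_le_four {n : ℕ} (hn : 1 ≤ n) (A : Matrix (Fin n) (Fin n) ℂ) (Ω : Set ℂ)
    (hΩ₁ : IsOpen Ω) (hΩ₃ : Convex ℝ Ω) (f : ℂ → ℂ) (hf₁ : DifferentiableOn ℂ f Ω)
    (hf₃ : f '' Ω = Metric.ball 0 1) (hA : numRange A ⊆ Ω) (p : Polynomial ℂ)
    (hp : AgreesOnSpectrum A f p) (H : Matrix (Fin n) (Fin n) ℂ) (κsq : ℝ)
    (hopt : IsOptimalMetric (Polynomial.aeval A p) H κsq) : κsq ≤ 4 := by
  have hne : Nonempty (Fin n) := ⟨⟨0, by omega⟩⟩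
  have hA' : nrange A ⊆ Ω := hA
  obtain ⟨e, he1, he2, he3⟩ := exists_ext (nrange A) Ω (nrange_compact A) (nrange_convex A)
    (nrange_nonempty A) hΩ₁ hΩ₃ hA'
  have hs : Sit e A Ω := ⟨he1, he2, hΩ₁, hΩ₃, he3, hA'⟩
  obtain ⟨k, hk1, hk2⟩ := agrees_div A Ω hΩ₁ ((s180b_spec A).trans hA) f hf₁ p hp
  let h : ℂ → Matrix Unit Unit ℂ := fun z => f z • (1 : Matrix Unit Unit ℂ)
  have hh : HolOn Ω h := by
    intro i j
    have : (fun z => h z i j) = fun z => f z * (1 : Matrix Unit Unit ℂ) i j := by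
      funext z; simp [h]
    rw [this]
    exact hf₁.mul_const _
  have hlt : ∀ z ∈ Ω, opn (h z) < 1 := by
    intro z hz
    apply s180b_opn
    have : f z ∈ f '' Ω := ⟨z, hz, rfl⟩
    rw [hf₃, Metric.mem_ball, dist_zero_right] at this
    exact this
  have hkH : HolOn Ω (fun z => k z • (1 : Matrix Unit Unit ℂ)) := by
    intro i j
    have : (fun z => (k z • (1 : Matrix Unit Unit ℂ)) i j)
        = fun z => k z * (1 : Matrix Unit Unit ℂ) i j := by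
      funext z; simp
    rw [this]
    exact hk1.mul_const _
  have hval := isVal_poly hs p.natDegree (fun j => p.coeff j • (1 : Matrix Unit Unit ℂ)) h
    (fun z => k z • (1 : Matrix Unit Unit ℂ)) hkH (by
      intro z hz
      simp only [h]
      rw [hk2 z hz, Polynomial.eval_eq_sum_range, add_smul, Finset.sum_smul, smul_smul]
      congr 1
      apply Finset.sum_congr rfl
      intro j _
      rw [smul_smul, mul_comm])
  have hT : (∑ j ∈ Finset.range (p.natDegree + 1),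
      (A ^ j) ⊗ₖ ((fun j => p.coeff j • (1 : Matrix Unit Unit ℂ)) j))
      = tens (Polynomial.aeval A p) := by
    rw [Polynomial.aeval_eq_sum_range]
    ext ⟨i, u⟩ ⟨j, v⟩
    simp only [tens, Matrix.of_apply, Matrix.sum_apply, Matrix.kroneckerMap_apply,
      Matrix.smul_apply, smul_eq_mul]
    apply Finset.sum_congr rfl
    intro l _
    simp [mul_comm]
  rw [hT] at hval
  refine core hs h hh hlt _ hval H κsq ⟨(tfeas_iff _ _ _).2 hopt.1, ?_⟩
  intro H' τ' hf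
  exact hopt.2 H' τ' ((tfeas_iff _ _ _).1 hf)

theorem s0180_aux
    (n : ℕ) (hn : 1 ≤ n) (A : Matrix (Fin n) (Fin n) ℂ)
    (Ω U : Set ℂ) (hΩ₁ : IsOpen Ω) (hΩ₂ : Bornology.IsBounded Ω) (hΩ₃ : Convex ℝ Ω)
    (hU : IsOpen U) (hΩU : closure Ω ⊆ U)
    (f : ℂ → ℂ) (hf₁ : DifferentiableOn ℂ f U) (hf₂ : Set.InjOn f U)
    (hf₃ : f '' Ω = Metric.ball 0 1)
    (hA : numRange A ⊆ Ω) (p : Polynomial ℂ) (hp : AgreesOnSpectrum A f p) :
    (∃ (H : Matrix (Fin n) (Fin n) ℂ) (τ : ℝ), MetricStrictlyFeasible (Polynomial.aeval A p) H τ) ∧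
    ∃ (H : Matrix (Fin n) (Fin n) ℂ) (κsq : ℝ),
      IsOptimalMetric (Polynomial.aeval A p) H κsq ∧ 1 ≤ κsq ∧ κsq ≤ 4 := by
  have hne : Nonempty (Fin n) := ⟨⟨0, by omega⟩⟩
  have hstrict := strict_feasible (Polynomial.aeval A p) (spectrum_aeval_lt A Ω f hf₃ hA p hp)
  refine ⟨hstrict, ?_⟩
  obtain ⟨H₀, τ₀, h1, h2, h3⟩ := hstrict
  have hfeas : TFeas (tens (Polynomial.aeval A p)) H₀ τ₀ :=
    (tfeas_iff _ _ _).2 ⟨h1.posSemidef, h2.posSemidef, h3.posSemidef⟩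
  obtain ⟨H, τ, hopt⟩ := opt_exists (tens (Polynomial.aeval A p)) ⟨H₀, τ₀, hfeas⟩
  have hopt' : IsOptimalMetric (Polynomial.aeval A p) H τ :=
    ⟨(tfeas_iff _ _ _).1 hopt.1, fun H' τ' hf => hopt.2 H' τ' ((tfeas_iff _ _ _).2 hf)⟩
  exact ⟨H, τ, hopt', opt_one_le _ hopt.1, kappa_le_four hn A Ω hΩ₁ hΩ₃ f
    (hf₁.mono (subset_closure.trans hΩU)) hf₃ hA p hp H τ hopt'⟩

end Crest.Agent.R132
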