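import Crest.Agent.R132.Core
import Crest.Agent.R132.ValPoly
import Crest.Agent.R132.NRange
import Crest.Agent.R132.ExistsExt

/-!
# Piece FINC : the finite dimensional complete Crouzeix inequality

For `δ > 0` (`M + δ > 0`; `M ≥ 0` since `nrange A` is nonempty) let `V = Metric.thickening ε (nrange A)` with `ε > 0` such that
`opn (P z) < M + δ` on `V` (continuity of `P`, compactness of `nrange A`: `IsCompact.exists_thickening_subset_open`).
`exists_ext (nrange A) V` gives `e`, `Sit e A V`.  `h z = P z / (M+δ)`, `T = P[A] / (M + δ)`, `isVal_poly` (`k = 0`), `feas_exists`,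
`opt_exists`, `core`: `τ ≤ 4`.  `‖T w‖² ≤ ⟨(H⊗1) T w, T w⟩ ≤ ⟨(H ⊗ 1) w, w⟩ ≤ τ ‖w‖²`, so `opn (P[A]) ≤ 2 (M + δ)`; `δ → 0`.
-/

set_option autoImplicit false
open Matrix
open scoped ComplexOrder Kronecker

namespace Crest.Agent.R132

variable {n m : Type} [Fintype n] [DecidableEq n] [Fintype m] [DecidableEq m]

theorem finc_sub_kron (X Y : Matrix n n ℂ) (Z : Matrix m m ℂ) :
    (X - Y) ⊗ₖ Z = X ⊗ₖ Z - Y ⊗ₖ Z := by
  rw [eq_sub_iff_add_eq, ← Matrix.add_kronecker, sub_add_cancel]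

omit [DecidableEq n] in
theorem finc_normsq (w : EuclideanSpace ℂ n) :
    ((‖w‖ ^ 2 : ℝ) : ℂ) = Star.star (WithLp.ofLp w) ⬝ᵥ (WithLp.ofLp w) := by
  rw [EuclideanSpace.norm_sq_eq]
  simp only [dotProduct, Pi.star_apply, RCLike.star_def]
  push_cast
  refine Finset.sum_congr rfl fun i _ => ?_
  rw [RCLike.conj_mul]
  norm_cast

/-- the metric inequality gives the norm bound -/
theorem opn_sq_le_of_feas (T : Matrix (n × m) (n × m) ℂ) (H : Matrix n n ℂ) (τ : ℝ)
    (h : TFeas T H τ) (hτ : 0 ≤ τ) : opn T ^ 2 ≤ τ := by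
  obtain ⟨h1, h2, h3⟩ := h
  have k2 : (((τ : ℂ) • (1 : Matrix n n ℂ) - H) ⊗ₖ (1 : Matrix m m ℂ)).PosSemidef :=
    h2.kronecker PosSemidef.one
  have k1 : ((H - 1) ⊗ₖ (1 : Matrix m m ℂ)).PosSemidef := h1.kronecker PosSemidef.one
  have k1' := k1.conjTranspose_mul_mul_same T
  have hsum := (k2.add h3).add k1'
  have heq : ((τ : ℂ) • (1 : Matrix n n ℂ) - H) ⊗ₖ (1 : Matrix m m ℂ) + Gam T H +
      Tᴴ * ((H - 1) ⊗ₖ (1 : Matrix m m ℂ)) * T =
      (τ : ℂ) • (1 : Matrix (n × m) (n × m) ℂ) - Tᴴ * T := by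
    unfold Gam
    rw [finc_sub_kron, finc_sub_kron, Matrix.smul_kronecker, Matrix.one_kronecker_one]
    simp only [Matrix.mul_sub, Matrix.sub_mul, Matrix.mul_one]
    abel
  rw [heq] at hsum
  have hle : opn T ≤ Real.sqrt τ := by
    unfold opn
    refine ContinuousLinearMap.opNorm_le_bound _ (Real.sqrt_nonneg _) fun w => ?_
    have h4 := hsum.dotProduct_mulVec_nonneg (WithLp.ofLp w)
    have h5 : Star.star (WithLp.ofLp w) ⬝ᵥ ((τ : ℂ) • (1 : Matrix (n × m) (n × m) ℂ) - Tᴴ * T) *ᵥ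
        (WithLp.ofLp w) = ((τ * ‖w‖ ^ 2 -
          ‖Matrix.toEuclideanCLM (n := n × m) (𝕜 := ℂ) T w‖ ^ 2 : ℝ) : ℂ) := by
      rw [Matrix.sub_mulVec, dotProduct_sub, Matrix.smul_mulVec, Matrix.one_mulVec,
        dotProduct_smul]
      push_cast
      have e1 := finc_normsq w
      have e2 := finc_normsq (Matrix.toEuclideanCLM (n := n × m) (𝕜 := ℂ) T w)
      push_cast at e1 e2
      rw [e1, e2, Matrix.ofLp_toEuclideanCLM, Matrix.star_mulVec, Matrix.dotProduct_mulVec,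
        Matrix.dotProduct_mulVec, Matrix.vecMul_vecMul, smul_eq_mul]
    rw [h5] at h4
    have h6 : 0 ≤ τ * ‖w‖ ^ 2 - ‖Matrix.toEuclideanCLM (n := n × m) (𝕜 := ℂ) T w‖ ^ 2 := by
      exact_mod_cast h4
    refine abs_le_of_sq_le_sq' ?_ (by positivity) |>.2
    rw [mul_pow, Real.sq_sqrt hτ]
    linarith
  calc opn T ^ 2 ≤ Real.sqrt τ ^ 2 := pow_le_pow_left₀ (norm_nonneg _) hle 2
    _ = τ := Real.sq_sqrt hτ

theorem finc_opn_continuous : Continuous (opn : Matrix m m ℂ → ℝ) := by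
  unfold opn
  refine continuous_norm.comp ?_
  exact LinearMap.continuous_of_finiteDimensional
    ((Matrix.toEuclideanCLM (n := m) (𝕜 := ℂ) : Matrix m m ℂ →ₗ[ℂ]
      (EuclideanSpace ℂ m →L[ℂ] EuclideanSpace ℂ m)))

theorem finc_opn_smul_real (r : ℝ) (hr : 0 ≤ r) (X : Matrix n n ℂ) :
    opn ((r : ℂ) • X) = r * opn X := by
  unfold opn
  rw [map_smul, norm_smul, Complex.norm_of_nonneg hr]

theorem fin_crouzeix [Nonempty n] (A : Matrix n n ℂ) (d : ℕ) (B : ℕ → Matrix m m ℂ) (M : ℝ)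
    (hM : ∀ z ∈ nrange A, opn (∑ j ∈ Finset.range (d + 1), z ^ j • B j) ≤ M) :
    opn (∑ j ∈ Finset.range (d + 1), (A ^ j) ⊗ₖ (B j)) ≤ 2 * M := by
  have hM0 : 0 ≤ M := by
    obtain ⟨z, hz⟩ := nrange_nonempty A
    exact (norm_nonneg _).trans (hM z hz)
  refine le_of_forall_pos_le_add fun δ hδ => ?_
  set c : ℝ := M + δ / 2 with hc
  have hc0 : 0 < c := by positivity
  have hPc : Continuous fun z : ℂ => opn (∑ j ∈ Finset.range (d + 1), z ^ j • B j) :=
    finc_opn_continuous.comp (by fun_prop)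
  have hUo : IsOpen {z : ℂ | opn (∑ j ∈ Finset.range (d + 1), z ^ j • B j) < c} :=
    isOpen_lt hPc continuous_const
  obtain ⟨ε, hε, hεU⟩ := (nrange_compact A).exists_thickening_subset_open hUo
    (fun z hz => lt_of_le_of_lt (hM z hz) (by rw [hc]; linarith))
  obtain ⟨e, he1, he2, he3⟩ := exists_ext (nrange A) (Metric.thickening ε (nrange A))
    (nrange_compact A) (nrange_convex A) (nrange_nonempty A) Metric.isOpen_thickening
    ((nrange_convex A).thickening ε) (Metric.self_subset_thickening hε _)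
  have hs : Sit e A (Metric.thickening ε (nrange A)) :=
    ⟨he1, he2, Metric.isOpen_thickening, (nrange_convex A).thickening ε, he3,
      Metric.self_subset_thickening hε _⟩
  set h : ℂ → Matrix m m ℂ := fun z => ∑ j ∈ Finset.range (d + 1), z ^ j • (((c⁻¹ : ℝ) : ℂ) • B j)
    with hh
  have hheq : ∀ z, h z = ((c⁻¹ : ℝ) : ℂ) • ∑ j ∈ Finset.range (d + 1), z ^ j • B j := by
    intro z
    rw [hh, Finset.smul_sum]
    exact Finset.sum_congr rfl fun j _ => smul_comm _ _ _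
  have hhol : HolOn (Metric.thickening ε (nrange A)) h := by
    intro i j
    refine Differentiable.differentiableOn ?_
    simp only [hh, Matrix.sum_apply, Matrix.smul_apply]
    fun_prop
  have hlt : ∀ z ∈ Metric.thickening ε (nrange A), opn (h z) < 1 := by
    intro z hz
    have h1 : opn (∑ j ∈ Finset.range (d + 1), z ^ j • B j) < c := hεU hz
    rw [hheq, finc_opn_smul_real _ (by positivity), ← inv_mul_cancel₀ hc0.ne']
    exact mul_lt_mul_of_pos_left h1 (by positivity)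
  have hval : IsVal e A h (∑ j ∈ Finset.range (d + 1),
      (A ^ j) ⊗ₖ (((c⁻¹ : ℝ) : ℂ) • B j)) := by
    refine isVal_poly hs d _ h (fun _ => 0) ?_ ?_
    · intro i j
      simp only [Matrix.zero_apply]
      exact differentiableOn_const 0
    · intro z _
      rw [hh, smul_zero, add_zero]
  set T := ∑ j ∈ Finset.range (d + 1), (A ^ j) ⊗ₖ (((c⁻¹ : ℝ) : ℂ) • B j) with hT
  have hTeq : T = ((c⁻¹ : ℝ) : ℂ) • ∑ j ∈ Finset.range (d + 1), (A ^ j) ⊗ₖ B j := by
    rw [hT, Finset.smul_sum]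
    exact Finset.sum_congr rfl fun j _ => Matrix.kronecker_smul _ _ _
  obtain ⟨H, τ, hopt⟩ := opt_exists T (feas_exists hs h hhol hlt T hval)
  have h4 := core hs h hhol hlt T hval H τ hopt
  have h1 := opt_one_le T hopt.1
  have h5 := opn_sq_le_of_feas T H τ hopt.1 (by linarith)
  have h6 : opn T ≤ 2 := by
    have : opn T ^ 2 ≤ 2 ^ 2 := by linarith
    exact abs_le_of_sq_le_sq' this (by norm_num) |>.2
  rw [hTeq, finc_opn_smul_real _ (by positivity), inv_mul_le_iff₀ hc0] at h6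
  rw [hc] at h6
  linarith

end Crest.Agent.R132
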