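import Mathlib

/-!
# Injective holomorphic functions (row 132)

An injective holomorphic function on an open set has a holomorphic inverse and nonzero derivative.
-/

set_option autoImplicit false
open Metric Set Filter
open scoped Topology

namespace Crest.Agent.R132

theorem inj_nhds_le {U : Set ℂ} (hU : IsOpen U) {f : ℂ → ℂ} (hf₁ : DifferentiableOn ℂ f U)
    (hf₂ : Set.InjOn f U) {z : ℂ} (hz : z ∈ U) : 𝓝 (f z) ≤ map f (𝓝 z) := by
  have han : AnalyticAt ℂ f z := hf₁.analyticAt (hU.mem_nhds hz)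
  rcases han.eventually_constant_or_nhds_le_map_nhds with h | h
  · exfalso
    have h1 : ∀ᶠ w in 𝓝[≠] z, False := by
      have h2 : ∀ᶠ w in 𝓝[≠] z, f w = f z ∧ w ∈ U :=
        (h.and (hU.mem_nhds hz)).filter_mono nhdsWithin_le_nhds
      filter_upwards [h2, self_mem_nhdsWithin] with w hw hne
      exact hne (hf₂ hw.2 hz hw.1)
    obtain ⟨_, hfalse⟩ := h1.exists
    exact hfalse
  · exact h

theorem inj_image_open {U : Set ℂ} (hU : IsOpen U) {f : ℂ → ℂ} (hf₁ : DifferentiableOn ℂ f U)
    (hf₂ : Set.InjOn f U) {V : Set ℂ} (hV : IsOpen V) (hVU : V ⊆ U) : IsOpen (f '' V) := by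
  rw [isOpen_iff_mem_nhds]
  rintro _ ⟨z, hz, rfl⟩
  exact inj_nhds_le hU hf₁ hf₂ (hVU hz) (image_mem_map (hV.mem_nhds hz))

/-- the inverse function is holomorphic -/
theorem inj_inverse {U : Set ℂ} (hU : IsOpen U) {f : ℂ → ℂ} (hf₁ : DifferentiableOn ℂ f U)
    (hf₂ : Set.InjOn f U) :
    ∃ ψ : ℂ → ℂ, DifferentiableOn ℂ ψ (f '' U) ∧ ∀ z ∈ U, ψ (f z) = z := by
  classical
  set ψ : ℂ → ℂ := Function.invFunOn f U with hψ
  have hinv : ∀ z ∈ U, ψ (f z) = z := fun z hz => hf₂.leftInvOn_invFunOn hz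
  have hopen : IsOpen (f '' U) := inj_image_open hU hf₁ hf₂ hU subset_rfl
  have hcont : ∀ z ∈ U, ContinuousAt ψ (f z) := by
    intro z hz
    rw [ContinuousAt, hinv z hz]
    intro N hN
    rw [mem_map]
    have h1 : f '' (N ∩ U) ∈ 𝓝 (f z) :=
      inj_nhds_le hU hf₁ hf₂ hz (image_mem_map (inter_mem hN (hU.mem_nhds hz)))
    filter_upwards [h1]
    rintro _ ⟨w, hw, rfl⟩
    show ψ (f w) ∈ N
    rw [hinv w hw.2]
    exact hw.1
  -- differentiability where the derivative does not vanish
  have hdiff0 : ∀ z ∈ U, deriv f z ≠ 0 → DifferentiableAt ℂ ψ (f z) := by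
    intro z hz hne
    have h1 : HasDerivAt f (deriv f z) (ψ (f z)) := by
      rw [hinv z hz]
      exact (hf₁.differentiableAt (hU.mem_nhds hz)).hasDerivAt
    refine (HasDerivAt.of_local_left_inverse (hcont z hz) h1 hne ?_).differentiableAt
    filter_upwards [hopen.mem_nhds (mem_image_of_mem f hz)]
    rintro _ ⟨w, hw, rfl⟩
    rw [hinv w hw]
  refine ⟨ψ, ?_, hinv⟩
  rintro _ ⟨z, hz, rfl⟩
  apply DifferentiableAt.differentiableWithinAt
  -- zeros of the derivative are isolated
  have hana : AnalyticAt ℂ (deriv f) z := (hf₁.analyticAt (hU.mem_nhds hz)).deriv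
  rcases hana.eventually_eq_zero_or_eventually_ne_zero with h | h
  · exfalso
    -- `f` is locally constant
    obtain ⟨ε, hε, hball⟩ := Metric.eventually_nhds_iff_ball.1 (h.and (hU.mem_nhds hz))
    have hconst : ∀ w ∈ ball z ε, f w = f z := by
      intro w hw
      have hdiff : DifferentiableOn ℂ f (ball z ε) :=
        hf₁.mono fun x hx => (hball x hx).2
      exact (convex_ball z ε).is_const_of_fderivWithin_eq_zero (𝕜 := ℂ) hdiff
        (fun x hx => by
          rw [fderivWithin_of_isOpen isOpen_ball hx]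
          ext
          simp [(hball x hx).1]) hw (mem_ball_self hε)
    have hne : ∃ w ∈ ball z ε, w ≠ z := by
      refine ⟨z + ((ε / 2 : ℝ) : ℂ), ?_, ?_⟩
      · rw [mem_ball, dist_eq_norm, add_sub_cancel_left, Complex.norm_real, Real.norm_eq_abs,
          abs_of_pos (by positivity)]
        linarith
      · intro h1
        have h2 : ((ε / 2 : ℝ) : ℂ) = 0 := by linear_combination h1
        have h3 : ε / 2 = 0 := by exact_mod_cast h2
        linarith
    obtain ⟨w, hw, hwz⟩ := hne
    exact hwz (hf₂ (hball w hw).2 hz (hconst w hw))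
  · -- removable singularity
    rw [eventually_nhdsWithin_iff] at h
    obtain ⟨ε, hε, hball⟩ := Metric.eventually_nhds_iff_ball.1 (h.and (hU.mem_nhds hz))
    have hVU : ball z ε ⊆ U := fun x hx => (hball x hx).2
    have hS : f '' (ball z ε) ∈ 𝓝 (f z) :=
      (inj_image_open hU hf₁ hf₂ isOpen_ball hVU).mem_nhds (mem_image_of_mem f (mem_ball_self hε))
    have h1 : DifferentiableOn ℂ ψ (f '' (ball z ε) \ {f z}) := by
      rintro _ ⟨⟨w, hw, rfl⟩, hne⟩
      apply DifferentiableAt.differentiableWithinAt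
      apply hdiff0 w (hVU hw)
      apply (hball w hw).1
      rintro rfl
      exact hne rfl
    have h2 := (Complex.differentiableOn_compl_singleton_and_continuousAt_iff hS).1
      ⟨h1, hcont z hz⟩
    exact h2.differentiableAt hS

/-- an injective holomorphic function has nonvanishing derivative -/
theorem deriv_ne_zero_of_injOn {U : Set ℂ} (hU : IsOpen U) {f : ℂ → ℂ}
    (hf₁ : DifferentiableOn ℂ f U) (hf₂ : Set.InjOn f U) {z : ℂ} (hz : z ∈ U) :
    deriv f z ≠ 0 := by
  obtain ⟨ψ, hψ, hinv⟩ := inj_inverse hU hf₁ hf₂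
  have hopen : IsOpen (f '' U) := inj_image_open hU hf₁ hf₂ hU subset_rfl
  have h1 : HasDerivAt f (deriv f z) z := (hf₁.differentiableAt (hU.mem_nhds hz)).hasDerivAt
  have h2 : HasDerivAt ψ (deriv ψ (f z)) (f z) :=
    (hψ.differentiableAt (hopen.mem_nhds (mem_image_of_mem f hz))).hasDerivAt
  have h3 : HasDerivAt (ψ ∘ f) (deriv ψ (f z) * deriv f z) z := h2.comp z h1
  have h4 : HasDerivAt (ψ ∘ f) 1 z := by
    refine (hasDerivAt_id z).congr_of_eventuallyEq ?_
    filter_upwards [hU.mem_nhds hz] with w hw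
    exact hinv w hw
  intro h
  have := h3.unique h4
  rw [h, mul_zero] at this
  exact zero_ne_one this

end Crest.Agent.R132
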