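import Crest.Agent.R132.ExtAnBasic

/-!
# Piece KERNEL : the double layer kernel of a convex exterior map

With `u = t⁻¹`, `w = s⁻¹`, and the divided difference `g[u,w] = (g u - g w)/(u - w)` (`= g' u` if `u = w`;
use `dslope`), put `D(u,w) = c - u w g[u,w]`, so that `G t - G s = (t - s) D(u,w)`, and
`E(u) = c - u² g'(u) = D(u,u) = dG t`.  Then
`Λ(t,s) = t G'(t)/(G t - G s) - t/(t-s) = (w/(w-u)) (E(u) - D(u,w))/D(u,w)
        = w u (g'(u) + w g[u,u,w]) / D(u,w)`, with `g[u,u,w] = (g[u,w] - g'(u))/(w-u)`.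
`D(u,w) ≠ 0` if one of `u, w` is on the unit circle and the other one in the closed unit disc
(`Conv.inj`, `Conv.dG_ne`, `D(0,w) = D(u,0) = c`), hence `≠ 0` for the other variable in a slightly larger
disc (compactness).  So `Λ(·, s)` and `Λ(t, ·)` are exterior analytic and vanish at infinity (`u = 0` resp.
`w = 0`).
Nonnegativity for `t ≠ s`: `2 Re (t/(t-s)) = 1` for `|t|=|s|=1`, and `Conv.pos`; for `t = s` by continuity.
Joint continuity: e.g. `g[u,w] = ∫_0^1 g'(w + x (u-w)) dx`, `g[u,u,w] = ∫_0^1 (1-x) g''(u + x(w-u)) dx` (or any other way).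
-/

set_option autoImplicit false
open Metric Set

namespace Crest.Agent.R132

structure IsKernel (e : Ext) (Lam : ℂ → ℂ → ℂ) : Prop where
  cont : ContinuousOn (fun p : ℂ × ℂ => Lam p.1 p.2) (sphere 0 1 ×ˢ sphere 0 1)
  ext_left : ∀ s : ℂ, ‖s‖ = 1 → ExtAn (fun t => Lam t s) 0
  ext_right : ∀ t : ℂ, ‖t‖ = 1 → ExtAn (fun s => Lam t s) 0
  eq : ∀ t s : ℂ, ‖t‖ = 1 → ‖s‖ = 1 → t ≠ s →
    Lam t s = t * e.dG t / (e.G t - e.G s) - t / (t - s)
  nonneg : ∀ t s : ℂ, ‖t‖ = 1 → ‖s‖ = 1 → 0 ≤ 1 + 2 * (Lam t s).re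

namespace Kernelaux

open Filter Topology

/-- joint continuity on the diagonal from separate analyticity -/
theorem cont_of_sep {Ω : Set ℂ} (hΩ : IsOpen Ω) (Φ : ℂ → ℂ → ℂ)
    (h1 : ∀ u ∈ Ω, DifferentiableOn ℂ (Φ u) Ω)
    (h2 : ∀ u ∈ Ω, ∀ w ∈ Ω, u ≠ w → ContinuousAt (fun p : ℂ × ℂ => Φ p.1 p.2) (u, w)) :
    ∀ u ∈ Ω, ∀ w ∈ Ω, ContinuousAt (fun p : ℂ × ℂ => Φ p.1 p.2) (u, w) := by
  intro u hu w hw
  by_cases huw : u = w
  swap
  · exact h2 u hu w hw huw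
  subst huw
  obtain ⟨r, hr, hrΩ⟩ := Metric.nhds_basis_closedBall.mem_iff.mp (hΩ.mem_nhds hu)
  rw [Metric.continuousAt_iff']
  intro ε hε
  -- on the sphere
  have hS : ∀ᶠ x in 𝓝 u, ∀ ζ ∈ sphere u r, ‖Φ x ζ - Φ u ζ‖ ≤ ε / 3 := by
    apply IsCompact.eventually_forall_of_forall_eventually (isCompact_sphere u r)
    intro ζ hζ
    have hζΩ : ζ ∈ Ω := hrΩ (sphere_subset_closedBall hζ)
    have hζu : u ≠ ζ := by
      rintro rfl
      rw [mem_sphere, dist_self] at hζ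
      exact hr.ne hζ
    have hc := h2 u hu ζ hζΩ hζu
    have hc2 : ContinuousAt (fun p : ℂ × ℂ => Φ u p.2) (u, ζ) := by
      have h3 : ContinuousAt (Φ u) ζ := ((h1 u hu).differentiableAt (hΩ.mem_nhds hζΩ)).continuousAt
      exact ContinuousAt.comp (f := fun p : ℂ × ℂ => p.2) (g := Φ u) (x := (u, ζ)) h3 continuousAt_snd
    have hc3 : ContinuousAt (fun p : ℂ × ℂ => ‖Φ p.1 p.2 - Φ u p.2‖) (u, ζ) := (hc.sub hc2).norm
    have h4 : ∀ᶠ p : ℂ × ℂ in 𝓝 (u, ζ), ‖Φ p.1 p.2 - Φ u p.2‖ < ε / 3 := by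
      apply hc3.eventually_lt continuousAt_const
      simp only [sub_self, norm_zero]
      positivity
    exact h4.mono fun p hp => hp.le
  have hΩ' : ∀ᶠ x in 𝓝 u, x ∈ Ω := hΩ.mem_nhds hu
  have hball : ∀ᶠ x in 𝓝 u, x ∈ ball u r := ball_mem_nhds u hr
  have hcu : ∀ᶠ x in 𝓝 u, ‖Φ u x - Φ u u‖ < ε / 3 := by
    have h3 : ContinuousAt (Φ u) u := ((h1 u hu).differentiableAt (hΩ.mem_nhds hu)).continuousAt
    have h4 : ContinuousAt (fun x => ‖Φ u x - Φ u u‖) u := (h3.sub continuousAt_const).norm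
    apply h4.eventually_lt continuousAt_const
    simp only [sub_self, norm_zero]
    positivity
  rw [nhds_prod_eq]
  filter_upwards [(hS.and hΩ').prod_mk (hball.and hcu)] with p hp
  obtain ⟨⟨hp1, hp2⟩, hp3, hp4⟩ := hp
  have h5 : ‖Φ p.1 p.2 - Φ u p.2‖ ≤ ε / 3 := by
    have hd : DifferentiableOn ℂ (fun z => Φ p.1 z - Φ u z) Ω := (h1 p.1 hp2).sub (h1 u hu)
    apply Complex.norm_le_of_forall_mem_frontier_norm_le (U := ball u r) Metric.isBounded_ball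
      (hd.diffContOnCl_ball hrΩ)
    · intro z hz
      rw [frontier_ball u hr.ne'] at hz
      exact hp1 z hz
    · exact subset_closure hp3
  rw [dist_eq_norm]
  calc ‖Φ p.1 p.2 - Φ u u‖ = ‖(Φ p.1 p.2 - Φ u p.2) + (Φ u p.2 - Φ u u)‖ := by
        congr 1; ring
    _ ≤ ‖Φ p.1 p.2 - Φ u p.2‖ + ‖Φ u p.2 - Φ u u‖ := norm_add_le _ _
    _ < ε := by linarith

section dd

variable {Ω : Set ℂ} (hΩ : IsOpen Ω) {g : ℂ → ℂ} (hg : DifferentiableOn ℂ g Ω)

/-- first divided difference -/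
noncomputable def P (g : ℂ → ℂ) (u w : ℂ) : ℂ := dslope g u w

/-- second divided difference `g[u,u,w]` -/
noncomputable def Q (g : ℂ → ℂ) (u w : ℂ) : ℂ := dslope (P g u) u w

theorem P_ne (g : ℂ → ℂ) {u w : ℂ} (h : u ≠ w) : P g u w = (w - u)⁻¹ * (g w - g u) := by
  unfold P
  rw [dslope_of_ne _ h.symm, slope_def_module, smul_eq_mul]

theorem P_self (g : ℂ → ℂ) (u : ℂ) : P g u u = deriv g u := by
  unfold P; rw [dslope_same]

theorem P_comm (g : ℂ → ℂ) (u w : ℂ) : P g u w = P g w u := by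
  by_cases h : u = w
  · subst h; rfl
  · rw [P_ne g h, P_ne g (Ne.symm h), ← neg_sub w u, inv_neg, ← neg_sub (g w) (g u)]
    ring

theorem Q_ne (g : ℂ → ℂ) {u w : ℂ} (h : u ≠ w) :
    Q g u w = (w - u)⁻¹ * (P g u w - deriv g u) := by
  unfold Q
  rw [dslope_of_ne _ h.symm, slope_def_module, smul_eq_mul, P_self]

include hΩ hg in
theorem P_diff {u : ℂ} (hu : u ∈ Ω) : DifferentiableOn ℂ (P g u) Ω :=
  (Complex.differentiableOn_dslope (hΩ.mem_nhds hu)).mpr hg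

include hΩ hg in
theorem Q_diff {u : ℂ} (hu : u ∈ Ω) : DifferentiableOn ℂ (Q g u) Ω :=
  (Complex.differentiableOn_dslope (hΩ.mem_nhds hu)).mpr (P_diff hΩ hg hu)

theorem ne_ev {u w : ℂ} (h : u ≠ w) : ∀ᶠ p : ℂ × ℂ in 𝓝 (u, w), p.1 ≠ p.2 :=
  (isOpen_ne_fun continuous_fst continuous_snd).mem_nhds h

include hΩ hg in
theorem P_cont : ∀ u ∈ Ω, ∀ w ∈ Ω, ContinuousAt (fun p : ℂ × ℂ => P g p.1 p.2) (u, w) := by
  apply cont_of_sep hΩ (P g) (fun u hu => P_diff hΩ hg hu)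
  intro u hu w hw huw
  have h1 : (fun p : ℂ × ℂ => (p.2 - p.1)⁻¹ * (g p.2 - g p.1)) =ᶠ[𝓝 (u, w)]
      (fun p : ℂ × ℂ => P g p.1 p.2) := by
    filter_upwards [ne_ev huw] with p hp
    rw [P_ne g hp]
  apply ContinuousAt.congr _ h1
  have hgu : ContinuousAt g u := (hg.differentiableAt (hΩ.mem_nhds hu)).continuousAt
  have hgw : ContinuousAt g w := (hg.differentiableAt (hΩ.mem_nhds hw)).continuousAt
  apply ContinuousAt.mul
  · apply ContinuousAt.inv₀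
    · fun_prop
    · exact sub_ne_zero.mpr huw.symm
  · apply ContinuousAt.sub
    · exact ContinuousAt.comp (f := fun p : ℂ × ℂ => p.2) (g := g) (x := (u, w)) hgw continuousAt_snd
    · exact ContinuousAt.comp (f := fun p : ℂ × ℂ => p.1) (g := g) (x := (u, w)) hgu continuousAt_fst

include hΩ hg in
theorem Q_cont : ∀ u ∈ Ω, ∀ w ∈ Ω, ContinuousAt (fun p : ℂ × ℂ => Q g p.1 p.2) (u, w) := by
  apply cont_of_sep hΩ (Q g) (fun u hu => Q_diff hΩ hg hu)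
  intro u hu w hw huw
  have h1 : (fun p : ℂ × ℂ => (p.2 - p.1)⁻¹ * (P g p.1 p.2 - deriv g p.1)) =ᶠ[𝓝 (u, w)]
      (fun p : ℂ × ℂ => Q g p.1 p.2) := by
    filter_upwards [ne_ev huw] with p hp
    rw [Q_ne g hp]
  apply ContinuousAt.congr _ h1
  have hgu : ContinuousAt (deriv g) u :=
    ((hg.deriv hΩ).differentiableAt (hΩ.mem_nhds hu)).continuousAt
  apply ContinuousAt.mul
  · apply ContinuousAt.inv₀
    · fun_prop
    · exact sub_ne_zero.mpr huw.symm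
  · apply ContinuousAt.sub
    · exact P_cont hΩ hg u hu w hw
    · exact ContinuousAt.comp (f := fun p : ℂ × ℂ => p.1) (g := deriv g) (x := (u, w)) hgu
        continuousAt_fst

include hΩ hg in
theorem Q_diff_left {w : ℂ} (hw : w ∈ Ω) : DifferentiableOn ℂ (fun u => Q g u w) Ω := by
  rw [← Complex.differentiableOn_compl_singleton_and_continuousAt_iff (hΩ.mem_nhds hw)]
  constructor
  · have h1 : DifferentiableOn ℂ (fun u => (w - u)⁻¹ * (P g w u - deriv g u)) (Ω \ {w}) := by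
      apply DifferentiableOn.mul
      · apply DifferentiableOn.inv
        · fun_prop
        · rintro x ⟨_, hx⟩
          exact sub_ne_zero.mpr (Ne.symm hx)
      · exact ((P_diff hΩ hg hw).sub (hg.deriv hΩ)).mono sdiff_subset
    apply h1.congr
    rintro x ⟨_, hx⟩
    show Q g x w = (w - x)⁻¹ * (P g w x - deriv g x)
    rw [Q_ne g hx, P_comm g x w]
  · exact ContinuousAt.comp (f := fun u : ℂ => (u, w)) (g := fun p : ℂ × ℂ => Q g p.1 p.2) (x := w)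
      (Q_cont hΩ hg w hw w hw) (by fun_prop)

end dd

/-- the denominator -/
noncomputable def D (e : Ext) (u w : ℂ) : ℂ := e.c - u * w * P e.g u w

/-- the numerator -/
noncomputable def Nu (e : Ext) (u w : ℂ) : ℂ := w * u * (deriv e.g u + w * Q e.g u w)

theorem D_comm (e : Ext) (u w : ℂ) : D e u w = D e w u := by
  unfold D; rw [P_comm, mul_comm u w]

theorem D_self (e : Ext) (u : ℂ) : D e u u = e.c - deriv e.g u * u ^ 2 := by
  unfold D; rw [P_self]; ring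

/-- `G t - G s = (t - s) D` -/
theorem G_sub (e : Ext) (t s : ℂ) (ht : t ≠ 0) (hs : s ≠ 0) :
    e.G t - e.G s = (t - s) * D e t⁻¹ s⁻¹ := by
  by_cases hts : t = s
  · subst hts; simp
  · have h1 : t⁻¹ ≠ s⁻¹ := fun h => hts (inv_injective h)
    unfold D Ext.G
    rw [P_ne e.g h1]
    have h2 : s⁻¹ - t⁻¹ ≠ 0 := sub_ne_zero.mpr h1.symm
    have h3 : (t - s) * (t⁻¹ * s⁻¹) = s⁻¹ - t⁻¹ := by
      field_simp
    calc e.c * t + e.g t⁻¹ - (e.c * s + e.g s⁻¹)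
        = e.c * (t - s) - (e.g s⁻¹ - e.g t⁻¹) := by ring
      _ = e.c * (t - s) - ((t - s) * (t⁻¹ * s⁻¹)) * ((s⁻¹ - t⁻¹)⁻¹ * (e.g s⁻¹ - e.g t⁻¹)) := by
          rw [h3, ← mul_assoc, mul_inv_cancel₀ h2, one_mul]
      _ = _ := by ring

theorem D_ne (e : Ext) (he : e.Conv) (u w : ℂ) (hu : ‖u‖ ≤ 1) (hw : ‖w‖ = 1) : D e u w ≠ 0 := by
  by_cases hu0 : u = 0
  · subst hu0
    unfold D
    simpa using e.hc
  have hw0 : w ≠ 0 := by
    rintro rfl
    simp at hw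
  by_cases huw : u = w
  · subst huw
    have h := he.dG_ne u⁻¹ (by rw [norm_inv, hw, inv_one])
    unfold Ext.dG at h
    rw [inv_inv] at h
    rw [D_self]
    exact h
  · have h1 : w⁻¹ ≠ u⁻¹ := fun h => huw (inv_injective h).symm
    have h2 := he.inj w⁻¹ u⁻¹ (by rw [norm_inv, hw, inv_one])
      (by rw [norm_inv]; exact (one_le_inv₀ (norm_pos_iff.mpr hu0)).mpr hu) h1
    have h3 := G_sub e w⁻¹ u⁻¹ (inv_ne_zero hw0) (inv_ne_zero hu0)
    rw [inv_inv, inv_inv] at h3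
    intro h4
    rw [D_comm, h4, mul_zero] at h3
    exact h2 (sub_eq_zero.mp h3)

/-- radius from compactness -/
theorem exists_radius {ρ : ℝ} (hρ : 1 < ρ) (f : ℂ → ℂ) (hf : ContinuousOn f (ball 0 ρ))
    (h : ∀ u : ℂ, ‖u‖ ≤ 1 → f u ≠ 0) : ∃ ρ' : ℝ, 1 < ρ' ∧ ρ' ≤ ρ ∧ ∀ u ∈ ball (0 : ℂ) ρ', f u ≠ 0 := by
  have hU : IsOpen (ball (0:ℂ) ρ ∩ f ⁻¹' {0}ᶜ) :=
    hf.isOpen_inter_preimage isOpen_ball isOpen_compl_singleton
  have hsub : closedBall (0:ℂ) 1 ⊆ ball (0:ℂ) ρ ∩ f ⁻¹' {0}ᶜ := by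
    intro u hu
    rw [mem_closedBall, dist_zero_right] at hu
    refine ⟨?_, h u hu⟩
    rw [mem_ball, dist_zero_right]
    linarith
  obtain ⟨δ, hδ, hδ'⟩ := (isCompact_closedBall (0:ℂ) 1).exists_thickening_subset_open hU hsub
  rw [thickening_closedBall hδ zero_le_one] at hδ'
  refine ⟨min (δ + 1) ρ, lt_min (by linarith) hρ, min_le_right _ _, fun u hu => ?_⟩
  exact (hδ' (ball_subset_ball (min_le_left _ _) hu)).2

theorem D_diff_right (e : Ext) {u : ℂ} (hu : u ∈ ball (0:ℂ) e.ρ) :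
    DifferentiableOn ℂ (fun w => D e u w) (ball 0 e.ρ) := by
  unfold D
  apply DifferentiableOn.sub (differentiableOn_const _)
  apply DifferentiableOn.mul
  · fun_prop
  · exact P_diff isOpen_ball e.hg hu

theorem D_diff_left (e : Ext) {w : ℂ} (hw : w ∈ ball (0:ℂ) e.ρ) :
    DifferentiableOn ℂ (fun u => D e u w) (ball 0 e.ρ) := by
  apply (D_diff_right e hw).congr
  intro x _
  exact D_comm e x w

theorem Nu_diff_right (e : Ext) {u : ℂ} (hu : u ∈ ball (0:ℂ) e.ρ) :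
    DifferentiableOn ℂ (fun w => Nu e u w) (ball 0 e.ρ) := by
  unfold Nu
  apply DifferentiableOn.mul
  · fun_prop
  · apply DifferentiableOn.add (differentiableOn_const _)
    apply DifferentiableOn.mul
    · fun_prop
    · exact Q_diff isOpen_ball e.hg hu

theorem Nu_diff_left (e : Ext) {w : ℂ} (hw : w ∈ ball (0:ℂ) e.ρ) :
    DifferentiableOn ℂ (fun u => Nu e u w) (ball 0 e.ρ) := by
  unfold Nu
  apply DifferentiableOn.mul
  · fun_prop
  · apply DifferentiableOn.add (e.hg.deriv isOpen_ball)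
    apply DifferentiableOn.mul
    · fun_prop
    · exact Q_diff_left isOpen_ball e.hg hw

theorem D_cont (e : Ext) {u w : ℂ} (hu : u ∈ ball (0:ℂ) e.ρ) (hw : w ∈ ball (0:ℂ) e.ρ) :
    ContinuousAt (fun p : ℂ × ℂ => D e p.1 p.2) (u, w) := by
  unfold D
  apply ContinuousAt.sub continuousAt_const
  apply ContinuousAt.mul
  · fun_prop
  · exact P_cont isOpen_ball e.hg u hu w hw

theorem Nu_cont (e : Ext) {u w : ℂ} (hu : u ∈ ball (0:ℂ) e.ρ) (hw : w ∈ ball (0:ℂ) e.ρ) :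
    ContinuousAt (fun p : ℂ × ℂ => Nu e p.1 p.2) (u, w) := by
  unfold Nu
  apply ContinuousAt.mul
  · fun_prop
  · apply ContinuousAt.add
    · exact ContinuousAt.comp (f := fun p : ℂ × ℂ => p.1) (g := deriv e.g) (x := (u, w))
        ((e.hg.deriv isOpen_ball).differentiableAt (isOpen_ball.mem_nhds hu)).continuousAt
        continuousAt_fst
    · apply ContinuousAt.mul
      · fun_prop
      · exact Q_cont isOpen_ball e.hg u hu w hw

/-- `2 Re (t/(t-s)) = 1` -/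
theorem two_re (t s : ℂ) (ht : ‖t‖ = 1) (hs : ‖s‖ = 1) (hts : t ≠ s) :
    2 * (t / (t - s)).re = 1 := by
  have h0 : t - s ≠ 0 := sub_ne_zero.mpr hts
  have h1 : Complex.normSq (t - s) ≠ 0 := by
    rw [Ne, Complex.normSq_eq_zero]; exact h0
  have ht2 : t.re * t.re + t.im * t.im = 1 := by
    have := Complex.normSq_eq_norm_sq t
    rw [ht, Complex.normSq_apply] at this
    linarith
  have hs2 : s.re * s.re + s.im * s.im = 1 := by
    have := Complex.normSq_eq_norm_sq s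
    rw [hs, Complex.normSq_apply] at this
    linarith
  rw [Complex.div_re]
  have h2 : Complex.normSq (t - s) = 2 - 2 * (t.re * s.re + t.im * s.im) := by
    rw [Complex.normSq_apply, Complex.sub_re, Complex.sub_im]
    nlinarith
  rw [← add_div, mul_div_assoc', div_eq_one_iff_eq h1, h2, Complex.sub_re, Complex.sub_im]
  nlinarith

end Kernelaux

open Kernelaux Filter Topology in
theorem kernel_exists (e : Ext) (he : e.Conv) : ∃ Lam : ℂ → ℂ → ℂ, IsKernel e Lam := by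
  have hB : ∀ u : ℂ, ‖u‖ ≤ 1 → u ∈ ball (0:ℂ) e.ρ := by
    intro u hu
    rw [mem_ball, dist_zero_right]
    exact lt_of_le_of_lt hu e.hρ
  have hinv : ∀ t : ℂ, ‖t‖ = 1 → ‖t⁻¹‖ = 1 := by
    intro t ht; rw [norm_inv, ht, inv_one]
  have hne0 : ∀ t : ℂ, ‖t‖ = 1 → t ≠ 0 := by
    rintro t ht rfl; simp at ht
  have hcontAt : ∀ t s : ℂ, ‖t‖ = 1 → ‖s‖ = 1 →
      ContinuousAt (fun p : ℂ × ℂ => Nu e p.1⁻¹ p.2⁻¹ / D e p.1⁻¹ p.2⁻¹) (t, s) := by
    intro t s ht hs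
    have h1 : ContinuousAt (fun p : ℂ × ℂ => Nu e p.1 p.2 / D e p.1 p.2) (t⁻¹, s⁻¹) :=
      (Nu_cont e (hB _ (hinv t ht).le) (hB _ (hinv s hs).le)).div
        (D_cont e (hB _ (hinv t ht).le) (hB _ (hinv s hs).le))
        (D_ne e he _ _ (hinv t ht).le (hinv s hs))
    have h2 : ContinuousAt (fun p : ℂ × ℂ => (p.1⁻¹, p.2⁻¹)) (t, s) := by
      apply ContinuousAt.prodMk
      · exact continuousAt_fst.inv₀ (hne0 t ht)
      · exact continuousAt_snd.inv₀ (hne0 s hs)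
    exact ContinuousAt.comp (f := fun p : ℂ × ℂ => (p.1⁻¹, p.2⁻¹))
      (g := fun p : ℂ × ℂ => Nu e p.1 p.2 / D e p.1 p.2) (x := (t, s)) h1 h2
  have heq : ∀ t s : ℂ, ‖t‖ = 1 → ‖s‖ = 1 → t ≠ s →
      Nu e t⁻¹ s⁻¹ / D e t⁻¹ s⁻¹ = t * e.dG t / (e.G t - e.G s) - t / (t - s) := by
    intro t s ht hs hts
    have ht0 := hne0 t ht
    have hs0 := hne0 s hs
    have hD := D_ne e he t⁻¹ s⁻¹ (hinv t ht).le (hinv s hs)
    have hts' : t - s ≠ 0 := sub_ne_zero.mpr hts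
    have h1 : t⁻¹ ≠ s⁻¹ := fun h => hts (inv_injective h)
    have h2 : s⁻¹ - t⁻¹ ≠ 0 := sub_ne_zero.mpr h1.symm
    rw [G_sub e t s ht0 hs0]
    -- `Nu = (t/(t-s)) (E - D)`
    have h3 : Nu e t⁻¹ s⁻¹ * (t - s) = t * (e.dG t - D e t⁻¹ s⁻¹) := by
      have h4 : (s⁻¹ - t⁻¹) * Q e.g t⁻¹ s⁻¹ = P e.g t⁻¹ s⁻¹ - deriv e.g t⁻¹ := by
        rw [Q_ne e.g h1, ← mul_assoc, mul_inv_cancel₀ h2, one_mul]
      have h5 : s⁻¹ * t⁻¹ * (t - s) = s⁻¹ - t⁻¹ := by
        field_simp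
      unfold Nu Ext.dG D
      calc s⁻¹ * t⁻¹ * (deriv e.g t⁻¹ + s⁻¹ * Q e.g t⁻¹ s⁻¹) * (t - s)
          = (s⁻¹ * t⁻¹ * (t - s)) * deriv e.g t⁻¹ +
            (s⁻¹ * t⁻¹ * (t - s)) * (s⁻¹ * Q e.g t⁻¹ s⁻¹) := by ring
        _ = (s⁻¹ - t⁻¹) * deriv e.g t⁻¹ + s⁻¹ * ((s⁻¹ - t⁻¹) * Q e.g t⁻¹ s⁻¹) := by
            rw [h5]; ring
        _ = (s⁻¹ - t⁻¹) * deriv e.g t⁻¹ + s⁻¹ * (P e.g t⁻¹ s⁻¹ - deriv e.g t⁻¹) := by rw [h4]
        _ = s⁻¹ * P e.g t⁻¹ s⁻¹ - t⁻¹ * deriv e.g t⁻¹ := by ring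
        _ = _ := by
            field_simp
            ring
    have h6 : Nu e t⁻¹ s⁻¹ = t * (e.dG t - D e t⁻¹ s⁻¹) / (t - s) := by
      rw [eq_div_iff hts', h3]
    rw [h6]
    generalize D e t⁻¹ s⁻¹ = Y at hD ⊢
    generalize e.dG t = Z
    field_simp
  have hne1 : ∀ t s : ℂ, ‖t‖ = 1 → ‖s‖ = 1 → t ≠ s →
      0 ≤ 1 + 2 * (Nu e t⁻¹ s⁻¹ / D e t⁻¹ s⁻¹).re := by
    intro t s ht hs hts
    rw [heq t s ht hs hts, Complex.sub_re, mul_sub, two_re t s ht hs hts]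
    have := he.pos t s ht hs hts
    linarith
  refine ⟨fun t s => Nu e t⁻¹ s⁻¹ / D e t⁻¹ s⁻¹, ?_, ?_, ?_, heq, ?_⟩
  · rintro ⟨t, s⟩ ⟨ht, hs⟩
    rw [mem_sphere, dist_zero_right] at ht hs
    exact (hcontAt t s ht hs).continuousWithinAt
  · intro s hs
    have hs' := hinv s hs
    obtain ⟨ρ', h1, h2, h3⟩ := exists_radius e.hρ (fun u => D e u s⁻¹)
      (D_diff_left e (hB _ hs'.le)).continuousOn (fun u hu => D_ne e he u s⁻¹ hu hs')
    refine ⟨ρ', fun u => Nu e u s⁻¹ / D e u s⁻¹, h1, ?_, ?_, fun t _ => rfl⟩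
    · exact ((Nu_diff_left e (hB _ hs'.le)).mono (ball_subset_ball h2)).div
        ((D_diff_left e (hB _ hs'.le)).mono (ball_subset_ball h2)) h3
    · simp [Nu]
  · intro t ht
    have ht' := hinv t ht
    obtain ⟨ρ', h1, h2, h3⟩ := exists_radius e.hρ (fun w => D e t⁻¹ w)
      (D_diff_right e (hB _ ht'.le)).continuousOn
      (fun w hw => by rw [D_comm]; exact D_ne e he w t⁻¹ hw ht')
    refine ⟨ρ', fun w => Nu e t⁻¹ w / D e t⁻¹ w, h1, ?_, ?_, fun s _ => rfl⟩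
    · exact ((Nu_diff_right e (hB _ ht'.le)).mono (ball_subset_ball h2)).div
        ((D_diff_right e (hB _ ht'.le)).mono (ball_subset_ball h2)) h3
    · simp [Nu]
  · intro t s ht hs
    by_cases hts : t = s
    swap
    · exact hne1 t s ht hs hts
    subst hts
    -- by continuity
    let γ : ℝ → ℂ := fun θ => t * Complex.exp (θ * Complex.I)
    have hγ : Continuous γ := by fun_prop
    have hγn : ∀ θ, ‖γ θ‖ = 1 := by
      intro θ
      simp only [γ]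
      rw [norm_mul, ht, Complex.norm_exp_ofReal_mul_I, mul_one]
    have hγ0 : γ 0 = t := by simp [γ]
    have hf : ContinuousAt (fun θ : ℝ => 1 + 2 * (Nu e t⁻¹ (γ θ)⁻¹ / D e t⁻¹ (γ θ)⁻¹).re) 0 := by
      have h1 : ContinuousAt (fun θ : ℝ => Nu e t⁻¹ (γ θ)⁻¹ / D e t⁻¹ (γ θ)⁻¹) 0 := by
        have h2 := hcontAt t (γ 0) ht (hγn 0)
        exact ContinuousAt.comp (f := fun θ : ℝ => (t, γ θ))
          (g := fun p : ℂ × ℂ => Nu e p.1⁻¹ p.2⁻¹ / D e p.1⁻¹ p.2⁻¹) (x := 0) h2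
          (by fun_prop)
      exact continuousAt_const.add (continuousAt_const.mul
        (Complex.continuous_re.continuousAt.comp h1))
    have hev : ∀ᶠ θ in 𝓝[≠] (0:ℝ), 0 ≤ 1 + 2 * (Nu e t⁻¹ (γ θ)⁻¹ / D e t⁻¹ (γ θ)⁻¹).re := by
      have h1 : ∀ᶠ θ in 𝓝[≠] (0:ℝ), θ ∈ ball (0:ℝ) 1 :=
        nhdsWithin_le_nhds (ball_mem_nhds 0 one_pos)
      filter_upwards [h1, self_mem_nhdsWithin] with θ hθ hθ0
      apply hne1 t (γ θ) ht (hγn θ)
      intro h2
      have h3 : Complex.exp (θ * Complex.I) = 1 := by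
        have h4 : t * Complex.exp (θ * Complex.I) = t * 1 := by rw [mul_one]; exact h2.symm
        exact mul_left_cancel₀ (hne0 t ht) h4
      rw [Complex.exp_eq_one_iff] at h3
      obtain ⟨n, hn⟩ := h3
      have h5 : (θ : ℂ) = n * (2 * Real.pi) := by
        have h6 : (θ : ℂ) * Complex.I = (n * (2 * Real.pi)) * Complex.I := by rw [hn]; ring
        exact mul_right_cancel₀ Complex.I_ne_zero h6
      have h6 : θ = n * (2 * Real.pi) := by exact_mod_cast h5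
      rw [mem_ball, dist_zero_right, Real.norm_eq_abs] at hθ
      by_cases hn0 : n = 0
      · rw [hn0] at h6
        simp at h6
        exact hθ0 h6
      · have h7 : (1:ℝ) ≤ |(n:ℝ)| := by
          have : 1 ≤ |n| := Int.one_le_abs hn0
          exact_mod_cast this
        rw [h6, abs_mul, abs_of_pos (by positivity : (0:ℝ) < 2 * Real.pi)] at hθ
        have h8 := Real.pi_gt_three
        nlinarith
    have hlim := hf.tendsto.mono_left (nhdsWithin_le_nhds (s := {0}ᶜ))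
    have h0 := ge_of_tendsto hlim hev
    rw [hγ0] at h0
    exact h0

end Crest.Agent.R132
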