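import Crest.Agent.R132.ExtAnBasic

/-!
# Piece PARSEVAL

`φ t = Φ t⁻¹ = ∑ Φ_n t⁻ⁿ`, uniformly convergent on the circle (radius of convergence `> 1`), so
`av (t^n φ) = Φ_n` and `avR ‖φ‖² = ∑ ‖Φ_n‖²`.  E.g. use the power series
(`DifferentiableOn.hasFPowerSeriesOnBall` / `Complex.hasSum_taylorSeries_on_ball`), absolute summability
`∑ ‖Φ_n‖ < ∞`, and termwise integration; or prove `avR ‖∑_{n≤N}‖² = ∑_{n≤N} ‖Φ_n‖²` and pass to the
uniform limit.
-/

set_option autoImplicit false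
open Metric Set

namespace Crest.Agent.R132

namespace Parsaux

open Filter Topology

theorem ne_zero_of {t : ℂ} (ht : ‖t‖ = 1) : t ≠ 0 := by
  rintro rfl; simp at ht

theorem conj_eq_inv {t : ℂ} (ht : ‖t‖ = 1) : (starRingEnd ℂ) t = t⁻¹ := by
  rw [Complex.inv_def, Complex.normSq_eq_norm_sq, ht]; simp

theorem cont_inv : ContinuousOn (fun t : ℂ => t⁻¹) (sphere 0 1) := by
  refine ContinuousOn.inv₀ continuousOn_id ?_
  intro t ht
  exact ne_zero_of (by simpa using ht)

theorem cont_pow (n : ℕ) : ContinuousOn (fun t : ℂ => t ^ n) (sphere 0 1) :=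
  (continuous_pow n).continuousOn

theorem cont_inv_pow (n : ℕ) : ContinuousOn (fun t : ℂ => (t⁻¹) ^ n) (sphere 0 1) :=
  cont_inv.pow n

theorem av_const (a : ℂ) : av (fun _ => a) = a := (ExtAn.const a).av_eq

theorem avR_const (a : ℝ) : avR (fun _ => a) = a := Real.circleAverage_const a 0 1

theorem av_inv_pow (n : ℕ) (hn : 1 ≤ n) : av (fun t => (t⁻¹) ^ n) = 0 := (ExtAn.inv_pow n hn).av_eq

theorem av_pow (n : ℕ) (hn : 1 ≤ n) : av (fun t => t ^ n) = 0 := by
  have h := av_conj (cont_inv_pow n)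
  rw [av_inv_pow n hn, map_zero] at h
  rw [← h]
  refine av_congr fun t ht => ?_
  rw [map_pow, map_inv₀, conj_eq_inv ht, inv_inv]

end Parsaux

open Parsaux

/-- orthogonality of the powers of `t` -/
theorem av_pow_mul_inv_pow (n k : ℕ) :
    av (fun t => t ^ n * (t⁻¹) ^ k) = if n = k then 1 else 0 := by
  rcases lt_trichotomy n k with h | h | h
  · rw [if_neg h.ne, ← av_inv_pow (k - n) (by omega)]
    refine av_congr fun t ht => ?_
    have h0 := ne_zero_of ht
    obtain ⟨j, rfl⟩ := Nat.exists_eq_add_of_lt h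
    rw [show n + j + 1 - n = j + 1 by omega, show n + j + 1 = n + (j + 1) by omega, pow_add t⁻¹,
      ← mul_assoc, ← mul_pow, mul_inv_cancel₀ h0, one_pow, one_mul]
  · subst h
    rw [if_pos rfl, ← av_const 1]
    refine av_congr fun t ht => ?_
    rw [← mul_pow, mul_inv_cancel₀ (ne_zero_of ht), one_pow]
  · rw [if_neg h.ne', ← av_pow (n - k) (by omega)]
    refine av_congr fun t ht => ?_
    have h0 := ne_zero_of ht
    obtain ⟨j, rfl⟩ := Nat.exists_eq_add_of_lt h
    rw [show k + j + 1 - k = j + 1 by omega, show k + j + 1 = (j + 1) + k by omega, pow_add t,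
      mul_assoc, ← mul_pow, mul_inv_cancel₀ h0, one_pow, mul_one]

/-- norm of a polynomial in `t` -/
theorem avR_norm_sq_poly (N : ℕ) (w : ℕ → ℂ) :
    avR (fun t => ‖∑ n ∈ Finset.range (N + 1), w n * t ^ n‖ ^ 2)
      = ∑ n ∈ Finset.range (N + 1), ‖w n‖ ^ 2 := by
  have h1 : avR (fun t => ‖∑ n ∈ Finset.range (N + 1), w n * t ^ n‖ ^ 2) =
      avR (fun t => (∑ n ∈ Finset.range (N + 1), ∑ k ∈ Finset.range (N + 1),
        (w n * (starRingEnd ℂ) (w k)) * (t ^ n * (t⁻¹) ^ k)).re) := by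
    refine avR_congr fun t ht => ?_
    have e : (∑ n ∈ Finset.range (N + 1), ∑ k ∈ Finset.range (N + 1),
        (w n * (starRingEnd ℂ) (w k)) * (t ^ n * (t⁻¹) ^ k)) =
        (∑ n ∈ Finset.range (N + 1), w n * t ^ n) *
          (starRingEnd ℂ) (∑ n ∈ Finset.range (N + 1), w n * t ^ n) := by
      rw [map_sum, Finset.sum_mul_sum]
      refine Finset.sum_congr rfl fun n _ => Finset.sum_congr rfl fun k _ => ?_
      rw [map_mul, map_pow, conj_eq_inv ht]
      ring
    rw [e, Complex.mul_conj, Complex.ofReal_re, Complex.normSq_eq_norm_sq]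
  have hc : ∀ n k : ℕ, ContinuousOn
      (fun t : ℂ => (w n * (starRingEnd ℂ) (w k)) * (t ^ n * (t⁻¹) ^ k)) (sphere 0 1) :=
    fun n k => continuousOn_const.mul ((cont_pow n).mul (cont_inv_pow k))
  rw [h1, avR_re (continuousOn_finsetSum _ fun n _ => continuousOn_finsetSum _ fun k _ => hc n k),
    av_sum _ _ (fun n _ => continuousOn_finsetSum _ fun k _ => hc n k), Complex.re_sum]
  refine Finset.sum_congr rfl fun n hn => ?_
  rw [av_sum _ _ (fun k _ => hc n k)]
  simp only [av_const_mul, av_pow_mul_inv_pow]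
  rw [Finset.sum_eq_single n]
  · rw [if_pos rfl, mul_one, Complex.mul_conj, Complex.ofReal_re, Complex.normSq_eq_norm_sq]
  · intro k _ hk
    rw [if_neg (Ne.symm hk), mul_zero]
  · intro h; exact absurd hn h

/-- orthogonal sum of a polynomial in `t` and an exterior function vanishing at infinity -/
theorem avR_norm_sq_add (N : ℕ) (w : ℕ → ℂ) {φ : ℂ → ℂ} (h : ExtAn φ 0) :
    avR (fun t => ‖∑ n ∈ Finset.range (N + 1), w n * t ^ n + φ t‖ ^ 2)
      = ∑ n ∈ Finset.range (N + 1), ‖w n‖ ^ 2 + avR (fun t => ‖φ t‖ ^ 2) := by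
  have hP : ContinuousOn (fun t : ℂ => ∑ n ∈ Finset.range (N + 1), w n * t ^ n) (sphere 0 1) :=
    continuousOn_finsetSum _ fun n _ => continuousOn_const.mul (cont_pow n)
  have hφ := h.continuousOn
  have hcross : ContinuousOn (fun t : ℂ => ∑ n ∈ Finset.range (N + 1),
      (starRingEnd ℂ) (w n) * ((t⁻¹) ^ n * φ t)) (sphere 0 1) :=
    continuousOn_finsetSum _ fun n _ => continuousOn_const.mul ((cont_inv_pow n).mul hφ)
  have h1 : avR (fun t => ‖∑ n ∈ Finset.range (N + 1), w n * t ^ n + φ t‖ ^ 2) =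
      avR (fun t => (‖∑ n ∈ Finset.range (N + 1), w n * t ^ n‖ ^ 2 + ‖φ t‖ ^ 2) +
        2 * (∑ n ∈ Finset.range (N + 1),
          (starRingEnd ℂ) (w n) * ((t⁻¹) ^ n * φ t)).re) := by
    refine avR_congr fun t ht => ?_
    have e : (∑ n ∈ Finset.range (N + 1), (starRingEnd ℂ) (w n) * ((t⁻¹) ^ n * φ t)) =
        (starRingEnd ℂ) (∑ n ∈ Finset.range (N + 1), w n * t ^ n) * φ t := by
      rw [map_sum, Finset.sum_mul]
      refine Finset.sum_congr rfl fun n _ => ?_
      rw [map_mul, map_pow, conj_eq_inv ht]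
      ring
    rw [e]
    have e2 := Complex.normSq_add (∑ n ∈ Finset.range (N + 1), w n * t ^ n) (φ t)
    simp only [Complex.normSq_eq_norm_sq] at e2
    rw [e2]
    have e3 : ((∑ n ∈ Finset.range (N + 1), w n * t ^ n) * (starRingEnd ℂ) (φ t)).re =
        ((starRingEnd ℂ) (∑ n ∈ Finset.range (N + 1), w n * t ^ n) * φ t).re := by
      rw [← Complex.conj_re ((∑ n ∈ Finset.range (N + 1), w n * t ^ n) * (starRingEnd ℂ) (φ t)),
        map_mul, Complex.conj_conj]
    rw [e3]
  have c1 : ContinuousOn (fun t : ℂ => ‖∑ n ∈ Finset.range (N + 1), w n * t ^ n‖ ^ 2)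
      (sphere 0 1) := hP.norm.pow 2
  have c2 : ContinuousOn (fun t : ℂ => ‖φ t‖ ^ 2) (sphere 0 1) := hφ.norm.pow 2
  have c3 : ContinuousOn (fun t : ℂ => (∑ n ∈ Finset.range (N + 1),
      (starRingEnd ℂ) (w n) * ((t⁻¹) ^ n * φ t)).re) (sphere 0 1) :=
    Complex.continuous_re.comp_continuousOn hcross
  have c4 : ContinuousOn (fun t : ℂ => 2 * (∑ n ∈ Finset.range (N + 1),
      (starRingEnd ℂ) (w n) * ((t⁻¹) ^ n * φ t)).re) (sphere 0 1) := continuousOn_const.mul c3
  have c5 : ContinuousOn (fun t : ℂ => ‖∑ n ∈ Finset.range (N + 1), w n * t ^ n‖ ^ 2 + ‖φ t‖ ^ 2)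
      (sphere 0 1) := c1.add c2
  have c6 : ∀ n ∈ Finset.range (N + 1), ContinuousOn
      (fun t : ℂ => (starRingEnd ℂ) (w n) * ((t⁻¹) ^ n * φ t)) (sphere 0 1) :=
    fun n _ => continuousOn_const.mul ((cont_inv_pow n).mul hφ)
  rw [h1, avR_add c5 c4, avR_add c1 c2, avR_norm_sq_poly,
    avR_const_mul, avR_re hcross, av_sum _ _ c6]
  have h2 : ∀ n ∈ Finset.range (N + 1),
      av (fun t => (starRingEnd ℂ) (w n) * ((t⁻¹) ^ n * φ t)) = 0 := by
    intro n _
    rw [av_const_mul]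
    have h3 : av (fun t => (t⁻¹) ^ n * φ t) = 0 := by
      rcases Nat.eq_zero_or_pos n with rfl | hn
      · rw [← h.av_eq]
        exact av_congr fun t _ => by simp
      · have := ((ExtAn.inv_pow n hn).mul h).av_eq
        simpa using this
    rw [h3, mul_zero]
  rw [Finset.sum_eq_zero h2]
  simp

open Filter Topology in
theorem parseval {φ : ℂ → ℂ} {a : ℂ} (h : ExtAn φ a) :
    HasSum (fun n : ℕ => ‖av (fun t => t ^ n * φ t)‖ ^ 2) (avR fun t => ‖φ t‖ ^ 2) := by
  have hφ := h.continuousOn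
  obtain ⟨ρ, Φ, hρ, hΦ, -, hΦφ⟩ := h
  -- power series
  obtain ⟨R, hR1, hRρ⟩ := exists_between hρ
  have hR0 : 0 < R := by linarith
  set R' : NNReal := ⟨R, hR0.le⟩ with hR'
  have hd : DifferentiableOn ℂ Φ (closedBall 0 (R' : ℝ)) :=
    hΦ.mono (closedBall_subset_ball hRρ)
  have hps := hd.hasFPowerSeriesOnBall (by exact_mod_cast hR0 : 0 < R')
  set p := cauchyPowerSeries Φ 0 R' with hp
  have hrad : ((1 : NNReal) : ENNReal) < p.radius :=
    lt_of_lt_of_le (by exact_mod_cast hR1) hps.r_le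
  have hsum : Summable fun n => ‖p n‖ := by
    have := p.summable_norm_mul_pow hrad
    simpa using this
  set c : ℕ → ℂ := fun n => p.coeff n with hc
  have hcn : ∀ n, ‖c n‖ ≤ ‖p n‖ := by
    intro n
    refine ((p n).le_opNorm _).trans ?_
    simp
  have hcs : Summable fun n => ‖c n‖ := Summable.of_nonneg_of_le (fun n => norm_nonneg _) hcn hsum
  have hser : ∀ z : ℂ, ‖z‖ ≤ 1 → HasSum (fun n => c n * z ^ n) (Φ z) := by
    intro z hz
    have hz' : z ∈ Metric.eball (0 : ℂ) (R' : ENNReal) := by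
      rw [Metric.mem_eball, edist_zero_right, enorm_lt_coe]
      have : ‖z‖ < R := lt_of_le_of_lt hz hR1
      exact_mod_cast this
    have := hps.hasSum hz'
    rw [zero_add] at this
    have e : (fun n => c n * z ^ n) = fun n => (p n) fun _ => z := by
      funext n
      rw [FormalMultilinearSeries.apply_eq_pow_smul_coeff, smul_eq_mul, mul_comm]
    rw [e]
    exact this
  -- partial sums
  have htail : Tendsto (fun N => ∑' n, ‖c (n + N)‖) atTop (𝓝 0) :=
    tendsto_sum_nat_add (fun n => ‖c n‖)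
  have hrem : ∀ (N : ℕ) (t : ℂ), ‖t‖ = 1 →
      ‖φ t - ∑ n ∈ Finset.range N, c n * (t⁻¹) ^ n‖ ≤ ∑' n, ‖c (n + N)‖ := by
    intro N t ht
    have ht' : ‖t⁻¹‖ ≤ 1 := by rw [norm_inv, ht, inv_one]
    have h1 := (hasSum_nat_add_iff' N).2 (hser t⁻¹ ht')
    rw [hΦφ t ht, ← h1.tsum_eq]
    have hs : Summable fun n => ‖c (n + N)‖ := (summable_nat_add_iff N).2 hcs
    have hle : ∀ n, ‖c (n + N) * (t⁻¹) ^ (n + N)‖ ≤ ‖c (n + N)‖ := by
      intro n
      rw [norm_mul, norm_pow, norm_inv, ht, inv_one, one_pow, mul_one]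
    exact tsum_of_norm_bounded hs.hasSum hle
  have hpc : ∀ N : ℕ, ContinuousOn (fun t : ℂ => ∑ n ∈ Finset.range N, c n * (t⁻¹) ^ n)
      (sphere 0 1) := fun N =>
    continuousOn_finsetSum _ fun n _ => continuousOn_const.mul (cont_inv_pow n)
  -- coefficients
  have hcoef : ∀ k, av (fun t => t ^ k * φ t) = c k := by
    intro k
    have hb : ∀ N, k < N → ‖av (fun t => t ^ k * φ t) - c k‖ ≤ ∑' n, ‖c (n + N)‖ := by
      intro N hkN
      have e1 : av (fun t => t ^ k * ∑ n ∈ Finset.range N, c n * (t⁻¹) ^ n) = c k := by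
        have : av (fun t => t ^ k * ∑ n ∈ Finset.range N, c n * (t⁻¹) ^ n) =
            av (fun t => ∑ n ∈ Finset.range N, c n * (t ^ k * (t⁻¹) ^ n)) := by
          refine av_congr fun t _ => ?_
          rw [Finset.mul_sum]
          exact Finset.sum_congr rfl fun n _ => by ring
        have c7 : ∀ n ∈ Finset.range N, ContinuousOn
            (fun t : ℂ => c n * (t ^ k * (t⁻¹) ^ n)) (sphere 0 1) :=
          fun n _ => continuousOn_const.mul ((cont_pow k).mul (cont_inv_pow n))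
        rw [this, av_sum _ _ c7]
        simp only [av_const_mul, av_pow_mul_inv_pow]
        rw [Finset.sum_eq_single k]
        · simp
        · intro n _ hn; rw [if_neg (Ne.symm hn), mul_zero]
        · intro hk; exact absurd (Finset.mem_range.2 hkN) hk
      have c1 : ContinuousOn (fun t : ℂ => t ^ k * φ t) (sphere 0 1) := (cont_pow k).mul hφ
      have c2 : ContinuousOn (fun t : ℂ => t ^ k * ∑ n ∈ Finset.range N, c n * (t⁻¹) ^ n)
          (sphere 0 1) := (cont_pow k).mul (hpc N)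
      rw [← e1, ← av_sub c1 c2]
      refine (norm_av_le (c1.sub c2)).trans ?_
      refine (avR_mono (c1.sub c2).norm continuousOn_const (ψ := fun _ => ∑' n, ‖c (n + N)‖)
        fun t ht => ?_).trans_eq (avR_const _)
      show ‖t ^ k * φ t - t ^ k * ∑ n ∈ Finset.range N, c n * (t⁻¹) ^ n‖ ≤ _
      rw [← mul_sub, norm_mul, norm_pow, ht, one_pow, one_mul]
      exact hrem N t ht
    have h0 : ‖av (fun t => t ^ k * φ t) - c k‖ ≤ 0 := by
      refine ge_of_tendsto htail ?_
      filter_upwards [eventually_gt_atTop k] with N hN using hb N hN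
    exact sub_eq_zero.1 (norm_le_zero_iff.1 h0)
  simp only [hcoef]
  rw [hasSum_iff_tendsto_nat_of_nonneg (fun n => by positivity)]
  -- norms of partial sums
  have hnorm : ∀ N : ℕ, avR (fun t => ‖∑ n ∈ Finset.range N, c n * (t⁻¹) ^ n‖ ^ 2) =
      ∑ n ∈ Finset.range N, ‖c n‖ ^ 2 := by
    intro N
    rcases N with _ | N
    · simpa using avR_const 0
    · have := avR_norm_sq_poly N (fun n => (starRingEnd ℂ) (c n))
      simp only [RCLike.norm_conj] at this
      rw [← this]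
      refine avR_congr fun t ht => ?_
      have e : (∑ n ∈ Finset.range (N + 1), (starRingEnd ℂ) (c n) * t ^ n) =
          (starRingEnd ℂ) (∑ n ∈ Finset.range (N + 1), c n * (t⁻¹) ^ n) := by
        rw [map_sum]
        refine Finset.sum_congr rfl fun n _ => ?_
        rw [map_mul, map_pow, map_inv₀, conj_eq_inv ht, inv_inv]
      rw [e, RCLike.norm_conj]
  set M : ℝ := ∑' n, ‖c n‖ with hM
  have hM0 : 0 ≤ M := tsum_nonneg fun n => norm_nonneg _
  have hφM : ∀ t : ℂ, ‖t‖ = 1 → ‖φ t‖ ≤ M := by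
    intro t ht
    have := hrem 0 t ht
    simpa using this
  have hPM : ∀ (N : ℕ) (t : ℂ), ‖t‖ = 1 → ‖∑ n ∈ Finset.range N, c n * (t⁻¹) ^ n‖ ≤ M := by
    intro N t ht
    refine (norm_sum_le _ _).trans ?_
    refine (Finset.sum_le_sum (g := fun n => ‖c n‖) fun n _ => ?_).trans
      (hcs.sum_le_tsum _ fun n _ => norm_nonneg _)
    rw [norm_mul, norm_pow, norm_inv, ht, inv_one, one_pow, mul_one]
  have hdiff : ∀ N : ℕ, |(∑ n ∈ Finset.range N, ‖c n‖ ^ 2) - avR (fun t => ‖φ t‖ ^ 2)| ≤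
      2 * M * ∑' n, ‖c (n + N)‖ := by
    intro N
    rw [← hnorm N]
    have c1 : ContinuousOn (fun t : ℂ => ‖∑ n ∈ Finset.range N, c n * (t⁻¹) ^ n‖ ^ 2)
      (sphere 0 1) := (hpc N).norm.pow 2
    have c2 : ContinuousOn (fun t : ℂ => ‖φ t‖ ^ 2) (sphere 0 1) := hφ.norm.pow 2
    set ε := ∑' n, ‖c (n + N)‖ with hε
    have hpt : ∀ t : ℂ, ‖t‖ = 1 →
        |‖∑ n ∈ Finset.range N, c n * (t⁻¹) ^ n‖ ^ 2 - ‖φ t‖ ^ 2| ≤ 2 * M * ε := by
      intro t ht
      rw [sq_sub_sq, abs_mul]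
      have h1 := hφM t ht
      have h2 := hPM N t ht
      have h3 := hrem N t ht
      have h4 : |‖∑ n ∈ Finset.range N, c n * (t⁻¹) ^ n‖ - ‖φ t‖| ≤ ε :=
        (abs_norm_sub_norm_le _ _).trans (by rw [norm_sub_rev]; exact h3)
      have h5 : |‖∑ n ∈ Finset.range N, c n * (t⁻¹) ^ n‖ + ‖φ t‖| ≤ 2 * M := by
        rw [abs_of_nonneg (by positivity)]; linarith
      exact mul_le_mul h5 h4 (abs_nonneg _) (by positivity)
    rw [abs_le]
    constructor
    · have := avR_mono (ψ := fun t => ‖∑ n ∈ Finset.range N, c n * (t⁻¹) ^ n‖ ^ 2 + 2 * M * ε)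
        c2 (c1.add continuousOn_const) fun t ht => by
          have := (abs_le.1 (hpt t ht)).1
          linarith
      rw [avR_add c1 continuousOn_const, avR_const] at this
      linarith
    · have := avR_mono (ψ := fun t => ‖φ t‖ ^ 2 + 2 * M * ε)
        c1 (c2.add continuousOn_const) fun t ht => by
          have := (abs_le.1 (hpt t ht)).2
          linarith
      rw [avR_add c2 continuousOn_const, avR_const] at this
      linarith
  rw [tendsto_iff_norm_sub_tendsto_zero]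
  refine squeeze_zero (fun N => norm_nonneg _) (fun N => ?_)
    (show Tendsto (fun N => 2 * M * ∑' n, ‖c (n + N)‖) atTop (𝓝 0) by
      simpa using htail.const_mul (2 * M))
  rw [Real.norm_eq_abs]
  exact hdiff N

end Crest.Agent.R132
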