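import Crest.Agent.R132.Kernel
import Crest.Agent.R132.Curve
import Crest.Agent.R132.Parseval

/-!
# Piece KERNELID : reproducing identity

Let `a(t) = p(G t) = w₊(t) + e(t)`, `w₊ = ∑_{n ≤ N} w_n tⁿ`, `e(t) = t⁻¹ q(t⁻¹)` (on the circle).  Fix `s` on the circle.
(1) `av_t [ (a(t) - a(s)) * t G'(t)/(G t - G s) ] = 0`: `(p(z) - p(ζ))/(z - ζ)` is a polynomial in `z`
    (e.g. `Polynomial.divX`/`Polynomial.dvd_eval_sub`/`p - C (p.eval ζ) = (X - C ζ) * r`), and `curve_zero` with `V = univ`.
    (The functions agree except at `t = s`; a single point does not change the average; or define the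
    integrand through the polynomial.)
(2) `t G'(t)/(G t - G s) = t/(t-s) + Λ(t,s)`.
(3) `av_t [(a(t) - a(s)) Λ(t,s)] = av_t [w₊(t) Λ(t,s)] = av_t [w_{>0}(t) Λ(t,s)]`, since `Λ(·,s)` and `e Λ(·,s)` are
    exterior analytic and vanish at infinity.
(4) `av_t [(a(t) - a(s)) t/(t-s)] = - e(s)`:  for `tⁿ`: `(tⁿ - sⁿ) t/(t-s) = ∑_{j=1}^n t^j s^{n-j}` has mean 0; for `e(t) = η(t⁻¹)`,
    `η(u) = u q(u)`: with `u = t⁻¹, w = s⁻¹`, `t/(t-s) = w/(w-u)`, so the function is `- w * (dslope η w) u`, exterior analytic,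
    with value `- w (η(0) - η(w))/(0 - w) = η 0 - η w = - e(s)` at infinity.
-/

set_option autoImplicit false
open Metric Set

namespace Crest.Agent.R132

/-- mean of a polynomial in `t` without constant term -/
theorem kid_av_pow_succ (j : ℕ) : av (fun t : ℂ => t ^ (j + 1)) = 0 := by
  have h := av_pow_mul_inv_pow (j + 1) 0
  rw [if_neg (Nat.succ_ne_zero j)] at h
  rw [← h]
  exact av_congr fun t _ => by simp

theorem kernel_id (e : Ext) (Lam : ℂ → ℂ → ℂ) (hL : IsKernel e Lam) (N : ℕ) (w : ℕ → ℂ)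
    (p : Polynomial ℂ) (q : ℂ → ℂ) (hq : DifferentiableOn ℂ q (ball 0 e.ρ))
    (hp : ∀ t : ℂ, t ≠ 0 → ‖t⁻¹‖ < e.ρ →
      p.eval (e.G t) = (∑ n ∈ Finset.range (N + 1), w n * t ^ n) + t⁻¹ * q t⁻¹)
    (hinj : ∀ t s : ℂ, ‖t‖ = 1 → ‖s‖ = 1 → t ≠ s → e.G t ≠ e.G s)
    (s : ℂ) (hs : ‖s‖ = 1) :
    s⁻¹ * q s⁻¹ = av (fun t => (∑ n ∈ Finset.Icc 1 N, w n * t ^ n) * Lam t s) := by
  have hs0 : s ≠ 0 := by rintro rfl; simp at hs
  have hsi : ‖s⁻¹‖ = 1 := by rw [norm_inv, hs, inv_one]
  have hρ := e.hρ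
  -- the polynomial quotient
  obtain ⟨r, hr⟩ : ∃ r : Polynomial ℂ, p - Polynomial.C (p.eval (e.G s)) =
      (Polynomial.X - Polynomial.C (e.G s)) * r := by
    have : (Polynomial.X - Polynomial.C (e.G s)) ∣ (p - Polynomial.C (p.eval (e.G s))) := by
      rw [Polynomial.dvd_iff_isRoot]
      simp [Polynomial.IsRoot]
    exact this
  have hr' : ∀ z, p.eval z - p.eval (e.G s) = (z - e.G s) * r.eval z := by
    intro z
    have := congrArg (Polynomial.eval z) hr
    simpa using this
  -- (1)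
  have h1 : av (fun t => t * e.dG t * r.eval (e.G t)) = 0 :=
    curve_zero e Set.univ isOpen_univ convex_univ (fun _ _ => Set.mem_univ _)
      (fun z => r.eval z) r.differentiable.differentiableOn
  -- continuity facts
  have cid : ContinuousOn (fun t : ℂ => t) (sphere 0 1) := continuousOn_id
  have cG : ContinuousOn e.G (sphere 0 1) := e.continuousOn_G
  have cL : ContinuousOn (fun t => Lam t s) (sphere 0 1) := (hL.ext_left s hs).continuousOn
  have cpos : ContinuousOn (fun t : ℂ => ∑ n ∈ Finset.Icc 1 N, w n * t ^ n) (sphere 0 1) :=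
    (Continuous.continuousOn (by fun_prop))
  -- the function `η`
  set η : ℂ → ℂ := fun u => u * q u with hη
  have hηd : DifferentiableOn ℂ η (ball 0 e.ρ) := differentiableOn_id.mul hq
  have hmem : ball (0 : ℂ) e.ρ ∈ nhds s⁻¹ := by
    refine isOpen_ball.mem_nhds ?_
    rw [mem_ball_zero_iff, hsi]
    exact hρ
  have hds : DifferentiableOn ℂ (dslope η s⁻¹) (ball 0 e.ρ) :=
    (Complex.differentiableOn_dslope hmem).2 hηd
  have hval0 : -s⁻¹ * dslope η s⁻¹ 0 = - (s⁻¹ * q s⁻¹) := by
    rw [dslope_of_ne _ (inv_ne_zero hs0).symm, slope_def_field]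
    simp only [hη, zero_mul, zero_sub]
    field_simp
  have hE2 : ExtAn (fun t => -s⁻¹ * dslope η s⁻¹ t⁻¹) (-(s⁻¹ * q s⁻¹)) := by
    refine ⟨e.ρ, fun u => -s⁻¹ * dslope η s⁻¹ u, hρ, hds.const_mul _, hval0, fun t _ => rfl⟩
  -- the three pieces
  set A : ℂ → ℂ := fun t => (∑ n ∈ Finset.Icc 1 N, w n * t ^ n) * Lam t s with hA
  set B : ℂ → ℂ := fun t => (w 0 - p.eval (e.G s)) * Lam t s with hB
  set C : ℂ → ℂ := fun t => (t⁻¹ * q t⁻¹) * Lam t s with hC
  set D : ℂ → ℂ := fun t => ∑ n ∈ Finset.range (N + 1), ∑ j ∈ Finset.range n,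
    (w n * s ^ (n - 1 - j)) * t ^ (j + 1) with hD
  set E' : ℂ → ℂ := fun t => -s⁻¹ * dslope η s⁻¹ t⁻¹ with hE'
  have hCext : ExtAn C 0 := by
    have := (ExtAn.inv_mul e.ρ hρ q hq).mul (hL.ext_left s hs)
    simpa using this
  have cA : ContinuousOn A (sphere 0 1) := cpos.mul cL
  have cB : ContinuousOn B (sphere 0 1) := continuousOn_const.mul cL
  have cC : ContinuousOn C (sphere 0 1) := hCext.continuousOn
  have cD : ContinuousOn D (sphere 0 1) := (Continuous.continuousOn (by fun_prop))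
  have cE : ContinuousOn E' (sphere 0 1) := hE2.continuousOn
  have avB : av B = 0 := by
    rw [hB, av_const_mul, (hL.ext_left s hs).av_eq, mul_zero]
  have avC : av C = 0 := hCext.av_eq
  have avE : av E' = -(s⁻¹ * q s⁻¹) := hE2.av_eq
  have avD : av D = 0 := by
    rw [hD, av_sum]
    · refine Finset.sum_eq_zero fun n _ => ?_
      rw [av_sum]
      · refine Finset.sum_eq_zero fun j _ => ?_
        rw [av_const_mul, kid_av_pow_succ, mul_zero]
      · intro j _
        exact (Continuous.continuousOn (by fun_prop))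
    · intro n _
      exact (Continuous.continuousOn (by fun_prop))
  -- (2) the identity off `s`
  have key : ∀ t : ℂ, ‖t‖ = 1 → t ≠ s →
      t * e.dG t * r.eval (e.G t) = A t + B t + C t + D t + E' t := by
    intro t ht hts
    have ht0 : t ≠ 0 := by rintro rfl; simp at ht
    have hti : ‖t⁻¹‖ = 1 := by rw [norm_inv, ht, inv_one]
    have hG : e.G t - e.G s ≠ 0 := sub_ne_zero.2 (hinj t s ht hs hts)
    have hts' : t - s ≠ 0 := sub_ne_zero.2 hts
    have hLe := hL.eq t s ht hs hts
    have e1 : t * e.dG t * r.eval (e.G t) =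
        (p.eval (e.G t) - p.eval (e.G s)) * (Lam t s + t / (t - s)) := by
      rw [hr', hLe]
      field_simp
      ring
    have hpt := hp t ht0 (by rw [hti]; exact hρ)
    have hps := hp s hs0 (by rw [hsi]; exact hρ)
    have hsplit : ∀ x : ℂ, (∑ n ∈ Finset.range (N + 1), w n * x ^ n) =
        w 0 + ∑ n ∈ Finset.Icc 1 N, w n * x ^ n := by
      intro x
      rw [Finset.range_eq_Ico, Finset.sum_eq_sum_Ico_succ_bot (Nat.succ_pos N)]
      simp only [pow_zero, mul_one]
      congr 1
    have hDt : (∑ n ∈ Finset.range (N + 1), w n * t ^ n -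
        ∑ n ∈ Finset.range (N + 1), w n * s ^ n) * (t / (t - s)) = D t := by
      rw [← Finset.sum_sub_distrib, Finset.sum_mul, hD]
      refine Finset.sum_congr rfl fun n _ => ?_
      have hg := (Commute.all t s).geom_sum₂_mul n
      have : (w n * t ^ n - w n * s ^ n) * (t / (t - s)) =
          w n * t * ((t ^ n - s ^ n) / (t - s)) := by
        field_simp
      rw [this, ← hg, mul_div_cancel_right₀ _ hts', Finset.mul_sum]
      refine Finset.sum_congr rfl fun j _ => ?_
      ring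
    have hEt : (t⁻¹ * q t⁻¹ - s⁻¹ * q s⁻¹) * (t / (t - s)) = E' t := by
      have hne : t⁻¹ ≠ s⁻¹ := fun h => hts (inv_injective h)
      have hne' : t⁻¹ - s⁻¹ ≠ 0 := sub_ne_zero.2 hne
      rw [hE']
      simp only
      rw [dslope_of_ne _ hne, slope_def_field]
      have h3 : t / (t - s) = -s⁻¹ / (t⁻¹ - s⁻¹) := by
        rw [div_eq_div_iff hts' hne']
        field_simp
        ring
      rw [h3]
      simp only [hη]
      ring
    rw [e1, mul_add, hpt, hps]
    have e2 : (∑ n ∈ Finset.range (N + 1), w n * t ^ n + t⁻¹ * q t⁻¹ -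
        (∑ n ∈ Finset.range (N + 1), w n * s ^ n + s⁻¹ * q s⁻¹)) * (t / (t - s)) = D t + E' t := by
      rw [← hDt, ← hEt]; ring
    have e3 : (∑ n ∈ Finset.range (N + 1), w n * t ^ n + t⁻¹ * q t⁻¹ -
        (∑ n ∈ Finset.range (N + 1), w n * s ^ n + s⁻¹ * q s⁻¹)) * Lam t s =
        A t + B t + C t := by
      rw [← hps, hsplit t, hA, hB, hC]
      ring
    rw [e2, e3]
    ring
  -- conclusion
  have h2 : av (fun t => t * e.dG t * r.eval (e.G t)) =
      av (fun t => A t + B t + C t + D t + E' t) := by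
    refine Real.circleAverage_congr_codiscreteWithin ?_ one_ne_zero
    have h3 : ({s}ᶜ : Set ℂ) ∈ Filter.codiscreteWithin (sphere (0 : ℂ) |(1 : ℝ)|) :=
      compl_singleton_mem_codiscreteWithin s
    filter_upwards [h3, Filter.self_mem_codiscreteWithin (sphere (0 : ℂ) |(1 : ℝ)|)] with t ht1 ht2
    refine key t ?_ ht1
    rw [abs_one] at ht2
    simpa using ht2
  rw [h1] at h2
  have h4 : av (fun t => A t + B t + C t + D t + E' t) = av A + av B + av C + av D + av E' := by
    have g1 : av (fun t => A t + B t) = av A + av B := av_add cA cB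
    have g2 : av (fun t => (A t + B t) + C t) = av (fun t => A t + B t) + av C :=
      av_add (cA.add cB) cC
    have g3 : av (fun t => (A t + B t + C t) + D t) = av (fun t => A t + B t + C t) + av D :=
      av_add ((cA.add cB).add cC) cD
    have g4 : av (fun t => (A t + B t + C t + D t) + E' t) =
        av (fun t => A t + B t + C t + D t) + av E' :=
      av_add (((cA.add cB).add cC).add cD) cE
    rw [g4, g3, g2, g1]
  rw [h4, avB, avC, avD, avE] at h2
  linear_combination h2

end Crest.Agent.R132
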