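import Crest.Agent.R132.KernelId

/-!
# Piece L2BOUND : the key inequality `∫ |w(G)|² ≤ 2 ∑|w_n|² - |w_0|²`

Let `k(t,s) = 1 + 2 Re Λ(t,s) ≥ 0`, `φ(t) = ∑_{1≤n≤N} w_n tⁿ`, `ε(s) = s⁻¹ q(s⁻¹)`.
`av_t [φ(t) conj Λ(t,s)] = 0` (`conj` of: `conj φ` is a polynomial in `t⁻¹` without constant term on the circle, so
`conj φ * Λ` is exterior analytic vanishing at infinity) and `av φ = 0`, so `kernel_id` gives
`ε(s) = av_t [φ(t) k(t,s)]`.  Cauchy-Schwarz with `av_t k(t,s) = 1`: `|ε(s)|² ≤ av_t [|φ(t)|² k(t,s)]`.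
Average over `s`, swap (continuous function on the torus), `av_s k(t,s) = 1` (`ext_right`):
`avR |ε|² ≤ avR |φ|² = ∑_{n≥1} |w_n|²`.  Finally `avR |w₊ + ε|² = ∑_{n≥0}|w_n|² + avR |ε|²` (`avR_norm_sq_add`).
-/

set_option autoImplicit false
open Metric Set

namespace Crest.Agent.R132

namespace L2Aux

theorem mem_sph {t : ℂ} : t ∈ sphere (0 : ℂ) 1 ↔ ‖t‖ = 1 := by simp

theorem cm_mem (θ : ℝ) : circleMap 0 1 θ ∈ sphere (0 : ℂ) 1 := by
  exact circleMap_mem_sphere 0 zero_le_one θ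

theorem cont_torus {F : ℂ → ℂ → ℝ}
    (hF : ContinuousOn (fun p : ℂ × ℂ => F p.1 p.2) (sphere 0 1 ×ˢ sphere 0 1)) :
    Continuous (fun p : ℝ × ℝ => F (circleMap 0 1 p.1) (circleMap 0 1 p.2)) := by
  have h : Continuous (fun p : ℝ × ℝ => ((circleMap 0 1 p.1, circleMap 0 1 p.2) : ℂ × ℂ)) := by
    fun_prop
  exact hF.comp_continuous h (fun p => ⟨cm_mem _, cm_mem _⟩)

/-- the average over one variable is continuous in the other one -/
theorem continuousOn_avR {F : ℂ → ℂ → ℝ}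
    (hF : ContinuousOn (fun p : ℂ × ℂ => F p.1 p.2) (sphere 0 1 ×ˢ sphere 0 1)) :
    ContinuousOn (fun s => avR (fun t => F t s)) (sphere 0 1) := by
  rw [continuousOn_iff_continuous_domRestrict]
  show Continuous (fun s : sphere (0 : ℂ) 1 =>
    (2 * Real.pi)⁻¹ * ∫ θ in (0 : ℝ)..2 * Real.pi, F (circleMap 0 1 θ) (s : ℂ))
  refine continuous_const.mul ?_
  apply intervalIntegral.continuous_parametric_intervalIntegral_of_continuous'
  have h : Continuous (fun p : sphere (0 : ℂ) 1 × ℝ =>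
      ((circleMap 0 1 p.2, (p.1 : ℂ)) : ℂ × ℂ)) := by
    fun_prop
  exact hF.comp_continuous h (fun p => ⟨cm_mem _, p.1.2⟩)

end L2Aux

open L2Aux

/-- Fubini for the circle averages of a continuous function on the torus -/
theorem avR_comm (F : ℂ → ℂ → ℝ)
    (hF : ContinuousOn (fun p : ℂ × ℂ => F p.1 p.2) (sphere 0 1 ×ˢ sphere 0 1)) :
    avR (fun s => avR (fun t => F t s)) = avR (fun t => avR (fun s => F t s)) := by
  have hc := cont_torus hF
  have hint : MeasureTheory.IntegrableOn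
      (Function.uncurry fun σ θ : ℝ => F (circleMap 0 1 θ) (circleMap 0 1 σ))
      (uIoc 0 (2 * Real.pi) ×ˢ uIoc 0 (2 * Real.pi)) := by
    have hc' : Continuous
        (Function.uncurry fun σ θ : ℝ => F (circleMap 0 1 θ) (circleMap 0 1 σ)) :=
      hc.comp continuous_swap
    have hK : IsCompact (uIcc 0 (2 * Real.pi) ×ˢ uIcc 0 (2 * Real.pi)) :=
      isCompact_uIcc.prod isCompact_uIcc
    exact (hc'.continuousOn.integrableOn_compact hK).mono_set
      (prod_mono uIoc_subset_uIcc uIoc_subset_uIcc)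
  have key := MeasureTheory.intervalIntegral_intervalIntegral_swap hint
  simp only [avR, Real.circleAverage_def, smul_eq_mul]
  simp only [intervalIntegral.integral_const_mul]
  rw [key]

theorem l2_bound (e : Ext) (he : e.Conv) (N : ℕ) (w : ℕ → ℂ)
    (p : Polynomial ℂ) (q : ℂ → ℂ) (hq : DifferentiableOn ℂ q (ball 0 e.ρ))
    (hp : ∀ t : ℂ, t ≠ 0 → ‖t⁻¹‖ < e.ρ →
      p.eval (e.G t) = (∑ n ∈ Finset.range (N + 1), w n * t ^ n) + t⁻¹ * q t⁻¹) :
    avR (fun t => ‖p.eval (e.G t)‖ ^ 2)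
      ≤ 2 * (∑ n ∈ Finset.range (N + 1), ‖w n‖ ^ 2) - ‖w 0‖ ^ 2 := by
  obtain ⟨Lam, hL⟩ := kernel_exists e he
  have hinj : ∀ t s : ℂ, ‖t‖ = 1 → ‖s‖ = 1 → t ≠ s → e.G t ≠ e.G s :=
    fun t s ht hs hts => he.inj t s ht hs.ge hts
  set φ : ℂ → ℂ := fun t => ∑ n ∈ Finset.Icc 1 N, w n * t ^ n with hφ
  set ε : ℂ → ℂ := fun s => s⁻¹ * q s⁻¹ with hε
  set k : ℂ → ℂ → ℝ := fun t s => 1 + 2 * (Lam t s).re with hk
  have hφc : ContinuousOn φ (sphere 0 1) := by
    apply Continuous.continuousOn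
    rw [hφ]
    fun_prop
  -- `conj φ` is exterior analytic, vanishing at infinity
  have hconjφ : ExtAn (fun t => (starRingEnd ℂ) (φ t)) 0 := by
    have h1 : ExtAn (fun t => ∑ n ∈ Finset.Icc 1 N, (starRingEnd ℂ) (w n) * (t⁻¹) ^ n)
        (∑ n ∈ Finset.Icc 1 N, (starRingEnd ℂ) (w n) * 0) := by
      apply ExtAn.sum
      intro n hn
      exact ExtAn.const_mul _ (ExtAn.inv_pow n (Finset.mem_Icc.mp hn).1)
    have h2 : (∑ n ∈ Finset.Icc 1 N, (starRingEnd ℂ) (w n) * 0) = 0 := by simp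
    rw [h2] at h1
    refine h1.congr ?_
    intro t ht
    rw [hφ]
    simp only [map_sum, map_mul, map_pow]
    apply Finset.sum_congr rfl
    intro n _
    rw [Complex.inv_eq_conj ht]
  have hLc : ∀ s : ℂ, ‖s‖ = 1 → ContinuousOn (fun t => Lam t s) (sphere 0 1) :=
    fun s hs => (hL.ext_left s hs).continuousOn
  -- mean of `φ`
  have hmφ : av φ = 0 := by
    have h := av_conj hφc
    rw [hconjφ.av_eq] at h
    have := congrArg (starRingEnd ℂ) h
    simpa using this.symm
  have hmφL : ∀ s : ℂ, ‖s‖ = 1 → av (fun t => φ t * (starRingEnd ℂ) (Lam t s)) = 0 := by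
    intro s hs
    have h1 : ExtAn (fun t => (starRingEnd ℂ) (φ t) * Lam t s) (0 * 0) :=
      hconjφ.mul (hL.ext_left s hs)
    have h2 : ContinuousOn (fun t => (starRingEnd ℂ) (φ t) * Lam t s) (sphere 0 1) :=
      h1.continuousOn
    have h3 := av_conj h2
    rw [h1.av_eq] at h3
    simpa using h3
  -- reproducing formula with the positive kernel
  have hrep : ∀ s : ℂ, ‖s‖ = 1 → ε s = av (fun t => φ t * ((k t s : ℝ) : ℂ)) := by
    intro s hs
    have hA : ε s = av (fun t => φ t * Lam t s) :=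
      kernel_id e Lam hL N w p q hq hp hinj s hs
    have hB := hmφL s hs
    have hφL : ContinuousOn (fun t => φ t * Lam t s) (sphere 0 1) := hφc.mul (hLc s hs)
    have hφL' : ContinuousOn (fun t => φ t * (starRingEnd ℂ) (Lam t s)) (sphere 0 1) :=
      hφc.mul (Complex.continuous_conj.comp_continuousOn (hLc s hs))
    have h1 : av (fun t => φ t * ((k t s : ℝ) : ℂ))
        = av (fun t => φ t + (φ t * Lam t s + φ t * (starRingEnd ℂ) (Lam t s))) := by
      apply av_congr
      intro t _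
      have : ((k t s : ℝ) : ℂ) = 1 + (Lam t s + (starRingEnd ℂ) (Lam t s)) := by
        rw [hk, Complex.add_conj]
        push_cast
        ring
      rw [this]
      ring
    have h2 : ContinuousOn (fun t => φ t * Lam t s + φ t * (starRingEnd ℂ) (Lam t s))
        (sphere 0 1) := hφL.add hφL'
    rw [h1, av_add hφc h2, av_add hφL hφL', hmφ, hB, ← hA]
    simp
  have hkcont : ContinuousOn (fun p : ℂ × ℂ => k p.1 p.2) (sphere 0 1 ×ˢ sphere 0 1) := by
    rw [hk]
    exact continuousOn_const.add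
      (continuousOn_const.mul (Complex.continuous_re.comp_continuousOn hL.cont))
  have hk_left : ∀ s : ℂ, ‖s‖ = 1 → ContinuousOn (fun t => k t s) (sphere 0 1) := by
    intro s hs
    exact continuousOn_const.add
      (continuousOn_const.mul (Complex.continuous_re.comp_continuousOn (hLc s hs)))
  have hmk_left : ∀ s : ℂ, ‖s‖ = 1 → avR (fun t => k t s) = 1 := by
    intro s hs
    have h1 : ContinuousOn (fun t => (Lam t s).re) (sphere 0 1) :=
      Complex.continuous_re.comp_continuousOn (hLc s hs)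
    have h2 : avR (fun t => k t s) = avR (fun _ => (1 : ℝ)) + avR (fun t => 2 * (Lam t s).re) :=
      avR_add continuousOn_const (continuousOn_const.mul h1)
    rw [h2, avR_const_mul, avR_re (hLc s hs), (hL.ext_left s hs).av_eq]
    have : avR (fun _ => (1 : ℝ)) = 1 := Real.circleAverage_const 1 0 1
    rw [this]
    simp
  have hmk_right : ∀ t : ℂ, ‖t‖ = 1 → avR (fun s => k t s) = 1 := by
    intro t ht
    have h0 := (hL.ext_right t ht).continuousOn
    have h1 : ContinuousOn (fun s => (Lam t s).re) (sphere 0 1) :=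
      Complex.continuous_re.comp_continuousOn h0
    have h2 : avR (fun s => k t s) = avR (fun _ => (1 : ℝ)) + avR (fun s => 2 * (Lam t s).re) :=
      avR_add continuousOn_const (continuousOn_const.mul h1)
    rw [h2, avR_const_mul, avR_re h0, (hL.ext_right t ht).av_eq]
    have : avR (fun _ => (1 : ℝ)) = 1 := Real.circleAverage_const 1 0 1
    rw [this]
    simp
  -- Cauchy-Schwarz
  have hCS : ∀ s : ℂ, ‖s‖ = 1 → ‖ε s‖ ^ 2 ≤ avR (fun t => ‖φ t‖ ^ 2 * k t s) := by
    intro s hs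
    have hr : ContinuousOn (fun t => ((Real.sqrt (k t s) : ℝ) : ℂ)) (sphere 0 1) :=
      Complex.continuous_ofReal.comp_continuousOn
        (Real.continuous_sqrt.comp_continuousOn (hk_left s hs))
    have h1 := norm_av_mul_sq_le (φ := fun t => φ t * ((Real.sqrt (k t s) : ℝ) : ℂ))
      (ψ := fun t => ((Real.sqrt (k t s) : ℝ) : ℂ)) (hφc.mul hr) hr
    have h2 : av (fun t => φ t * ((Real.sqrt (k t s) : ℝ) : ℂ) * ((Real.sqrt (k t s) : ℝ) : ℂ))
        = ε s := by
      rw [hrep s hs]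
      apply av_congr
      intro t ht
      rw [mul_assoc, ← Complex.ofReal_mul, Real.mul_self_sqrt (hL.nonneg t s ht hs)]
    have h3 : avR (fun t => ‖((Real.sqrt (k t s) : ℝ) : ℂ)‖ ^ 2) = 1 := by
      rw [← hmk_left s hs]
      apply avR_congr
      intro t ht
      rw [Complex.norm_real, Real.norm_eq_abs, sq_abs, Real.sq_sqrt (hL.nonneg t s ht hs)]
    have h4 : avR (fun t => ‖φ t * ((Real.sqrt (k t s) : ℝ) : ℂ)‖ ^ 2)
        = avR (fun t => ‖φ t‖ ^ 2 * k t s) := by
      apply avR_congr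
      intro t ht
      rw [norm_mul, mul_pow, Complex.norm_real, Real.norm_eq_abs, sq_abs,
        Real.sq_sqrt (hL.nonneg t s ht hs)]
    rw [h2, h3, h4, mul_one] at h1
    exact h1
  -- integrate over `s`
  have hεAn : ExtAn ε 0 := ExtAn.inv_mul e.ρ e.hρ q hq
  have hFcont : ContinuousOn (fun p : ℂ × ℂ => ‖φ p.1‖ ^ 2 * k p.1 p.2)
      (sphere 0 1 ×ˢ sphere 0 1) := by
    refine ContinuousOn.mul ?_ hkcont
    apply Continuous.continuousOn
    rw [hφ]
    fun_prop
  have hI : avR (fun s => ‖ε s‖ ^ 2) ≤ avR (fun t => ‖φ t‖ ^ 2) := by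
    calc avR (fun s => ‖ε s‖ ^ 2) ≤ avR (fun s => avR (fun t => ‖φ t‖ ^ 2 * k t s)) :=
          avR_mono (hεAn.continuousOn.norm.pow 2)
            (continuousOn_avR (F := fun t s => ‖φ t‖ ^ 2 * k t s) hFcont) hCS
      _ = avR (fun t => avR (fun s => ‖φ t‖ ^ 2 * k t s)) :=
          avR_comm (fun t s => ‖φ t‖ ^ 2 * k t s) hFcont
      _ = avR (fun t => ‖φ t‖ ^ 2) := by
          apply avR_congr
          intro t ht
          rw [avR_const_mul, hmk_right t ht, mul_one]
  have hφ2 : avR (fun t => ‖φ t‖ ^ 2)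
      = (∑ n ∈ Finset.range (N + 1), ‖w n‖ ^ 2) - ‖w 0‖ ^ 2 := by
    have h1 := avR_norm_sq_poly N (fun n => if n = 0 then 0 else w n)
    have h2 : ∀ t : ℂ, ∑ n ∈ Finset.range (N + 1), (if n = 0 then 0 else w n) * t ^ n = φ t := by
      intro t
      rw [hφ, Finset.sum_range_succ']
      simp only [Nat.succ_ne_zero, if_false, if_true, zero_mul, add_zero]
      rw [← Finset.Ico_add_one_right_eq_Icc, Finset.sum_Ico_eq_sum_range]
      apply Finset.sum_congr
      · congr 1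
      · intro n _
        rw [add_comm 1 n]
    have h3 : ∑ n ∈ Finset.range (N + 1), ‖(if n = 0 then (0 : ℂ) else w n)‖ ^ 2
        = (∑ n ∈ Finset.range (N + 1), ‖w n‖ ^ 2) - ‖w 0‖ ^ 2 := by
      rw [Finset.sum_range_succ', Finset.sum_range_succ']
      simp
    rw [← h3, ← h1]
    apply avR_congr
    intro t _
    simp only [h2]
  have hfin : avR (fun t => ‖p.eval (e.G t)‖ ^ 2)
      = ∑ n ∈ Finset.range (N + 1), ‖w n‖ ^ 2 + avR (fun t => ‖ε t‖ ^ 2) := by
    rw [← avR_norm_sq_add N w hεAn]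
    apply avR_congr
    intro t ht
    have ht0 : t ≠ 0 := by
      rintro rfl
      simp at ht
    rw [hp t ht0 (by rw [norm_inv, ht, inv_one]; exact e.hρ)]
  rw [hfin]
  rw [hφ2] at hI
  linarith

end Crest.Agent.R132
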