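import Crest.Agent.R132.Star1
import Crest.Agent.R132.L2Bound
import Crest.Agent.R132.Faber
import Crest.Agent.R132.Frob

/-!
# Piece LOWER : lower bound for the mixed resolvent

`F n, q n` from `faber_exists`.  Let `R(t) = Wᴴ RA(t) W`, `L_n = Wᴴ F_n(A) W`.
(1) `L_n i j = av (fun t => t^n * R(t) i j)`: by `star_poly` (with `g = W`, `Q = 1`) `F_n(A) W = ∫ F_n(G) RA W`, and
    `F_n(G t) = tⁿ + t⁻¹ q_n(t⁻¹)`, where `t⁻¹ q_n(t⁻¹) R(t) i j` is exterior analytic, zero at infinity.
(2) `L_0 = Wᴴ W`; Parseval for every entry: `avR (frob R(t)) = ∑_n frob L_n`.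
(3) for `N` fixed let `Q_0 = L_0ᴴ`, `Q_n = (1/2) L_nᴴ` (`1 ≤ n ≤ N`), `w(z) = ∑_{n≤N} F_n(z) • Q_n`.  By linearity (`hrel`)
    `av (trace (L t * Θ t (w (G t)))) = c ∑ trace (L_n Q_n) = c S_N`, `S_N = frob L_0 + (1/2) ∑_{1≤n≤N} frob L_n`.
(4) `‖av(trace (L Θw))‖² ≤ avR (frob L) * avR (frob (Θ w)) ≤ avR(frob L) * avR (frob w(G t))` (Cauchy-Schwarz for the
    finite sum of averages / pointwise Cauchy-Schwarz for the trace and `avR_mul_le`), and by `l2_bound` for every entry
    (coefficients `(Q_n) i j`, `p = ∑ F_n * C (Q_n i j)`): `avR (frob w(G t)) ≤ 2 ∑ frob Q_n - frob Q_0 = S_N`.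
(5) so `c² S_N² ≤ avR(frob L) S_N`, i.e. `c² S_N ≤ avR (frob L)`; let `N → ∞`: `c² (frob L_0 + avR(frob R))/2 ≤ avR (frob L)`.
-/

set_option autoImplicit false
open Metric Set Matrix

namespace Crest.Agent.R132

variable {n a : Type} [Fintype n] [DecidableEq n] [Fintype a] [DecidableEq a]
  {e : Ext} {A : Matrix n n ℂ} {V : Set ℂ}

namespace LowerAux

theorem frob_cont {b c : Type} [Fintype b] [Fintype c] {X : ℂ → Matrix b c ℂ}
    (hX : ∀ i j, ContinuousOn (fun t => X t i j) (sphere 0 1)) :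
    ContinuousOn (fun t => frob (X t)) (sphere 0 1) := by
  unfold frob
  exact continuousOn_finsetSum _ fun i _ => continuousOn_finsetSum _ fun j _ =>
    ((hX i j).norm).pow 2

theorem avR_frob {b c : Type} [Fintype b] [Fintype c] {X : ℂ → Matrix b c ℂ}
    (hX : ∀ i j, ContinuousOn (fun t => X t i j) (sphere 0 1)) :
    avR (fun t => frob (X t)) = ∑ i, ∑ j, avR (fun t => ‖X t i j‖ ^ 2) := by
  unfold frob
  rw [avR_sum _ (fun i t => ∑ j, ‖X t i j‖ ^ 2)
    (fun i _ => continuousOn_finsetSum _ fun j _ => ((hX i j).norm).pow 2)]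
  apply Finset.sum_congr rfl
  intro i _
  rw [avR_sum _ (fun j t => ‖X t i j‖ ^ 2) (fun j _ => ((hX i j).norm).pow 2)]

/-- entries of the compressed resolvent are exterior analytic -/
theorem R_extAn (hs : Sit e A V) (W : Matrix n a ℂ) (i j : a) :
    ExtAn (fun t => (Wᴴ * RA e A t * W) i j) ((Wᴴ * W) i j) := by
  have h1 : ExtAn (fun t => ∑ l, ∑ k, Wᴴ i k * RA e A t k l * W l j)
      (∑ l, ∑ k, Wᴴ i k * (1 : Matrix n n ℂ) k l * W l j) := by
    apply ExtAn.sum
    intro l _
    apply ExtAn.sum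
    intro k _
    exact ((ExtAn.const _).mul (res_extAn hs k l)).mul (ExtAn.const _)
  have h2 : (Wᴴ * W) i j = ∑ l, ∑ k, Wᴴ i k * (1 : Matrix n n ℂ) k l * W l j := by
    rw [Matrix.mul_apply]
    apply Finset.sum_congr rfl
    intro l _
    rw [← Finset.sum_mul, ← Matrix.mul_apply, Matrix.mul_one]
  rw [h2]
  refine h1.congr ?_
  intro t _
  rw [Matrix.mul_apply]
  apply Finset.sum_congr rfl
  intro l _
  rw [Matrix.mul_apply, Finset.sum_mul]

theorem eval_G_cont (p : Polynomial ℂ) :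
    ContinuousOn (fun t => p.eval (e.G t)) (sphere 0 1) :=
  p.continuous.comp_continuousOn e.continuousOn_G

/-- coefficients of the compressed resolvent -/
theorem coeff_eq (hs : Sit e A V) (W : Matrix n a ℂ) (p : Polynomial ℂ) (N : ℕ) (q : ℂ → ℂ)
    (hq : DifferentiableOn ℂ q (ball 0 e.ρ))
    (hp : ∀ t : ℂ, t ≠ 0 → ‖t⁻¹‖ < e.ρ → p.eval (e.G t) = t ^ N + t⁻¹ * q t⁻¹) (i j : a) :
    (Wᴴ * Polynomial.aeval A p * W) i j = av (fun t => t ^ N * (Wᴴ * RA e A t * W) i j) := by
  have hRc : ∀ k l, ContinuousOn (fun t => RA e A t k l) (sphere 0 1) :=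
    fun k l => (res_extAn hs k l).continuousOn
  have hRWc : ∀ k, ContinuousOn (fun t => (RA e A t * W) k j) (sphere 0 1) := by
    intro k
    have : (fun t => (RA e A t * W) k j) = fun t => ∑ l, RA e A t k l * W l j := by
      funext t; rw [Matrix.mul_apply]
    rw [this]
    exact continuousOn_finsetSum _ fun l _ => (hRc k l).mul continuousOn_const
  have h1 : ∀ k, av (fun t => p.eval (e.G t) * (RA e A t * W) k j)
      = (Polynomial.aeval A p * W) k j := by
    intro k
    have h := congrFun (congrFun (star_poly hs W p (1 : Matrix a a ℂ)) k) j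
    rw [Matrix.mul_one] at h
    rw [← h]
    unfold star
    rw [Matrix.of_apply]
    apply av_congr
    intro t _
    rw [Matrix.mul_smul, Matrix.mul_one, Matrix.smul_apply, smul_eq_mul]
  have h2 : (Wᴴ * Polynomial.aeval A p * W) i j
      = av (fun t => p.eval (e.G t) * (Wᴴ * RA e A t * W) i j) := by
    rw [Matrix.mul_assoc, Matrix.mul_apply]
    have h3 : ∀ t, p.eval (e.G t) * (Wᴴ * RA e A t * W) i j
        = ∑ k, Wᴴ i k * (p.eval (e.G t) * (RA e A t * W) k j) := by
      intro t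
      rw [Matrix.mul_assoc, Matrix.mul_apply, Finset.mul_sum]
      apply Finset.sum_congr rfl
      intro k _
      ring
    simp_rw [h3]
    rw [av_sum _ (fun k t => Wᴴ i k * (p.eval (e.G t) * (RA e A t * W) k j))
      (fun k _ => continuousOn_const.mul ((eval_G_cont p).mul (hRWc k)))]
    apply Finset.sum_congr rfl
    intro k _
    rw [av_const_mul, h1]
  rw [h2]
  have hR := R_extAn hs W i j
  have hE : ExtAn (fun t => t⁻¹ * q t⁻¹ * (Wᴴ * RA e A t * W) i j) 0 := by
    have := (ExtAn.inv_mul e.ρ e.hρ q hq).mul hR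
    rwa [zero_mul] at this
  have h4 : av (fun t => p.eval (e.G t) * (Wᴴ * RA e A t * W) i j)
      = av (fun t => t ^ N * (Wᴴ * RA e A t * W) i j
        + t⁻¹ * q t⁻¹ * (Wᴴ * RA e A t * W) i j) := by
    apply av_congr
    intro t ht
    have ht0 : t ≠ 0 := by
      intro h; rw [h, norm_zero] at ht; exact zero_ne_one ht
    rw [hp t ht0 (by rw [norm_inv, ht, inv_one]; exact e.hρ)]
    ring
  have hc1 : ContinuousOn (fun t => t ^ N * (Wᴴ * RA e A t * W) i j) (sphere 0 1) :=
    (continuousOn_pow N).mul hR.continuousOn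
  rw [h4, av_add hc1 hE.continuousOn, hE.av_eq, add_zero]

/-- the partial sums -/
theorem key (hs : Sit e A V) (L : ℂ → Matrix a a ℂ)
    (hLc : ∀ i j, ContinuousOn (fun t => L t i j) (sphere 0 1))
    (W : Matrix n a ℂ) (c : ℝ) (hc : 0 < c)
    (Θ : ℂ → Matrix a a ℂ →ₗ[ℂ] Matrix a a ℂ)
    (hΘc : ∀ Q i j, ContinuousOn (fun t => Θ t Q i j) (sphere 0 1))
    (hΘ : ∀ t : ℂ, ‖t‖ = 1 → ∀ Q, frob (Θ t Q) ≤ frob Q)
    (hrel : ∀ (p : Polynomial ℂ) (Q : Matrix a a ℂ),
      av (fun t => (L t * Θ t (p.eval (e.G t) • Q)).trace)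
        = (c : ℂ) * (Wᴴ * Polynomial.aeval A p * W * Q).trace)
    (F : ℕ → Polynomial ℂ) (q : ℕ → ℂ → ℂ)
    (hq : ∀ n, DifferentiableOn ℂ (q n) (ball 0 e.ρ))
    (hF : ∀ (n : ℕ) (t : ℂ), t ≠ 0 → ‖t⁻¹‖ < e.ρ →
      (F n).eval (e.G t) = t ^ n + t⁻¹ * q n t⁻¹) (N : ℕ) :
    c ^ 2 * (∑ k ∈ Finset.range (N + 1), frob (Wᴴ * Polynomial.aeval A (F k) * W)
      + frob (Wᴴ * Polynomial.aeval A (F 0) * W)) ≤ 2 * avR (fun t => frob (L t)) := by
  set Lc : ℕ → Matrix a a ℂ := fun k => Wᴴ * Polynomial.aeval A (F k) * W with hLcdef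
  set Q : ℕ → Matrix a a ℂ := fun k => (if k = 0 then (1 : ℂ) else 1 / 2) • (Lc k)ᴴ with hQ
  set S : ℝ := (∑ k ∈ Finset.range (N + 1), frob (Lc k) + frob (Lc 0)) / 2 with hS
  set w : ℂ → Matrix a a ℂ := fun z => ∑ k ∈ Finset.range (N + 1), (F k).eval z • Q k with hw
  have hSnn : 0 ≤ S := by
    have h1 : 0 ≤ ∑ k ∈ Finset.range (N + 1), frob (Lc k) :=
      Finset.sum_nonneg fun k _ => frob_nonneg _
    have h2 := frob_nonneg (Lc 0)
    rw [hS]; linarith
  -- sums over `range (N+1)` with the weights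
  have hsum0 : ∀ f : ℕ → ℝ, ∑ k ∈ Finset.range (N + 1), f k
      = ∑ k ∈ Finset.range N, f (k + 1) + f 0 := fun f => Finset.sum_range_succ' f N
  have hwt : ∑ k ∈ Finset.range (N + 1), (if k = 0 then (1 : ℝ) else 1 / 2) * frob (Lc k) = S := by
    rw [hS, hsum0, hsum0]
    have : ∑ k ∈ Finset.range N, (if k + 1 = 0 then (1 : ℝ) else 1 / 2) * frob (Lc (k + 1))
        = (∑ k ∈ Finset.range N, frob (Lc (k + 1))) / 2 := by
      rw [Finset.sum_div]
      apply Finset.sum_congr rfl
      intro k _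
      rw [if_neg (Nat.succ_ne_zero k)]; ring
    rw [this, if_pos rfl]; ring
  have hfQ : ∀ k, frob (Q k) = (if k = 0 then (1 : ℝ) else 1 / 4) * frob (Lc k) := by
    intro k
    rw [hQ]
    beta_reduce
    rw [frob_smul, frob_conjTranspose]
    by_cases h : k = 0
    · simp [h]
    · simp [h]; norm_num
  have hQS : 2 * (∑ k ∈ Finset.range (N + 1), frob (Q k)) - frob (Q 0) = S := by
    rw [hsum0]
    have : ∑ k ∈ Finset.range N, frob (Q (k + 1))
        = (∑ k ∈ Finset.range N, frob (Lc (k + 1))) / 4 := by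
      rw [Finset.sum_div]
      apply Finset.sum_congr rfl
      intro k _
      rw [hfQ, if_neg (Nat.succ_ne_zero k)]; ring
    rw [this, hfQ, if_pos rfl, hS, hsum0]; ring
  -- continuity
  have hFc : ∀ k, ContinuousOn (fun t => (F k).eval (e.G t)) (sphere 0 1) := fun k =>
    eval_G_cont (F k)
  have hwc : ∀ i j, ContinuousOn (fun t => w (e.G t) i j) (sphere 0 1) := by
    intro i j
    have : (fun t => w (e.G t) i j)
        = fun t => ∑ k ∈ Finset.range (N + 1), (F k).eval (e.G t) * Q k i j := by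
      funext t
      rw [hw]
      beta_reduce
      rw [Matrix.sum_apply]
      rfl
    rw [this]
    exact continuousOn_finsetSum _ fun k _ => (hFc k).mul continuousOn_const
  have hΘw : ∀ t, Θ t (w (e.G t)) = ∑ k ∈ Finset.range (N + 1), (F k).eval (e.G t) • Θ t (Q k) := by
    intro t
    rw [hw]
    beta_reduce
    rw [map_sum]
    apply Finset.sum_congr rfl
    intro k _
    rw [map_smul]
  have hΘwc : ∀ i j, ContinuousOn (fun t => Θ t (w (e.G t)) i j) (sphere 0 1) := by
    intro i j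
    have : (fun t => Θ t (w (e.G t)) i j)
        = fun t => ∑ k ∈ Finset.range (N + 1), (F k).eval (e.G t) * Θ t (Q k) i j := by
      funext t
      rw [hΘw, Matrix.sum_apply]
      rfl
    rw [this]
    exact continuousOn_finsetSum _ fun k _ => (hFc k).mul (hΘc _ i j)
  have htrc : ∀ {X Y : ℂ → Matrix a a ℂ}
      (_ : ∀ i j, ContinuousOn (fun t => X t i j) (sphere 0 1))
      (_ : ∀ i j, ContinuousOn (fun t => Y t i j) (sphere 0 1)),
      ContinuousOn (fun t => (X t * Y t).trace) (sphere 0 1) := by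
    intro X Y hX hY
    have : (fun t => (X t * Y t).trace) = fun t => ∑ i, ∑ j, X t i j * Y t j i := by
      funext t
      rw [Matrix.trace]
      apply Finset.sum_congr rfl
      intro i _
      rw [Matrix.diag_apply, Matrix.mul_apply]
    rw [this]
    exact continuousOn_finsetSum _ fun i _ => continuousOn_finsetSum _ fun j _ =>
      (hX i j).mul (hY j i)
  -- the linear functional
  have hlin : av (fun t => (L t * Θ t (w (e.G t))).trace) = (c : ℂ) * S := by
    have h1 : ∀ t, (L t * Θ t (w (e.G t))).trace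
        = ∑ k ∈ Finset.range (N + 1), (L t * Θ t ((F k).eval (e.G t) • Q k)).trace := by
      intro t
      rw [hΘw, Finset.mul_sum, Matrix.trace_sum]
      apply Finset.sum_congr rfl
      intro k _
      rw [(Θ t).map_smul ((F k).eval (e.G t)) (Q k)]
    simp_rw [h1]
    rw [av_sum _ (fun k t => (L t * Θ t ((F k).eval (e.G t) • Q k)).trace)]
    · have h2 : ∀ k, av (fun t => (L t * Θ t ((F k).eval (e.G t) • Q k)).trace)
          = (c : ℂ) * (((if k = 0 then (1 : ℝ) else 1 / 2) * frob (Lc k) : ℝ) : ℂ) := by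
        intro k
        have e1 : Wᴴ * Polynomial.aeval A (F k) * W = Lc k := rfl
        rw [hrel, e1, hQ]
        beta_reduce
        rw [Matrix.mul_smul, Matrix.trace_smul, ← frob_eq_trace]
        by_cases h : k = 0
        · simp [h]
        · simp [h]
      rw [Finset.sum_congr rfl (fun k _ => h2 k), ← Finset.mul_sum, ← Complex.ofReal_sum, hwt]
    · intro k _
      apply htrc hLc
      intro i j
      have : (fun t => Θ t ((F k).eval (e.G t) • Q k) i j)
          = fun t => (F k).eval (e.G t) * Θ t (Q k) i j := by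
        funext t
        rw [map_smul]; rfl
      rw [this]
      exact (hFc k).mul (hΘc _ i j)
  -- Cauchy-Schwarz
  have hfLc := frob_cont hLc
  have hfwc := frob_cont hwc
  have hCS : c * S ≤ Real.sqrt (avR fun t => frob (L t)) *
      Real.sqrt (avR fun t => frob (w (e.G t))) := by
    have h1 : ‖av (fun t => (L t * Θ t (w (e.G t))).trace)‖ = c * S := by
      rw [hlin, norm_mul, Complex.norm_real, Complex.norm_real, Real.norm_of_nonneg hc.le,
        Real.norm_of_nonneg hSnn]
    rw [← h1]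
    refine (norm_av_le (htrc hLc hΘwc)).trans ?_
    have h2 : avR (fun t => ‖(L t * Θ t (w (e.G t))).trace‖)
        ≤ avR (fun t => Real.sqrt (frob (L t)) * Real.sqrt (frob (w (e.G t)))) := by
      have hmulc : ContinuousOn (fun t => Real.sqrt (frob (L t)) *
          Real.sqrt (frob (w (e.G t)))) (sphere 0 1) := hfLc.sqrt.mul hfwc.sqrt
      apply avR_mono (htrc hLc hΘwc).norm hmulc
      intro t ht
      rw [← Real.sqrt_mul (frob_nonneg _)]
      apply Real.le_sqrt_of_sq_le
      refine (norm_trace_mul_sq_le _ _).trans ?_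
      exact mul_le_mul_of_nonneg_left (hΘ t ht _) (frob_nonneg _)
    refine h2.trans ?_
    refine (avR_mul_le hfLc.sqrt hfwc.sqrt).trans (le_of_eq ?_)
    congr 2
    · apply avR_congr
      intro t _
      exact Real.sq_sqrt (frob_nonneg _)
    · apply avR_congr
      intro t _
      exact Real.sq_sqrt (frob_nonneg _)
  -- the key inequality for the entries
  have hL2 : avR (fun t => frob (w (e.G t))) ≤ S := by
    rw [avR_frob hwc, ← hQS]
    have hent : ∀ i j, avR (fun t => ‖w (e.G t) i j‖ ^ 2)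
        ≤ 2 * (∑ k ∈ Finset.range (N + 1), ‖Q k i j‖ ^ 2) - ‖Q 0 i j‖ ^ 2 := by
      intro i j
      have h1 := l2_bound e hs.conv N (fun k => Q k i j)
        (∑ k ∈ Finset.range (N + 1), F k * Polynomial.C (Q k i j))
        (fun u => ∑ k ∈ Finset.range (N + 1), Q k i j * q k u)
        (DifferentiableOn.fun_sum fun k _ => (hq k).const_mul _)
        (by
          intro t ht0 ht
          rw [Polynomial.eval_finset_sum, Finset.mul_sum, ← Finset.sum_add_distrib]
          apply Finset.sum_congr rfl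
          intro k _
          rw [Polynomial.eval_mul, Polynomial.eval_C, hF k t ht0 ht]
          ring)
      refine le_trans (le_of_eq ?_) h1
      apply avR_congr
      intro t _
      congr 2
      rw [hw]
      beta_reduce
      rw [Matrix.sum_apply, Polynomial.eval_finset_sum]
      apply Finset.sum_congr rfl
      intro k _
      rw [Polynomial.eval_mul, Polynomial.eval_C]
      rfl
    refine (Finset.sum_le_sum fun i _ => Finset.sum_le_sum fun j _ => hent i j).trans
      (le_of_eq ?_)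
    simp only [Finset.sum_sub_distrib, ← Finset.mul_sum]
    congr 2
    have h3 : ∀ k, frob (Q k) = ∑ i, ∑ j, ‖Q k i j‖ ^ 2 := fun k => rfl
    simp_rw [h3]
    rw [Finset.sum_comm' (s := Finset.range (N + 1)) (t := fun _ => Finset.univ)
      (s' := fun _ => Finset.range (N + 1)) (t' := Finset.univ) (by simp)]
    apply Finset.sum_congr rfl
    intro i _
    rw [Finset.sum_comm]
  -- conclusion
  have hLnn : 0 ≤ avR (fun t => frob (L t)) := avR_nonneg fun t _ => frob_nonneg _
  have hfin : c ^ 2 * S ≤ avR (fun t => frob (L t)) := by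
    rcases hSnn.eq_or_lt with h0 | hpos
    · rw [← h0, mul_zero]; exact hLnn
    · have h1 : c * S ≤ Real.sqrt (avR fun t => frob (L t)) * Real.sqrt S :=
        hCS.trans (mul_le_mul_of_nonneg_left (Real.sqrt_le_sqrt hL2) (Real.sqrt_nonneg _))
      have h2 : (c * S) ^ 2 ≤ avR (fun t => frob (L t)) * S := by
        have h3 := mul_self_le_mul_self (by positivity) h1
        have h4 : Real.sqrt (avR fun t => frob (L t)) * Real.sqrt S *
            (Real.sqrt (avR fun t => frob (L t)) * Real.sqrt S)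
            = avR (fun t => frob (L t)) * S := by
          rw [mul_mul_mul_comm, Real.mul_self_sqrt hLnn, Real.mul_self_sqrt hSnn]
        rw [h4] at h3
        rw [sq]; exact h3
      have h5 : (c ^ 2 * S) * S ≤ avR (fun t => frob (L t)) * S := by
        calc (c ^ 2 * S) * S = (c * S) ^ 2 := by ring
          _ ≤ _ := h2
      exact le_of_mul_le_mul_right h5 hpos
  have : c ^ 2 * (∑ k ∈ Finset.range (N + 1), frob (Lc k) + frob (Lc 0)) = 2 * (c ^ 2 * S) := by
    rw [hS]; ring
  rw [this]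
  linarith

end LowerAux

open LowerAux

theorem lower (hs : Sit e A V) (L : ℂ → Matrix a a ℂ)
    (hLc : ∀ i j, ContinuousOn (fun t => L t i j) (sphere 0 1))
    (W : Matrix n a ℂ) (c : ℝ) (hc : 0 < c)
    (Θ : ℂ → Matrix a a ℂ →ₗ[ℂ] Matrix a a ℂ)
    (hΘc : ∀ Q i j, ContinuousOn (fun t => Θ t Q i j) (sphere 0 1))
    (hΘ : ∀ t : ℂ, ‖t‖ = 1 → ∀ Q, frob (Θ t Q) ≤ frob Q)
    (hrel : ∀ (p : Polynomial ℂ) (Q : Matrix a a ℂ),
      av (fun t => (L t * Θ t (p.eval (e.G t) • Q)).trace)
        = (c : ℂ) * (Wᴴ * Polynomial.aeval A p * W * Q).trace) :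
    c ^ 2 * (avR (fun t => frob (Wᴴ * RA e A t * W)) + frob (Wᴴ * W))
      ≤ 2 * avR (fun t => frob (L t)) := by
  obtain ⟨F, q, hF0, _, hq, hF⟩ := faber_exists e
  have hW : Wᴴ * Polynomial.aeval A (F 0) * W = Wᴴ * W := by
    rw [hF0, map_one, Matrix.mul_one]
  have hsum : HasSum (fun k => frob (Wᴴ * Polynomial.aeval A (F k) * W))
      (avR (fun t => frob (Wᴴ * RA e A t * W))) := by
    rw [avR_frob (fun i j => (R_extAn hs W i j).continuousOn)]
    unfold frob
    apply hasSum_sum
    intro i _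
    apply hasSum_sum
    intro j _
    have h := parseval (R_extAn hs W i j)
    have he : (fun k => ‖(Wᴴ * Polynomial.aeval A (F k) * W) i j‖ ^ 2)
        = fun k => ‖av (fun t => t ^ k * (Wᴴ * RA e A t * W) i j)‖ ^ 2 := by
      funext k
      rw [coeff_eq hs W (F k) k (q k) (hq k) (hF k) i j]
    rw [he]
    exact h
  have hkey := key hs L hLc W c hc Θ hΘc hΘ hrel F q hq hF
  rw [hW] at hkey
  have ht : Filter.Tendsto (fun N : ℕ => c ^ 2 *
      (∑ k ∈ Finset.range (N + 1), frob (Wᴴ * Polynomial.aeval A (F k) * W) + frob (Wᴴ * W)))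
      Filter.atTop (nhds (c ^ 2 * (avR (fun t => frob (Wᴴ * RA e A t * W)) + frob (Wᴴ * W)))) := by
    apply Filter.Tendsto.const_mul
    apply Filter.Tendsto.add_const
    exact (Filter.tendsto_add_atTop_iff_nat 1).2 hsum.tendsto_sum_nat
  exact le_of_tendsto' ht hkey

end Crest.Agent.R132
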