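import Crest.Agent.R132.Defs

/-!
# Row 132, piece OPTA: auxiliary lemmas (helper81)
-/

set_option autoImplicit false
open Matrix
open scoped ComplexOrder Kronecker

namespace Crest.Agent.R132

namespace OptA

variable {n m : Type} [Fintype n] [DecidableEq n] [Fintype m] [DecidableEq m]

theorem gam_add (T : Matrix (n × m) (n × m) ℂ) (H K : Matrix n n ℂ) :
    Gam T (H + K) = Gam T H + Gam T K := by
  unfold Gam
  rw [Matrix.add_kronecker, Matrix.mul_add, Matrix.add_mul]
  abel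

theorem gam_smul (T : Matrix (n × m) (n × m) ℂ) (c : ℂ) (H : Matrix n n ℂ) :
    Gam T (c • H) = c • Gam T H := by
  unfold Gam
  rw [Matrix.smul_kronecker, Matrix.mul_smul, Matrix.smul_mul, smul_sub]

omit [Fintype n] [DecidableEq n] [DecidableEq m] in
theorem trm_add (Z W : Matrix (n × m) (n × m) ℂ) : trm (Z + W) = trm Z + trm W := by
  ext i j
  simp [trm, Finset.sum_add_distrib]

omit [Fintype n] [DecidableEq n] [DecidableEq m] in
theorem trm_smul (c : ℂ) (Z : Matrix (n × m) (n × m) ℂ) : trm (c • Z) = c • trm Z := by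
  ext i j
  simp [trm, Finset.mul_sum]

omit [DecidableEq n] in
theorem trace_kron_mul (K : Matrix n n ℂ) (W : Matrix (n × m) (n × m) ℂ) :
    ((K ⊗ₖ (1 : Matrix m m ℂ)) * W).trace = (K * trm W).trace := by
  simp only [Matrix.trace, Matrix.diag_apply, Matrix.mul_apply, trm, Matrix.of_apply,
    Fintype.sum_prod_type, Matrix.kroneckerMap_apply, Matrix.one_apply]
  apply Finset.sum_congr rfl
  intro i _
  rw [Finset.sum_comm]
  apply Finset.sum_congr rfl
  intro j _
  rw [Finset.mul_sum]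
  apply Finset.sum_congr rfl
  intro l _
  rw [Finset.sum_eq_single l]
  · simp
  · intro l' _ hl'
    simp [Ne.symm hl']
  · intro h
    exact absurd (Finset.mem_univ _) h

theorem gam_adj (T : Matrix (n × m) (n × m) ℂ) (K : Matrix n n ℂ) (Z : Matrix (n × m) (n × m) ℂ) :
    (Gam T K * Z).trace = (K * (trm Z - trm (T * Z * Tᴴ))).trace := by
  unfold Gam
  rw [Matrix.sub_mul, Matrix.trace_sub, trace_kron_mul, Matrix.mul_sub, Matrix.trace_sub,
    ← trace_kron_mul K (T * Z * Tᴴ)]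
  congr 1
  rw [Matrix.mul_assoc, Matrix.mul_assoc, Matrix.trace_mul_comm]
  simp only [Matrix.mul_assoc]

theorem gam_herm (T : Matrix (n × m) (n × m) ℂ) (K : Matrix n n ℂ) (hK : K.IsHermitian) :
    (Gam T K).IsHermitian := by
  unfold Gam
  have h1 : (K ⊗ₖ (1 : Matrix m m ℂ)).IsHermitian := by
    unfold Matrix.IsHermitian
    rw [Matrix.conjTranspose_kronecker, hK.eq, Matrix.conjTranspose_one]
  exact h1.sub (Matrix.isHermitian_conjTranspose_mul_mul T h1)

theorem one_le [Nonempty n] (T : Matrix (n × m) (n × m) ℂ) {H : Matrix n n ℂ} {τ : ℝ}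
    (h : TFeas T H τ) : 1 ≤ τ := by
  obtain ⟨h1, h2, -⟩ := h
  have h3 := h1.add h2
  obtain ⟨i⟩ := ‹Nonempty n›
  have h4 := h3.diag_nonneg (i := i)
  simp only [Matrix.add_apply, Matrix.sub_apply, Matrix.one_apply_eq, Matrix.smul_apply,
    smul_eq_mul, mul_one] at h4
  have h5 : (0 : ℂ) ≤ ((τ - 1 : ℝ) : ℂ) := by
    have : H i i - 1 + (((τ : ℂ)) - H i i) = ((τ - 1 : ℝ) : ℂ) := by push_cast; ring
    rwa [this] at h4
  have h6 := Complex.zero_le_real.mp h5
  linarith

/-- a positive definite matrix stays positive semidefinite after subtracting a small multiple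
of the identity -/
theorem posDef_sub_smul_one {P : Matrix n n ℂ} (hP : P.PosDef) :
    ∃ ε : ℝ, 0 < ε ∧ (P - (ε : ℂ) • (1 : Matrix n n ℂ)).PosSemidef := by
  have hH := hP.1
  obtain ⟨ε, hε, hε2⟩ : ∃ ε : ℝ, 0 < ε ∧ ∀ i, ε ≤ hH.eigenvalues i := by
    rcases isEmpty_or_nonempty n with h | h
    · exact ⟨1, one_pos, fun i => h.elim i⟩
    · obtain ⟨i, hi⟩ := Finite.exists_min hH.eigenvalues
      exact ⟨hH.eigenvalues i, hP.eigenvalues_pos i, hi⟩
  refine ⟨ε, hε, ?_⟩
  have h1 : P - (ε : ℂ) • (1 : Matrix n n ℂ) =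
      Unitary.conjStarAlgAut ℂ _ hH.eigenvectorUnitary
        (diagonal (RCLike.ofReal ∘ hH.eigenvalues) - (ε : ℂ) • 1) := by
    rw [map_sub, map_smul, map_one]
    congr 1
    exact hH.spectral_theorem
  rw [h1, Unitary.conjStarAlgAut_apply,
    Unitary.isUnit_coe.posSemidef_star_right_conjugate_iff]
  have h2 : diagonal (RCLike.ofReal ∘ hH.eigenvalues) - (ε : ℂ) • (1 : Matrix n n ℂ) =
      diagonal (fun i => ((hH.eigenvalues i - ε : ℝ) : ℂ)) := by
    ext i j
    by_cases hij : i = j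
    · subst hij; simp
    · simp [hij]
  rw [h2, Matrix.posSemidef_diagonal_iff]
  intro i
  rw [Complex.zero_le_real]
  linarith [hε2 i]

theorem no_strict (T : Matrix (n × m) (n × m) ℂ) {H : Matrix n n ℂ} {τ : ℝ}
    (h : TOpt T H τ) (K : Matrix n n ℂ) :
    ¬ ((H - 1 + K).PosDef ∧ ((τ : ℂ) • (1 : Matrix n n ℂ) - H - K).PosDef ∧
      (Gam T H + Gam T K).PosDef) := by
  rintro ⟨h1, h2, h3⟩
  obtain ⟨ε, hε, h4⟩ := posDef_sub_smul_one h2
  have h5 : TFeas T (H + K) (τ - ε) := by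
    refine ⟨?_, ?_, ?_⟩
    · have : H + K - 1 = H - 1 + K := by abel
      rw [this]
      exact h1.posSemidef
    · have : ((τ - ε : ℝ) : ℂ) • (1 : Matrix n n ℂ) - (H + K) =
          (τ : ℂ) • (1 : Matrix n n ℂ) - H - K - (ε : ℂ) • (1 : Matrix n n ℂ) := by
        push_cast
        rw [sub_smul]
        abel
      rw [this]
      exact h4
    · rw [gam_add]
      exact h3.posSemidef
  have := h.2 _ _ h5
  linarith

end OptA

end Crest.Agent.R132
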