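import Crest.Agent.R132.Defs

/-!
# Piece OPTB : compactness lemmas for `Opt.lean` (helper22)
-/

set_option autoImplicit false
open Matrix
open scoped ComplexOrder Kronecker MatrixOrder Matrix.Norms.L2Operator

namespace Crest.Agent.R132.OptAux

variable {k : Type} [Fintype k] [DecidableEq k]

theorem isClosed_psd : IsClosed {M : Matrix k k ℂ | M.PosSemidef} := by
  have h := CStarAlgebra.isClosed_nonneg (A := Matrix k k ℂ)
  have h2 : {M : Matrix k k ℂ | M.PosSemidef} = {a : Matrix k k ℂ | 0 ≤ a} := by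
    ext M
    exact (Matrix.nonneg_iff_posSemidef).symm
  rw [h2]
  exact h

theorem algMap (r : ℝ) : algebraMap ℝ (Matrix k k ℂ) r = (r : ℂ) • (1 : Matrix k k ℂ) := by
  rw [Algebra.algebraMap_eq_smul_one]
  ext i j
  simp

theorem posDef_sub {M : Matrix k k ℂ} (hM : M.PosDef) :
    ∃ r : ℝ, 0 < r ∧ (M - (r : ℂ) • (1 : Matrix k k ℂ)).PosSemidef := by
  rcases isEmpty_or_nonempty k with hk | hk
  · refine ⟨1, one_pos, ?_⟩
    have : M - ((1 : ℝ) : ℂ) • (1 : Matrix k k ℂ) = 0 := by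
      ext i; exact hk.elim i
    rw [this]
    exact PosSemidef.zero
  · have h := (CFC.exists_pos_algebraMap_le_iff (A := Matrix k k ℂ) (a := M)
      hM.isHermitian).2 fun x hx => hM.isStrictlyPositive.spectrum_pos hx
    obtain ⟨r, hr, h2⟩ := h
    rw [algMap] at h2
    exact ⟨r, hr, h2⟩

theorem herm_add {M : Matrix k k ℂ} (hM : M.IsHermitian) :
    ∃ s : ℝ, 0 ≤ s ∧ (M + (s : ℂ) • (1 : Matrix k k ℂ)).PosSemidef := by
  refine ⟨‖M‖, norm_nonneg _, ?_⟩
  have h := IsSelfAdjoint.neg_algebraMap_norm_le_self (a := M) hM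
  rw [algMap] at h
  have h2 : (M - -((‖M‖ : ℂ) • (1 : Matrix k k ℂ))).PosSemidef := h
  rwa [sub_neg_eq_add] at h2

theorem norm_le_of_band {H : Matrix k k ℂ} {τ : ℝ} (h1 : (H - 1).PosSemidef)
    (h2 : ((τ : ℂ) • (1 : Matrix k k ℂ) - H).PosSemidef) :
    ‖H‖ ≤ |τ| * ‖(1 : Matrix k k ℂ)‖ := by
  have h3 : (1 : Matrix k k ℂ) ≤ H := h1
  have h4 : (0 : Matrix k k ℂ) ≤ 1 := zero_le_one
  have h5 : H ≤ (τ : ℂ) • (1 : Matrix k k ℂ) := h2
  have h6 := CStarAlgebra.norm_le_norm_of_nonneg_of_le (h4.trans h3) h5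
  refine h6.trans ?_
  rw [norm_smul, Complex.norm_real, Real.norm_eq_abs]

theorem smul_one_psd {r : ℝ} (hr : 0 ≤ r) : ((r : ℂ) • (1 : Matrix k k ℂ)).PosSemidef :=
  Matrix.PosSemidef.one.smul (by exact_mod_cast hr)

theorem le_of_smul_one_psd [Nonempty k] {r : ℝ} (h : ((r : ℂ) • (1 : Matrix k k ℂ)).PosSemidef) :
    0 ≤ r := by
  have i := Classical.arbitrary k
  have h2 := h.diag_nonneg (i := i)
  simp only [Matrix.smul_apply, Matrix.one_apply_eq, smul_eq_mul, mul_one] at h2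
  exact_mod_cast h2

theorem band_one_le [Nonempty k] {H : Matrix k k ℂ} {τ : ℝ} (h1 : (H - 1).PosSemidef)
    (h2 : ((τ : ℂ) • (1 : Matrix k k ℂ) - H).PosSemidef) : 1 ≤ τ := by
  have h3 := h1.add h2
  have h4 : H - 1 + ((τ : ℂ) • (1 : Matrix k k ℂ) - H) = ((τ - 1 : ℝ) : ℂ) • 1 := by
    push_cast
    rw [sub_smul, one_smul]
    abel
  rw [h4] at h3
  linarith [le_of_smul_one_psd h3]

theorem isCompact_pairs (a b : ℝ) (S : Set (Matrix k k ℂ × ℝ)) (hS : IsClosed S)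
    (hb : ∀ p ∈ S, (p.1 - 1).PosSemidef ∧ (((b : ℝ) : ℂ) • (1 : Matrix k k ℂ) - p.1).PosSemidef ∧
      a ≤ p.2 ∧ p.2 ≤ b) : IsCompact S := by
  haveI : ProperSpace (Matrix k k ℂ) := FiniteDimensional.proper ℂ _
  refine Metric.isCompact_of_isClosed_isBounded hS ?_
  refine Bornology.IsBounded.subset
    ((Metric.isBounded_closedBall (x := (0 : Matrix k k ℂ))
      (r := |b| * ‖(1 : Matrix k k ℂ)‖)).prod (Metric.isBounded_Icc a b)) ?_
  intro p hp
  obtain ⟨h1, h2, h3, h4⟩ := hb p hp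
  refine ⟨?_, h3, h4⟩
  rw [mem_closedBall_zero_iff]
  exact norm_le_of_band h1 h2

variable {n m : Type} [Fintype n] [DecidableEq n] [Fintype m] [DecidableEq m]

theorem continuous_Gam (T : Matrix (n × m) (n × m) ℂ) : Continuous (Gam T) := by
  unfold Gam
  have h1 : Continuous fun H : Matrix n n ℂ => H ⊗ₖ (1 : Matrix m m ℂ) := by
    refine continuous_matrix fun i j => ?_
    simp only [kroneckerMap_apply]
    exact ((continuous_apply_apply i.1 j.1)).mul continuous_const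
  exact h1.sub ((continuous_const.matrix_mul h1).matrix_mul continuous_const)

theorem exists_min {τ₀ : ℝ} [Nonempty n] (T : Matrix (n × m) (n × m) ℂ) (H₀ : Matrix n n ℂ)
    (h : TFeas T H₀ τ₀) : ∃ H τ, TOpt T H τ := by
  set S : Set (Matrix n n ℂ × ℝ) := {p | TFeas T p.1 p.2 ∧ p.2 ≤ τ₀} with hS
  have hc : IsClosed S := by
    have e1 : Continuous fun p : Matrix n n ℂ × ℝ => p.1 - 1 := continuous_fst.sub continuous_const
    have e2 : Continuous fun p : Matrix n n ℂ × ℝ => ((p.2 : ℝ) : ℂ) • (1 : Matrix n n ℂ) - p.1 :=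
      ((Complex.continuous_ofReal.comp continuous_snd).smul continuous_const).sub continuous_fst
    have e3 : Continuous fun p : Matrix n n ℂ × ℝ => Gam T p.1 :=
      (continuous_Gam T).comp continuous_fst
    have h1 := isClosed_psd.preimage e1
    have h2 := isClosed_psd.preimage e2
    have h3 := isClosed_psd.preimage e3
    have h4 : IsClosed {p : Matrix n n ℂ × ℝ | p.2 ≤ τ₀} := isClosed_le continuous_snd continuous_const
    have h5 := ((h1.inter (h2.inter h3))).inter h4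
    exact h5
  have hcomp : IsCompact S := by
    refine isCompact_pairs 1 τ₀ S hc ?_
    rintro p ⟨⟨h1, h2, h3⟩, h4⟩
    refine ⟨h1, ?_, band_one_le h1 h2, h4⟩
    have h5 : ((τ₀ : ℂ)) • (1 : Matrix n n ℂ) - p.1 =
        (((p.2 : ℝ) : ℂ) • (1 : Matrix n n ℂ) - p.1) + ((τ₀ - p.2 : ℝ) : ℂ) • 1 := by
      push_cast
      rw [sub_smul]
      abel
    rw [h5]
    exact h2.add (smul_one_psd (by linarith))
  obtain ⟨p, hp, hmin⟩ := hcomp.exists_isMinOn ⟨(H₀, τ₀), h, le_refl _⟩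
    (continuous_snd.continuousOn (s := S))
  refine ⟨p.1, p.2, hp.1, ?_⟩
  intro H' τ' h'
  by_cases hle : τ' ≤ τ₀
  · exact hmin (show (H', τ') ∈ S from ⟨h', hle⟩)
  · exact hp.2.trans (not_le.1 hle).le

theorem slack_aux (T : Matrix (n × m) (n × m) ℂ) (L : Matrix n n ℂ → Matrix (n × m) (n × m) ℂ)
    (hL : ∀ H K, Gam T (H + K) = Gam T H + L K) (τ : ℝ) (hτ : 1 ≤ τ) :
    ∃ (H : Matrix n n ℂ) (s : ℝ), 0 ≤ s ∧ (H - 1).PosSemidef ∧
      ((τ : ℂ) • (1 : Matrix n n ℂ) - H).PosSemidef ∧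
      (Gam T H + (s : ℂ) • (1 : Matrix (n × m) (n × m) ℂ)).PosSemidef ∧
      (s = 0 ∨ ∀ K : Matrix n n ℂ, K.IsHermitian →
        ¬ ((H - 1 + K).PosDef ∧ ((τ : ℂ) • (1 : Matrix n n ℂ) - H - K).PosDef ∧
          (Gam T H + (s : ℂ) • (1 : Matrix (n × m) (n × m) ℂ) + L K).PosDef)) := by
  have hG : (Gam T (1 : Matrix n n ℂ)).IsHermitian := by
    unfold Gam Matrix.IsHermitian
    simp only [conjTranspose_sub, conjTranspose_mul, conjTranspose_kronecker, conjTranspose_one,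
      conjTranspose_conjTranspose, Matrix.mul_assoc]
  obtain ⟨s₀, hs₀, hs₁⟩ := herm_add hG
  set b : ℝ := max τ s₀ with hb
  set S : Set (Matrix n n ℂ × ℝ) := {p | (p.1 - 1).PosSemidef ∧
      ((τ : ℂ) • (1 : Matrix n n ℂ) - p.1).PosSemidef ∧
      (Gam T p.1 + ((p.2 : ℝ) : ℂ) • (1 : Matrix (n × m) (n × m) ℂ)).PosSemidef ∧
      0 ≤ p.2 ∧ p.2 ≤ s₀} with hS
  have hc : IsClosed S := by
    have e1 : Continuous fun p : Matrix n n ℂ × ℝ => p.1 - 1 := continuous_fst.sub continuous_const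
    have e2 : Continuous fun p : Matrix n n ℂ × ℝ => ((τ : ℝ) : ℂ) • (1 : Matrix n n ℂ) - p.1 :=
      continuous_const.sub continuous_fst
    have e3 : Continuous fun p : Matrix n n ℂ × ℝ =>
        Gam T p.1 + ((p.2 : ℝ) : ℂ) • (1 : Matrix (n × m) (n × m) ℂ) :=
      ((continuous_Gam T).comp continuous_fst).add
        ((Complex.continuous_ofReal.comp continuous_snd).smul continuous_const)
    have h1 := isClosed_psd.preimage e1
    have h2 := isClosed_psd.preimage e2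
    have h3 := isClosed_psd.preimage e3
    have h4 : IsClosed {p : Matrix n n ℂ × ℝ | 0 ≤ p.2} := isClosed_le continuous_const continuous_snd
    have h5 : IsClosed {p : Matrix n n ℂ × ℝ | p.2 ≤ s₀} := isClosed_le continuous_snd continuous_const
    exact h1.inter (h2.inter (h3.inter (h4.inter h5)))
  have hcomp : IsCompact S := by
    refine isCompact_pairs 0 b S hc ?_
    rintro p ⟨h1, h2, h3, h4, h5⟩
    refine ⟨h1, ?_, h4, h5.trans (le_max_right _ _)⟩
    have h5 : ((b : ℂ)) • (1 : Matrix n n ℂ) - p.1 =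
        (((τ : ℝ) : ℂ) • (1 : Matrix n n ℂ) - p.1) + ((b - τ : ℝ) : ℂ) • 1 := by
      push_cast
      rw [sub_smul]
      abel
    rw [h5]
    exact h2.add (smul_one_psd (by linarith [le_max_left τ s₀]))
  have hne : ((1 : Matrix n n ℂ), s₀) ∈ S := by
    refine ⟨?_, ?_, hs₁, hs₀, le_refl _⟩
    · show ((1 : Matrix n n ℂ) - 1).PosSemidef
      rw [sub_self]; exact PosSemidef.zero
    · show ((τ : ℂ) • (1 : Matrix n n ℂ) - 1).PosSemidef
      have h5 : (τ : ℂ) • (1 : Matrix n n ℂ) - 1 = ((τ - 1 : ℝ) : ℂ) • 1 := by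
        push_cast
        rw [sub_smul, one_smul]
      rw [h5]
      exact smul_one_psd (by linarith)
  obtain ⟨p, hp, hmin⟩ := hcomp.exists_isMinOn ⟨_, hne⟩ (continuous_snd.continuousOn (s := S))
  obtain ⟨h1, h2, h3, h4, h5⟩ := hp
  refine ⟨p.1, p.2, h4, h1, h2, h3, ?_⟩
  by_cases h0 : p.2 = 0
  · exact Or.inl h0
  right
  rintro K hK ⟨k1, k2, k3⟩
  have hpos : 0 < p.2 := lt_of_le_of_ne h4 (Ne.symm h0)
  obtain ⟨r, hr, hr2⟩ := posDef_sub k3
  set ε : ℝ := min r p.2 with hε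
  have hε0 : 0 < ε := lt_min hr hpos
  have hmem : (p.1 + K, p.2 - ε) ∈ S := by
    refine ⟨?_, ?_, ?_, ?_, ?_⟩
    · have := k1.posSemidef
      show (p.1 + K - 1).PosSemidef
      convert this using 1
      abel
    · have := k2.posSemidef
      show ((τ : ℂ) • (1 : Matrix n n ℂ) - (p.1 + K)).PosSemidef
      convert this using 1
      abel
    · show (Gam T (p.1 + K) + ((p.2 - ε : ℝ) : ℂ) • (1 : Matrix (n × m) (n × m) ℂ)).PosSemidef
      have h6 : Gam T (p.1 + K) + ((p.2 - ε : ℝ) : ℂ) • (1 : Matrix (n × m) (n × m) ℂ) =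
          (Gam T p.1 + ((p.2 : ℝ) : ℂ) • (1 : Matrix (n × m) (n × m) ℂ) + L K - (r : ℂ) • 1) +
            ((r - ε : ℝ) : ℂ) • 1 := by
        rw [hL]
        push_cast
        rw [sub_smul, sub_smul]
        abel
      rw [h6]
      exact hr2.add (smul_one_psd (by linarith [min_le_left r p.2]))
    · show 0 ≤ p.2 - ε
      linarith [min_le_right r p.2]
    · show p.2 - ε ≤ s₀
      linarith
  have := hmin hmem
  have h7 : p.2 ≤ p.2 - ε := this
  linarith

end Crest.Agent.R132.OptAux
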