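import Crest.Agent.R132.Defs
import Crest.Agent.R132.OptAux
import Crest.Agent.R132.OptAAux

/-!
# Piece OPT : existence of optimal pairs, minimal slack, linear map Γ

* `GamL T` : the linear map `H ↦ Gam T H`; `GamA T` its trace adjoint `Z ↦ trm Z - trm (T Z Tᴴ)`.
* `opt_exists`: minimise `τ` over the compact set of feasible pairs with `τ ≤ τ₀` (entries of `H` are bounded by `τ₀` because
  `1 ≤ H ≤ τ₀`; the PSD cone is closed); `n` nonempty gives `τ ≥ 1`.
* `opt_no_strict`: if all three are positive definite then `(H + K, τ - ε)` is feasible for small `ε > 0` (a positive definite matrix stays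
  positive definite after subtracting `ε • 1`: smallest eigenvalue / compact sphere).
* `slack`: for fixed `τ ≥ 1` minimise `s ≥ 0` over `{(H, s) : 1 ≤ H ≤ τ, Gam T H + s ≥ 0}` (nonempty: `H = 1`, `s` large;
  compact for `s ≤ s₀`).
-/

set_option autoImplicit false
open Matrix
open scoped ComplexOrder Kronecker

namespace Crest.Agent.R132

variable {n m : Type} [Fintype n] [DecidableEq n] [Fintype m] [DecidableEq m]

/-- `H ↦ Gam T H` as a linear map -/
noncomputable def GamL (T : Matrix (n × m) (n × m) ℂ) :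
    Matrix n n ℂ →ₗ[ℂ] Matrix (n × m) (n × m) ℂ where
  toFun := Gam T
  map_add' := OptA.gam_add T
  map_smul' := OptA.gam_smul T

/-- the trace adjoint -/
noncomputable def GamA (T : Matrix (n × m) (n × m) ℂ) :
    Matrix (n × m) (n × m) ℂ →ₗ[ℂ] Matrix n n ℂ where
  toFun Z := trm Z - trm (T * Z * Tᴴ)
  map_add' := by
    intro Z W
    rw [Matrix.mul_add, Matrix.add_mul, OptA.trm_add, OptA.trm_add]
    abel
  map_smul' := by
    intro c Z
    rw [Matrix.mul_smul, Matrix.smul_mul, OptA.trm_smul, OptA.trm_smul, RingHom.id_apply,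
      smul_sub]

theorem GamL_adj (T : Matrix (n × m) (n × m) ℂ) (K : Matrix n n ℂ) (Z : Matrix (n × m) (n × m) ℂ) :
    (GamL T K * Z).trace = (K * GamA T Z).trace :=
  OptA.gam_adj T K Z

theorem GamL_herm (T : Matrix (n × m) (n × m) ℂ) (K : Matrix n n ℂ) (hK : K.IsHermitian) :
    (GamL T K).IsHermitian :=
  OptA.gam_herm T K hK

theorem opt_exists [Nonempty n] (T : Matrix (n × m) (n × m) ℂ) (h : ∃ H τ, TFeas T H τ) :
    ∃ H τ, TOpt T H τ := by
  obtain ⟨H, τ, h⟩ := h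
  exact OptAux.exists_min T H h

theorem opt_one_le [Nonempty n] (T : Matrix (n × m) (n × m) ℂ) {H : Matrix n n ℂ} {τ : ℝ}
    (h : TFeas T H τ) : 1 ≤ τ :=
  OptA.one_le T h

theorem opt_no_strict (T : Matrix (n × m) (n × m) ℂ) {H : Matrix n n ℂ} {τ : ℝ}
    (h : TOpt T H τ) (K : Matrix n n ℂ) (hK : K.IsHermitian) :
    ¬ ((H - 1 + K).PosDef ∧ ((τ : ℂ) • (1 : Matrix n n ℂ) - H - K).PosDef ∧
      (Gam T H + GamL T K).PosDef) :=
  OptA.no_strict T h K

theorem slack (T : Matrix (n × m) (n × m) ℂ) (τ : ℝ) (hτ : 1 ≤ τ) :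
    ∃ (H : Matrix n n ℂ) (s : ℝ), 0 ≤ s ∧ (H - 1).PosSemidef ∧
      ((τ : ℂ) • (1 : Matrix n n ℂ) - H).PosSemidef ∧
      (Gam T H + (s : ℂ) • (1 : Matrix (n × m) (n × m) ℂ)).PosSemidef ∧
      (s = 0 ∨ ∀ K : Matrix n n ℂ, K.IsHermitian →
        ¬ ((H - 1 + K).PosDef ∧ ((τ : ℂ) • (1 : Matrix n n ℂ) - H - K).PosDef ∧
          (Gam T H + (s : ℂ) • (1 : Matrix (n × m) (n × m) ℂ) + GamL T K).PosDef)) :=
  OptAux.slack_aux T (fun K => GamL T K) (fun H K => (GamL T).map_add H K) τ hτ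

end Crest.Agent.R132
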