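/-!
# Row 132: the complete Crouzeix conjecture with constant 2 (S0179, S0180, S0181).  Own proof (helper18, with helper11).

See also the research table.  Notation as in `Defs.lean`.

1. Exterior map `G t = c t + g(1/t)` of a convex curve.  The double layer kernel `k(t,s) = 2 Re [t G'(t)/(G t - G s)] = 1 + 2 Re Λ(t,s) ≥ 0` is
   doubly stochastic with respect to arc measure `m` on `|t| = 1` (`Λ` is exterior analytic in both variables), so it is a contraction of `L²(m)`.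
   If `w(G t) = ∑_{n≥0} w_n tⁿ + (exterior part vanishing at ∞)` then the exterior part is the image of `∑_{n≥1} w_n tⁿ` under the kernel, hence
   `∫ |w(G)|² dm ≤ 2 ∑ |w_n|² - |w_0|²`   (`l2_bound`).
2. `R_A(t) = t G'(t) (G t - A)⁻¹` is exterior analytic, `R_A(∞) = 1`, and `Re R_A ≥ 0` on the circle when the curve encloses the numerical range.
3. Optimal metric `1 ≤ H ≤ κ²`, `Tᴴ (H⊗1) T ≤ H ⊗ 1`, `T = h[A]`, `‖h‖ < 1` on `V`.  Multipliers (separation) + transfer function (unitary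
   colligation) give families `Y', X'` with `X' = v[A] Y'`, `‖v‖ ≤ 1` on `V`, `H X' = X'`, `H Y' = κ² Y'`, `X'ᴴ Y' = 0`,
   `⟨v[A] g, X'⟩_H = ⟨g, Y'⟩_H`.
4. `ℓ = ∫ ‖X'ᴴ R_A Y'‖²`.  From 1 and 3 (`lower`): `∫‖X'ᴴ R_A X'‖² + ‖X'ᴴX'‖² ≤ 2ℓ`, `κ⁴ (∫‖Y'ᴴ R_A Y'‖² + ‖Y'ᴴY'‖²) ≤ 2 ℓ`.
   From 2 (`upper`): `ℓ ≤ √(2(..x..)) √(2(..y..)) ≤ √(4ℓ) √(4ℓ/κ⁴) = 4ℓ/κ²`.  So `κ² ≤ 4` (`core`).
5. Exterior maps between a compact convex `K` and an open convex `V ⊇ K`: Schwarz-Christoffel for equiangular polygons, parameter problem by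
   Brouwer (`exists_ext`).  No Riemann mapping theorem.
6. S0179: compression to a finite dimensional space, `fin_crouzeix`.  S0180: `m = 1`, `h = f`.  S0181: Poisson kernel of the H-contraction.
-/
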