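import Crest.Agent.R132.FinCrouzeix

/-!
# Piece RED179 : reduction of S0179 to matrices (then S0179 itself)

`F = span {A^k v_j : k ≤ d, j < m}`, finite dimensional; orthonormal basis `b : Fin n → H` of `F`
(`stdOrthonormalBasis`), `A_F = (⟨b_i, A b_j⟩)`.  `x ∈ ℂⁿ` unit ↦ `∑ x_i b_i` unit, same value of the quadratic form, so
`nrange A_F ⊆ {⟨x, A x⟩ : ‖x‖ = 1}`.  With `v'_j` the coordinates of `v_j`: `A_F^k v'_j` are the coordinates of `A^k v_j` for `k ≤ d`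
(`A^k v_j ∈ F`), so `P[A_F] v'` is the coordinate vector of `P[A] v` and norms agree.  If `v = 0` trivial; otherwise `n ≥ 1`.
-/

set_option autoImplicit false

namespace Crest.Agent.R132

open scoped Kronecker
open Matrix WithLp

namespace Red

section

variable {H : Type*} [NormedAddCommGroup H] [InnerProductSpace ℂ H] [CompleteSpace H]

/-- compression of an operator by an isometry from `ℂⁿ` -/
noncomputable def cmp {n : ℕ} (J : EuclideanSpace ℂ (Fin n) →ₗᵢ[ℂ] H) (A : H →L[ℂ] H) :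
    Matrix (Fin n) (Fin n) ℂ :=
  (Matrix.toEuclideanLin (𝕜 := ℂ) (m := Fin n) (n := Fin n)).symm
    ((((J.toContinuousLinearMap).adjoint ∘L A) ∘L J.toContinuousLinearMap :
      EuclideanSpace ℂ (Fin n) →L[ℂ] EuclideanSpace ℂ (Fin n)) :
      EuclideanSpace ℂ (Fin n) →ₗ[ℂ] EuclideanSpace ℂ (Fin n))

theorem cmp_apply {n : ℕ} (J : EuclideanSpace ℂ (Fin n) →ₗᵢ[ℂ] H) (A : H →L[ℂ] H)
    (x : EuclideanSpace ℂ (Fin n)) :
    Matrix.toEuclideanLin (cmp J A) x = (J.toContinuousLinearMap).adjoint (A (J x)) := by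
  unfold cmp
  rw [LinearEquiv.apply_symm_apply]
  rfl

theorem cmp_mulVec {n : ℕ} (J : EuclideanSpace ℂ (Fin n) →ₗᵢ[ℂ] H) (A : H →L[ℂ] H)
    (x : EuclideanSpace ℂ (Fin n)) :
    cmp J A *ᵥ ofLp x = ofLp ((J.toContinuousLinearMap).adjoint (A (J x))) := by
  rw [← cmp_apply]
  rfl

theorem nrange_cmp {n : ℕ} (J : EuclideanSpace ℂ (Fin n) →ₗᵢ[ℂ] H) (A : H →L[ℂ] H) {z : ℂ}
    (hz : z ∈ nrange (cmp J A)) : ∃ x : H, ‖x‖ = 1 ∧ z = inner ℂ x (A x) := by
  obtain ⟨x, hx, rfl⟩ := hz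
  refine ⟨J x, by rw [J.norm_map, hx], ?_⟩
  rw [cmp_apply, ContinuousLinearMap.adjoint_inner_right]
  rfl

theorem adj_J {n : ℕ} (J : EuclideanSpace ℂ (Fin n) →ₗᵢ[ℂ] H) (y : EuclideanSpace ℂ (Fin n)) :
    (J.toContinuousLinearMap).adjoint (J y) = y := by
  have h := (ContinuousLinearMap.norm_map_iff_adjoint_comp_self (J.toContinuousLinearMap)).1
    (fun x => J.norm_map x)
  exact congrArg (fun f : EuclideanSpace ℂ (Fin n) →L[ℂ] EuclideanSpace ℂ (Fin n) => f y) h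

/-- powers of the compression on vectors whose powers stay in the range of `J` -/
theorem cmp_pow {n : ℕ} (J : EuclideanSpace ℂ (Fin n) →ₗᵢ[ℂ] H) (A : H →L[ℂ] H) (x : H) (d : ℕ)
    (h : ∀ k, k ≤ d → ∃ y, J y = (A ^ k) x) (k : ℕ) (hk : k ≤ d) :
    (cmp J A) ^ k *ᵥ ofLp ((J.toContinuousLinearMap).adjoint x) =
      ofLp ((J.toContinuousLinearMap).adjoint ((A ^ k) x)) := by
  induction k with
  | zero => simp
  | succ k ih =>
    rw [pow_succ', ← Matrix.mulVec_mulVec, ih (by omega), cmp_mulVec]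
    obtain ⟨y, hy⟩ := h k (by omega)
    rw [← hy, adj_J, hy, pow_succ']
    rfl

theorem norm_adj_J {n : ℕ} (J : EuclideanSpace ℂ (Fin n) →ₗᵢ[ℂ] H) {x : H} (h : ∃ y, J y = x) :
    ‖(J.toContinuousLinearMap).adjoint x‖ = ‖x‖ := by
  obtain ⟨y, rfl⟩ := h
  rw [adj_J, J.norm_map]

/-- coordinates of a family of vectors -/
noncomputable def crd {n m : ℕ} (J : EuclideanSpace ℂ (Fin n) →ₗᵢ[ℂ] H) (w : Fin m → H) :
    EuclideanSpace ℂ (Fin n × Fin m) :=
  toLp 2 (fun p => (J.toContinuousLinearMap).adjoint (w p.2) p.1)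

theorem norm_crd {n m : ℕ} (J : EuclideanSpace ℂ (Fin n) →ₗᵢ[ℂ] H) (w : Fin m → H)
    (h : ∀ l, ∃ y, J y = w l) :
    ‖crd J w‖ = ‖(toLp 2 w : PiLp 2 (fun _ : Fin m => H))‖ := by
  rw [EuclideanSpace.norm_eq, PiLp.norm_eq_of_L2]
  congr 1
  rw [Fintype.sum_prod_type_right]
  refine Finset.sum_congr rfl fun l _ => ?_
  have h1 : ‖w l‖ ^ 2 = ‖(J.toContinuousLinearMap).adjoint (w l)‖ ^ 2 := by
    rw [norm_adj_J J (h l)]
  have h2 : ((toLp 2 w : PiLp 2 (fun _ : Fin m => H))) l = w l := rfl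
  rw [h2, h1, EuclideanSpace.norm_sq_eq]
  rfl

end

end Red

theorem s0179_aux
    {H : Type*} [NormedAddCommGroup H] [InnerProductSpace ℂ H] [CompleteSpace H]
    (A : H →L[ℂ] H) (m d : ℕ) (B : Fin (d + 1) → Matrix (Fin m) (Fin m) ℂ) (M : ℝ)
    (hM : ∀ x : H, ‖x‖ = 1 →
      ‖Matrix.toEuclideanCLM (n := Fin m) (𝕜 := ℂ)
          (∑ k : Fin (d + 1), (inner ℂ x (A x)) ^ (k : ℕ) • B k)‖ ≤ M)
    (v : PiLp 2 (fun _ : Fin m => H)) :
    ‖(WithLp.toLp 2 (fun i : Fin m => ∑ j : Fin m, ∑ k : Fin (d + 1), B k i j • (A ^ (k : ℕ)) (v j))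
        : PiLp 2 (fun _ : Fin m => H))‖ ≤ 2 * M * ‖v‖ := by
  classical
  by_cases hv : v = 0
  · subst hv
    have : (fun i : Fin m => ∑ j : Fin m, ∑ k : Fin (d + 1),
        B k i j • (A ^ (k : ℕ)) ((0 : PiLp 2 (fun _ : Fin m => H)) j)) = 0 := by
      funext i
      simp
    rw [this]
    simp
  -- the finite dimensional subspace
  set F : Submodule ℂ H := Submodule.span ℂ
    (Set.range fun p : Fin (d + 1) × Fin m => (A ^ (p.1 : ℕ)) (v p.2)) with hF
  have : FiniteDimensional ℂ F := FiniteDimensional.span_of_finite ℂ (Set.finite_range _)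
  set n := Module.finrank ℂ F with hn
  let b : OrthonormalBasis (Fin n) ℂ F := stdOrthonormalBasis ℂ F
  let J : EuclideanSpace ℂ (Fin n) →ₗᵢ[ℂ] H :=
    F.subtypeₗᵢ.comp b.repr.symm.toLinearIsometry
  have hJ : ∀ x ∈ F, ∃ y, J y = x := by
    intro x hx
    refine ⟨b.repr ⟨x, hx⟩, ?_⟩
    show ((b.repr.symm (b.repr ⟨x, hx⟩) : F) : H) = x
    rw [LinearIsometryEquiv.symm_apply_apply]
  have hmem : ∀ (k : ℕ), k ≤ d → ∀ j, (A ^ k) (v j) ∈ F := by
    intro k hk j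
    exact Submodule.subset_span ⟨(⟨k, by omega⟩, j), rfl⟩
  obtain ⟨j₀, hj₀⟩ : ∃ j, v j ≠ 0 := by
    by_contra h
    push Not at h
    exact hv (by ext j; simpa using h j)
  have hnpos : 0 < n := by
    have : Nontrivial F := by
      refine ⟨⟨v j₀, by simpa using hmem 0 (Nat.zero_le _) j₀⟩, 0, ?_⟩
      intro h
      exact hj₀ (congrArg Subtype.val h)
    exact Module.finrank_pos
  have : Nonempty (Fin n) := ⟨⟨0, hnpos⟩⟩
  -- the matrix data
  let B' : ℕ → Matrix (Fin m) (Fin m) ℂ := fun k => if h : k < d + 1 then B ⟨k, h⟩ else 0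
  have hB' : ∀ k : Fin (d + 1), B' k = B k := fun k => dif_pos k.2
  have hfin := fin_crouzeix (Red.cmp J A) d B' M (by
    intro z hz
    obtain ⟨x, hx, rfl⟩ := Red.nrange_cmp J A hz
    have := hM x hx
    rw [Finset.sum_range]
    simp only [hB']
    exact this)
  -- the coordinate vector
  let w : Fin m → H := fun i => ∑ j : Fin m, ∑ k : Fin (d + 1), B k i j • (A ^ (k : ℕ)) (v j)
  have hwF : ∀ i, ∃ y, J y = w i := fun i => hJ _ (Submodule.sum_mem _ fun j _ =>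
    Submodule.sum_mem _ fun k _ => Submodule.smul_mem _ _ (hmem k (by omega) j))
  have hvF : ∀ j, ∃ y, J y = v j := fun j => hJ _ (by simpa using hmem 0 (Nat.zero_le _) j)
  have key : Matrix.toEuclideanCLM (n := Fin n × Fin m) (𝕜 := ℂ)
      (∑ k ∈ Finset.range (d + 1), (Red.cmp J A ^ k) ⊗ₖ (B' k)) (Red.crd J v) = Red.crd J w := by
    rw [← WithLp.ofLp_injective 2 |>.eq_iff, Matrix.ofLp_toEuclideanCLM, Finset.sum_range]
    funext p
    obtain ⟨i, l⟩ := p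
    rw [Matrix.sum_mulVec, Finset.sum_apply]
    have h1 : ∀ k : Fin (d + 1), (((Red.cmp J A ^ (k : ℕ)) ⊗ₖ (B' k)) *ᵥ ofLp (Red.crd J v)) (i, l) =
        ∑ j : Fin m, B k l j * ((J.toContinuousLinearMap).adjoint ((A ^ (k : ℕ)) (v j))) i := by
      intro k
      rw [Matrix.mulVec, dotProduct, Fintype.sum_prod_type_right]
      refine Finset.sum_congr rfl fun j _ => ?_
      have h2 := congrFun (Red.cmp_pow J A (v j) d (fun k hk => hJ _ (hmem k hk j)) k (by omega)) i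
      rw [← h2, Matrix.mulVec, dotProduct, Finset.mul_sum]
      refine Finset.sum_congr rfl fun i' _ => ?_
      rw [Matrix.kroneckerMap_apply, hB']
      simp only [Red.crd]
      ring
    rw [Finset.sum_congr rfl fun k _ => h1 k, Finset.sum_comm]
    simp only [Red.crd, w, map_sum, map_smul]
    rw [WithLp.ofLp_sum, Finset.sum_apply]
    refine Finset.sum_congr rfl fun j _ => ?_
    rw [WithLp.ofLp_sum, Finset.sum_apply]
    rfl
  have h1 : ‖(toLp 2 w : PiLp 2 (fun _ : Fin m => H))‖ = ‖Red.crd J w‖ :=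
    (Red.norm_crd J w hwF).symm
  have h2 : ‖Red.crd J v‖ = ‖v‖ := Red.norm_crd J v hvF
  change ‖(toLp 2 w : PiLp 2 (fun _ : Fin m => H))‖ ≤ 2 * M * ‖v‖
  rw [h1, ← key, ← h2]
  refine (ContinuousLinearMap.le_opNorm _ _).trans ?_
  exact mul_le_mul_of_nonneg_right hfin (norm_nonneg _)

end Crest.Agent.R132
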