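import Crest.Agent.R132.ExtAnBasic
import Crest.Agent.R132.Curve

/-!
# Piece RES : the resolvent on the exterior of the curve

* invertibility: an eigenvalue `a` of `A` with unit eigenvector `x` equals `⟨x, A x⟩ ∈ nrange A`; `Encl.ne`.
* exterior analyticity: with `u = t⁻¹`, `RA = (c - u² g'(u)) • ((c + u g(u)) • 1 - u • A)⁻¹`; the determinant is
  analytic in `u` on `ball 0 ρ`, `≠ 0` on the closed unit disc (`u = 0`: `c^n`), hence `≠ 0` on a slightly larger disc
  (compactness + continuity); entries are `adjugate/det`.  Value at `u = 0`: the identity.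
* positivity: for a vector `y = (G t - A) x`: `⟨RA y, y⟩ = conj (t dG t) ⟨x, (G t - A) x⟩` (up to conjugation), and
  `Re (t dG t * conj (G t - a)) ≥ 0` for `a = ⟨x, A x⟩ / ‖x‖²` in the numerical range.
-/

set_option autoImplicit false
open Metric Set Matrix
open scoped ComplexOrder

namespace Crest.Agent.R132

variable {n : Type} [Fintype n] [DecidableEq n] {e : Ext} {A : Matrix n n ℂ} {V : Set ℂ}

theorem spectrum_subset_nrange (A : Matrix n n ℂ) : spectrum ℂ A ⊆ nrange A := by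
  intro a ha
  rw [← Matrix.spectrum_toLpLin 2] at ha
  have h1 := Module.End.hasEigenvalue_iff_mem_spectrum.2 ha
  obtain ⟨x, hx⟩ := h1.exists_hasEigenvector
  have hx0 : x ≠ 0 := hx.2
  have hx1 : Matrix.toEuclideanLin A x = a • x := hx.apply_eq_smul
  have hn : (‖x‖ : ℂ) ≠ 0 := by exact_mod_cast norm_ne_zero_iff.2 hx0
  refine ⟨(‖x‖ : ℂ)⁻¹ • x, ?_, ?_⟩
  · rw [norm_smul, norm_inv, Complex.norm_real, norm_norm]
    exact inv_mul_cancel₀ (norm_ne_zero_iff.2 hx0)
  · rw [map_smul, hx1, inner_smul_left, inner_smul_right, inner_smul_right, inner_self_eq_norm_sq_to_K]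
    simp only [map_inv₀, Complex.conj_ofReal, Complex.coe_algebraMap]
    field_simp

theorem res_isUnit (hs : Sit e A V) (t : ℂ) (ht : 1 ≤ ‖t‖) :
    IsUnit (e.G t • (1 : Matrix n n ℂ) - A) := by
  rw [← Algebra.algebraMap_eq_smul_one, ← spectrum.notMem_iff]
  intro h
  exact hs.encl.ne t ht _ (spectrum_subset_nrange A h) rfl

namespace Res_aux

theorem differentiableOn_det {U : Set ℂ} {M : ℂ → Matrix n n ℂ}
    (h : ∀ i j, DifferentiableOn ℂ (fun u => M u i j) U) :
    DifferentiableOn ℂ (fun u => (M u).det) U := by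
  simp only [Matrix.det_apply]
  refine DifferentiableOn.fun_sum fun σ _ => ?_
  refine DifferentiableOn.const_smul (DifferentiableOn.fun_finsetProd fun i _ => h _ _) _

theorem differentiableOn_adjugate {U : Set ℂ} {M : ℂ → Matrix n n ℂ}
    (h : ∀ i j, DifferentiableOn ℂ (fun u => M u i j) U) (i j : n) :
    DifferentiableOn ℂ (fun u => (M u).adjugate i j) U := by
  simp only [Matrix.adjugate_apply]
  refine differentiableOn_det fun k l => ?_
  by_cases hk : k = j
  · subst hk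
    simp only [Matrix.updateRow_self]
    exact differentiableOn_const _
  · simp only [Matrix.updateRow_ne hk]
    exact h k l

theorem differentiableOn_inv {U : Set ℂ} {M : ℂ → Matrix n n ℂ}
    (h : ∀ i j, DifferentiableOn ℂ (fun u => M u i j) U) (hd : ∀ u ∈ U, (M u).det ≠ 0) (i j : n) :
    DifferentiableOn ℂ (fun u => (M u)⁻¹ i j) U := by
  simp only [Matrix.inv_def, Matrix.smul_apply, Ring.inverse_eq_inv', smul_eq_mul]
  exact ((differentiableOn_det h).fun_inv hd).mul (differentiableOn_adjugate h i j)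

end Res_aux

open Res_aux

theorem res_extAn (hs : Sit e A V) (i j : n) :
    ExtAn (fun t => RA e A t i j) ((1 : Matrix n n ℂ) i j) := by
  obtain ⟨M, hM⟩ : ∃ M : ℂ → Matrix n n ℂ, M = fun u =>
      (e.c + u * e.g u) • (1 : Matrix n n ℂ) - u • A := ⟨_, rfl⟩
  have hMd : ∀ k l, DifferentiableOn ℂ (fun u => M u k l) (ball 0 e.ρ) := by
    intro k l
    rw [hM]
    simp only [Matrix.sub_apply, Matrix.smul_apply, smul_eq_mul]
    exact (((differentiableOn_const _).add (differentiableOn_id.mul e.hg)).mul_const _).sub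
      (differentiableOn_id.mul_const _)
  have hMt : ∀ u : ℂ, u ≠ 0 → e.G u⁻¹ • (1 : Matrix n n ℂ) - A = u⁻¹ • M u := by
    intro u hu
    rw [hM]
    simp only [Ext.G, inv_inv, smul_sub, smul_smul]
    congr 2
    · field_simp
    · rw [inv_mul_cancel₀ hu, one_smul]
  have hdet : ∀ u ∈ closedBall (0 : ℂ) 1, (M u).det ≠ 0 := by
    intro u hu
    rw [mem_closedBall_zero_iff] at hu
    by_cases hu0 : u = 0
    · rw [hu0, hM]
      simp only [zero_mul, add_zero, zero_smul, sub_zero, Matrix.det_smul, Matrix.det_one, mul_one]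
      exact pow_ne_zero _ e.hc
    · have h1 : IsUnit (e.G u⁻¹ • (1 : Matrix n n ℂ) - A) := by
        refine res_isUnit hs _ ?_
        rw [norm_inv]
        exact (one_le_inv₀ (norm_pos_iff.2 hu0)).2 hu
      rw [hMt u hu0, Matrix.isUnit_iff_isUnit_det, Matrix.det_smul] at h1
      exact right_ne_zero_of_mul h1.ne_zero
  have hopen : IsOpen (ball (0 : ℂ) e.ρ ∩ {u | (M u).det ≠ 0}) := by
    have h1 := (differentiableOn_det hMd).continuousOn.isOpen_inter_preimage isOpen_ball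
      (isOpen_compl_singleton (x := (0 : ℂ)))
    exact h1
  have hsub : closedBall (0 : ℂ) 1 ⊆ ball (0 : ℂ) e.ρ ∩ {u | (M u).det ≠ 0} := fun u hu =>
    ⟨closedBall_subset_ball e.hρ hu, hdet u hu⟩
  obtain ⟨δ, hδ, hth⟩ := (isCompact_closedBall (0 : ℂ) 1).exists_thickening_subset_open hopen hsub
  rw [thickening_closedBall hδ zero_le_one] at hth
  have hsub1 : ball (0 : ℂ) (δ + 1) ⊆ ball 0 e.ρ := fun u hu => (hth hu).1
  refine ⟨δ + 1, fun u => (e.c - deriv e.g u * u ^ 2) * (M u)⁻¹ i j, by linarith, ?_, ?_, ?_⟩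
  · refine DifferentiableOn.mul ?_ ?_
    · refine (differentiableOn_const _).sub (DifferentiableOn.mul ?_ ?_)
      · exact (e.hg.deriv isOpen_ball).mono hsub1
      · exact (differentiableOn_id.pow 2)
    · exact differentiableOn_inv (fun k l => (hMd k l).mono hsub1) (fun u hu => (hth hu).2) i j
  · have h0 : M 0 = e.c • (1 : Matrix n n ℂ) := by
      rw [hM]
      simp
    have h1 : (M 0)⁻¹ = e.c⁻¹ • (1 : Matrix n n ℂ) := by
      rw [h0]
      refine Matrix.inv_eq_right_inv ?_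
      rw [smul_mul_smul_comm, mul_one, mul_inv_cancel₀ e.hc, one_smul]
    simp only [h1, Matrix.smul_apply, smul_eq_mul]
    have := e.hc
    field_simp
    ring
  · intro t ht
    have ht0 : t ≠ 0 := by
      intro h
      rw [h, norm_zero] at ht
      norm_num at ht
    have hti : t⁻¹ ≠ 0 := inv_ne_zero ht0
    have h1 := hMt t⁻¹ hti
    rw [inv_inv] at h1
    have h2 : (e.G t • (1 : Matrix n n ℂ) - A)⁻¹ = t⁻¹ • (M t⁻¹)⁻¹ := by
      have hd : IsUnit (M t⁻¹).det := by
        refine isUnit_iff_ne_zero.2 (hdet _ ?_)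
        rw [mem_closedBall_zero_iff, norm_inv, ht, inv_one]
      rw [h1]
      refine Matrix.inv_eq_right_inv ?_
      rw [smul_mul_smul_comm, Matrix.mul_nonsing_inv _ hd, mul_inv_cancel₀ ht0, one_smul]
    have h3 : RA e A t i j = t * e.dG t * (t⁻¹ * (M t⁻¹)⁻¹ i j) := by
      unfold RA
      rw [h2, Matrix.smul_apply, Matrix.smul_apply, smul_eq_mul, smul_eq_mul]
    show RA e A t i j = (e.c - deriv e.g t⁻¹ * t⁻¹ ^ 2) * (M t⁻¹)⁻¹ i j
    rw [h3]
    unfold Ext.dG
    field_simp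

theorem res_posSemidef (hs : Sit e A V) (t : ℂ) (ht : ‖t‖ = 1) :
    (RA e A t + (RA e A t)ᴴ).PosSemidef := by
  refine Matrix.PosSemidef.of_dotProduct_mulVec_nonneg ?_ ?_
  · exact Matrix.isHermitian_add_transpose_self _
  · intro y
    obtain ⟨B, hB⟩ : ∃ B : Matrix n n ℂ, B = e.G t • (1 : Matrix n n ℂ) - A := ⟨_, rfl⟩
    have hBu : IsUnit B.det := by
      rw [← Matrix.isUnit_iff_isUnit_det, hB]
      exact res_isUnit hs t ht.ge
    obtain ⟨x, hx⟩ : ∃ x, x = B⁻¹ *ᵥ y := ⟨_, rfl⟩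
    have hy : y = B *ᵥ x := by
      rw [hx, Matrix.mulVec_mulVec, Matrix.mul_nonsing_inv _ hBu, Matrix.one_mulVec]
    have h1 : Star.star y ⬝ᵥ (RA e A t *ᵥ y) = (t * e.dG t) * (Star.star (B *ᵥ x) ⬝ᵥ x) := by
      unfold RA
      rw [← hB, Matrix.smul_mulVec, dotProduct_smul, smul_eq_mul, ← hx, ← hy]
    have h2 : Star.star y ⬝ᵥ ((RA e A t)ᴴ *ᵥ y) = Star.star (Star.star y ⬝ᵥ (RA e A t *ᵥ y)) := by
      rw [Matrix.star_dotProduct, Matrix.star_mulVec, Matrix.conjTranspose_conjTranspose,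
        ← Matrix.dotProduct_mulVec]
    rw [Matrix.add_mulVec, dotProduct_add, h2, h1]
    by_cases hx0 : x = 0
    · simp [hx0]
    -- the normalized vector
    obtain ⟨X, hX⟩ : ∃ X : EuclideanSpace ℂ n, X = WithLp.toLp 2 x := ⟨_, rfl⟩
    have hX0 : X ≠ 0 := by
      intro h
      apply hx0
      have := congrArg WithLp.ofLp (hX.symm.trans h)
      simpa using this
    have hXn : (‖X‖ : ℂ) ≠ 0 := by exact_mod_cast norm_ne_zero_iff.2 hX0
    have hxx : Star.star x ⬝ᵥ x = (‖X‖ : ℂ) ^ 2 := by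
      have h3 := inner_self_eq_norm_sq_to_K (𝕜 := ℂ) X
      rw [hX, EuclideanSpace.inner_toLp_toLp] at h3
      rw [← hX] at h3
      rw [dotProduct_comm]
      exact h3
    obtain ⟨a, ha⟩ : ∃ a : ℂ, a = (Star.star x ⬝ᵥ (A *ᵥ x)) / (‖X‖ : ℂ) ^ 2 := ⟨_, rfl⟩
    have han : a ∈ nrange A := by
      refine ⟨(‖X‖ : ℂ)⁻¹ • X, ?_, ?_⟩
      · rw [norm_smul, norm_inv, Complex.norm_real, norm_norm]
        exact inv_mul_cancel₀ (norm_ne_zero_iff.2 hX0)
      · rw [map_smul, inner_smul_left, inner_smul_right, hX, Matrix.toLpLin_toLp,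
          EuclideanSpace.inner_toLp_toLp, ← hX, ha, dotProduct_comm]
        simp only [map_inv₀, Complex.conj_ofReal, Matrix.toLin'_apply]
        field_simp
    have hpos := hs.encl.pos t ht a han
    have hBx : Star.star (B *ᵥ x) ⬝ᵥ x = (‖X‖ : ℂ) ^ 2 * (starRingEnd ℂ) (e.G t - a) := by
      have h4 : Star.star x ⬝ᵥ (B *ᵥ x) = (‖X‖ : ℂ) ^ 2 * (e.G t - a) := by
        rw [hB, Matrix.sub_mulVec, dotProduct_sub, Matrix.smul_mulVec, Matrix.one_mulVec,
          dotProduct_smul, hxx, ha, smul_eq_mul]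
        field_simp
      rw [Matrix.star_dotProduct, ← starRingEnd_apply, h4, map_mul, map_pow, Complex.conj_ofReal]
    rw [hBx, ← starRingEnd_apply, Complex.add_conj]
    have h5 : (t * e.dG t * ((‖X‖ : ℂ) ^ 2 * (starRingEnd ℂ) (e.G t - a))).re =
        ‖X‖ ^ 2 * (t * e.dG t * (starRingEnd ℂ) (e.G t - a)).re := by
      have h6 : t * e.dG t * ((‖X‖ : ℂ) ^ 2 * (starRingEnd ℂ) (e.G t - a)) =
          ((‖X‖ ^ 2 : ℝ) : ℂ) * (t * e.dG t * (starRingEnd ℂ) (e.G t - a)) := by
        push_cast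
        ring
      rw [h6, Complex.re_ofReal_mul]
    rw [h5]
    exact_mod_cast mul_nonneg zero_le_two (mul_nonneg (sq_nonneg _) hpos)

end Crest.Agent.R132
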