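import Crest.Agent.R132.Frob

/-!
# Piece S181AVG : averages against a PSD density of mean 1 are contractive

For vectors `x, y : n × m → ℂ`: `⟨y, (Λ ⊗ N) x⟩ = ⟨(Λ^{1/2} ⊗ 1) y, (1 ⊗ N)(Λ^{1/2} ⊗ 1) x⟩`, so
`|⟨y, (Λ⊗N) x⟩| ≤ M √⟨y,(Λ⊗1)y⟩ √⟨x,(Λ⊗1)x⟩ ≤ (M/2) (⟨y,(Λ⊗1)y⟩ + ⟨x,(Λ⊗1)x⟩)`; integrate: `|⟨y, W x⟩| ≤ (M/2)(‖y‖² + ‖x‖²)`; scale.
-/

set_option autoImplicit false
open Matrix
open scoped ComplexOrder Kronecker

namespace Crest.Agent.R132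

section aux

variable {p : Type} [Fintype p]

theorem sum_sq_toLp (u : p → ℂ) :
    ‖(WithLp.toLp 2 u : EuclideanSpace ℂ p)‖ ^ 2 = ∑ i, ‖u i‖ ^ 2 := by
  rw [EuclideanSpace.norm_sq_eq]

theorem star_dot_self (u : p → ℂ) : Star.star u ⬝ᵥ u = ((∑ i, ‖u i‖ ^ 2 : ℝ) : ℂ) := by
  push_cast
  simp only [dotProduct, Pi.star_apply]
  refine Finset.sum_congr rfl fun i _ => ?_
  rw [RCLike.star_def, Complex.conj_mul']

variable [DecidableEq p]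

theorem opn_bilin_le (X : Matrix p p ℂ) (u v : p → ℂ) :
    ‖Star.star u ⬝ᵥ (X *ᵥ v)‖ ≤ opn X / 2 * (∑ i, ‖u i‖ ^ 2 + ∑ i, ‖v i‖ ^ 2) := by
  have h1 : Star.star u ⬝ᵥ (X *ᵥ v)
      = inner ℂ (WithLp.toLp 2 u : EuclideanSpace ℂ p)
        (Matrix.toEuclideanCLM (n := p) (𝕜 := ℂ) X (WithLp.toLp 2 v)) := by
    rw [EuclideanSpace.inner_eq_star_dotProduct, dotProduct_comm]
    simp
  rw [h1, ← sum_sq_toLp, ← sum_sq_toLp]
  refine (norm_inner_le_norm _ _).trans ?_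
  have h2 : ‖Matrix.toEuclideanCLM (n := p) (𝕜 := ℂ) X (WithLp.toLp 2 v)‖
      ≤ opn X * ‖(WithLp.toLp 2 v : EuclideanSpace ℂ p)‖ := ContinuousLinearMap.le_opNorm _ _
  have h3 : 0 ≤ opn X := norm_nonneg _
  have h4 := norm_nonneg (WithLp.toLp 2 u : EuclideanSpace ℂ p)
  have h5 := norm_nonneg (WithLp.toLp 2 v : EuclideanSpace ℂ p)
  calc _ ≤ ‖(WithLp.toLp 2 u : EuclideanSpace ℂ p)‖ *
        (opn X * ‖(WithLp.toLp 2 v : EuclideanSpace ℂ p)‖) := mul_le_mul_of_nonneg_left h2 h4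
    _ ≤ _ := by
      nlinarith [mul_nonneg h3 (sq_nonneg (‖(WithLp.toLp 2 u : EuclideanSpace ℂ p)‖ -
        ‖(WithLp.toLp 2 v : EuclideanSpace ℂ p)‖))]

theorem opn_le_of_bilin (W : Matrix p p ℂ) (M : ℝ) (hM : 0 ≤ M)
    (h : ∀ u v : p → ℂ,
      ‖Star.star u ⬝ᵥ (W *ᵥ v)‖ ≤ M / 2 * (∑ i, ‖u i‖ ^ 2 + ∑ i, ‖v i‖ ^ 2)) :
    opn W ≤ M := by
  refine ContinuousLinearMap.opNorm_le_bound _ hM fun x => ?_
  set z := Matrix.toEuclideanCLM (n := p) (𝕜 := ℂ) W x with hz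
  rcases eq_or_ne z 0 with hz0 | hz0
  · rw [hz0, norm_zero]; positivity
  rcases eq_or_ne x 0 with hx0 | hx0
  · exfalso; apply hz0; rw [hz, hx0, map_zero]
  have hzn : 0 < ‖z‖ := norm_pos_iff.2 hz0
  have hxn : 0 < ‖x‖ := norm_pos_iff.2 hx0
  have h1 := h (WithLp.ofLp (((‖x‖ / ‖z‖ : ℝ) : ℂ) • z)) (WithLp.ofLp x)
  have h2 : Star.star (WithLp.ofLp (((‖x‖ / ‖z‖ : ℝ) : ℂ) • z)) ⬝ᵥ (W *ᵥ (WithLp.ofLp x))
      = inner ℂ (((‖x‖ / ‖z‖ : ℝ) : ℂ) • z) z := by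
    rw [EuclideanSpace.inner_eq_star_dotProduct, dotProduct_comm]
    congr 1
  have h3 : inner ℂ (((‖x‖ / ‖z‖ : ℝ) : ℂ) • z) z = ((‖x‖ * ‖z‖ : ℝ) : ℂ) := by
    rw [inner_smul_left, inner_self_eq_norm_sq_to_K, Complex.conj_ofReal]
    have hz' : (‖z‖ : ℂ) ≠ 0 := by exact_mod_cast hzn.ne'
    push_cast
    field_simp
    try norm_num
  have h4 : ∑ i, ‖(WithLp.ofLp (((‖x‖ / ‖z‖ : ℝ) : ℂ) • z)) i‖ ^ 2 = ‖x‖ ^ 2 := by
    have := sum_sq_toLp (WithLp.ofLp (((‖x‖ / ‖z‖ : ℝ) : ℂ) • z))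
    rw [← this]
    have h5 : ‖((‖x‖ / ‖z‖ : ℝ) : ℂ) • z‖ = ‖x‖ := by
      rw [norm_smul, Complex.norm_real, Real.norm_eq_abs, abs_of_pos (by positivity)]
      field_simp
    rw [WithLp.toLp_ofLp, h5]
  have h6 : ∑ i, ‖(WithLp.ofLp x) i‖ ^ 2 = ‖x‖ ^ 2 := by
    have := sum_sq_toLp (WithLp.ofLp x)
    rw [← this, WithLp.toLp_ofLp]
  rw [h2, h3, h4, h6, Complex.norm_real, Real.norm_eq_abs, abs_of_pos (by positivity)] at h1
  nlinarith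

end aux

theorem star_dot_mulVec {p : Type} [Fintype p] (B : Matrix p p ℂ) (y z : p → ℂ) :
    Star.star (B *ᵥ y) ⬝ᵥ z = Star.star y ⬝ᵥ (Bᴴ *ᵥ z) := by
  rw [star_mulVec, dotProduct_mulVec]

theorem one_kron_le {n m : ℕ} (N : Matrix (Fin m) (Fin m) ℂ) (y x : Fin n × Fin m → ℂ) :
    ‖Star.star y ⬝ᵥ (((1 : Matrix (Fin n) (Fin n) ℂ) ⊗ₖ N) *ᵥ x)‖
      ≤ opn N / 2 * (∑ i, ‖y i‖ ^ 2 + ∑ i, ‖x i‖ ^ 2) := by
  have h1 : Star.star y ⬝ᵥ (((1 : Matrix (Fin n) (Fin n) ℂ) ⊗ₖ N) *ᵥ x)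
      = ∑ k : Fin n, Star.star (fun c => y (k, c)) ⬝ᵥ (N *ᵥ (fun d => x (k, d))) := by
    simp only [dotProduct, mulVec, Fintype.sum_prod_type, Matrix.kroneckerMap_apply, Pi.star_apply]
    refine Finset.sum_congr rfl fun k _ => Finset.sum_congr rfl fun c _ => ?_
    congr 1
    rw [Finset.sum_eq_single k]
    · simp
    · intro b _ hb
      simp [Matrix.one_apply_ne hb.symm]
    · simp
  rw [h1, Fintype.sum_prod_type, Fintype.sum_prod_type, ← Finset.sum_add_distrib, Finset.mul_sum]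
  refine (norm_sum_le _ _).trans (Finset.sum_le_sum fun k _ => ?_)
  exact opn_bilin_le N (fun c => y (k, c)) (fun d => x (k, d))

open scoped MatrixOrder in
theorem psd_fact {n : ℕ} {Λ : Matrix (Fin n) (Fin n) ℂ} (hΛ : Λ.PosSemidef) :
    ∃ B : Matrix (Fin n) (Fin n) ℂ, Λ = Bᴴ * B := by
  obtain ⟨B, hB⟩ := CStarAlgebra.nonneg_iff_eq_star_mul_self.mp hΛ.nonneg
  exact ⟨B, hB⟩

theorem form_fact {n m : ℕ} (B : Matrix (Fin n) (Fin n) ℂ) (N : Matrix (Fin m) (Fin m) ℂ)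
    (y x : Fin n × Fin m → ℂ) :
    Star.star y ⬝ᵥ (((Bᴴ * B) ⊗ₖ N) *ᵥ x)
      = Star.star ((B ⊗ₖ (1 : Matrix (Fin m) (Fin m) ℂ)) *ᵥ y) ⬝ᵥ
        (((1 : Matrix (Fin n) (Fin n) ℂ) ⊗ₖ N) *ᵥ ((B ⊗ₖ (1 : Matrix (Fin m) (Fin m) ℂ)) *ᵥ x)) := by
  rw [star_dot_mulVec, mulVec_mulVec, mulVec_mulVec, conjTranspose_kronecker, conjTranspose_one,
    ← mul_kronecker_mul, ← mul_kronecker_mul, Matrix.one_mul, Matrix.mul_one, Matrix.mul_one]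

theorem form_bound {n m : ℕ} (Λ : Matrix (Fin n) (Fin n) ℂ) (hΛ : Λ.PosSemidef)
    (N : Matrix (Fin m) (Fin m) ℂ) (y x : Fin n × Fin m → ℂ) :
    ‖Star.star y ⬝ᵥ ((Λ ⊗ₖ N) *ᵥ x)‖ ≤ opn N / 2 *
      ((Star.star y ⬝ᵥ ((Λ ⊗ₖ (1 : Matrix (Fin m) (Fin m) ℂ)) *ᵥ y)).re
        + (Star.star x ⬝ᵥ ((Λ ⊗ₖ (1 : Matrix (Fin m) (Fin m) ℂ)) *ᵥ x)).re) := by
  obtain ⟨B, rfl⟩ := psd_fact hΛ
  have hq : ∀ v : Fin n × Fin m → ℂ,
      (Star.star v ⬝ᵥ (((Bᴴ * B) ⊗ₖ (1 : Matrix (Fin m) (Fin m) ℂ)) *ᵥ v)).re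
        = ∑ i, ‖((B ⊗ₖ (1 : Matrix (Fin m) (Fin m) ℂ)) *ᵥ v) i‖ ^ 2 := by
    intro v
    rw [form_fact, one_kronecker_one, one_mulVec, star_dot_self, Complex.ofReal_re]
  rw [hq, hq, form_fact]
  exact one_kron_le N _ _

theorem int_form {n m : ℕ} (Λ : ℝ → Matrix (Fin n) (Fin n) ℂ) (hc : Continuous Λ)
    (N : ℝ → Matrix (Fin m) (Fin m) ℂ) (hN : Continuous N)
    (W : Matrix (Fin n × Fin m) (Fin n × Fin m) ℂ)
    (hW : ∀ a b c d, W (a, c) (b, d)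
      = (2 * Real.pi : ℂ)⁻¹ * (∫ θ in (0 : ℝ)..2 * Real.pi, Λ θ a b * N θ c d))
    (y x : Fin n × Fin m → ℂ) :
    Star.star y ⬝ᵥ (W *ᵥ x) = (2 * Real.pi : ℂ)⁻¹ *
      ∫ θ in (0 : ℝ)..2 * Real.pi, Star.star y ⬝ᵥ ((Λ θ ⊗ₖ N θ) *ᵥ x) := by
  have hcont : ∀ (a b : Fin n) (c d : Fin m), Continuous fun θ => Λ θ a b * N θ c d :=
    fun a b c d => (hc.matrix_elem a b).mul (hN.matrix_elem c d)
  have h1 : ∀ θ, Star.star y ⬝ᵥ ((Λ θ ⊗ₖ N θ) *ᵥ x)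
      = ∑ p : Fin n × Fin m, ∑ q : Fin n × Fin m,
        Star.star (y p) * (Λ θ p.1 q.1 * N θ p.2 q.2) * x q := by
    intro θ
    simp only [dotProduct, mulVec, Matrix.kroneckerMap_apply, Pi.star_apply, Finset.mul_sum,
      mul_assoc]
  simp only [h1]
  rw [intervalIntegral.integral_finsetSum]
  · rw [dotProduct, Finset.mul_sum]
    refine Finset.sum_congr rfl fun p _ => ?_
    rw [intervalIntegral.integral_finsetSum]
    · rw [mulVec, dotProduct, Finset.mul_sum, Finset.mul_sum]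
      refine Finset.sum_congr rfl fun q _ => ?_
      rw [intervalIntegral.integral_mul_const, intervalIntegral.integral_const_mul]
      have h2 := hW p.1 q.1 p.2 q.2
      simp only [Prod.mk.eta] at h2
      rw [h2, Pi.star_apply]
      ring
    · intro q _
      exact ((continuous_const.mul (hcont _ _ _ _)).mul continuous_const).intervalIntegrable _ _
  · intro p _
    refine Continuous.intervalIntegrable ?_ _ _
    refine continuous_finsetSum _ fun q _ => ?_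
    exact (continuous_const.mul (hcont _ _ _ _)).mul continuous_const

theorem avg_contr {n m : ℕ} (Λ : ℝ → Matrix (Fin n) (Fin n) ℂ) (hc : Continuous Λ)
    (hpsd : ∀ θ, (Λ θ).PosSemidef)
    (hmean : ∀ a b, (2 * Real.pi : ℂ)⁻¹ * (∫ θ in (0 : ℝ)..2 * Real.pi, Λ θ a b)
        = (1 : Matrix (Fin n) (Fin n) ℂ) a b)
    (N : ℝ → Matrix (Fin m) (Fin m) ℂ) (hN : Continuous N) (M : ℝ) (hM : ∀ θ, opn (N θ) ≤ M)
    (W : Matrix (Fin n × Fin m) (Fin n × Fin m) ℂ)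
    (hW : ∀ a b c d, W (a, c) (b, d)
      = (2 * Real.pi : ℂ)⁻¹ * (∫ θ in (0 : ℝ)..2 * Real.pi, Λ θ a b * N θ c d)) :
    opn W ≤ M := by
  have hM0 : 0 ≤ M := (norm_nonneg _).trans (hM 0)
  have hpi : (0 : ℝ) < 2 * Real.pi := by positivity
  have hpiC : ‖((2 * Real.pi : ℂ))⁻¹‖ = (2 * Real.pi)⁻¹ := by
    rw [norm_inv, show (2 * Real.pi : ℂ) = ((2 * Real.pi : ℝ) : ℂ) by push_cast; ring,
      Complex.norm_real, Real.norm_eq_abs, abs_of_pos hpi]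
  refine opn_le_of_bilin W M hM0 fun y x => ?_
  have hcontF : ∀ (N' : ℝ → Matrix (Fin m) (Fin m) ℂ), Continuous N' → ∀ v w : Fin n × Fin m → ℂ,
      Continuous fun θ => Star.star v ⬝ᵥ ((Λ θ ⊗ₖ N' θ) *ᵥ w) := by
    intro N' hN' v w
    simp only [dotProduct, mulVec, Matrix.kroneckerMap_apply, Pi.star_apply]
    refine continuous_finsetSum _ fun p _ => continuous_const.mul ?_
    refine continuous_finsetSum _ fun q _ => ?_
    exact ((hc.matrix_elem _ _).mul (hN'.matrix_elem _ _)).mul continuous_const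
  have hq : ∀ v : Fin n × Fin m → ℂ, (2 * Real.pi)⁻¹ * ∫ θ in (0 : ℝ)..2 * Real.pi,
      (Star.star v ⬝ᵥ ((Λ θ ⊗ₖ (1 : Matrix (Fin m) (Fin m) ℂ)) *ᵥ v)).re = ∑ i, ‖v i‖ ^ 2 := by
    intro v
    have h1 := int_form Λ hc (fun _ => (1 : Matrix (Fin m) (Fin m) ℂ)) continuous_const
      (1 : Matrix (Fin n × Fin m) (Fin n × Fin m) ℂ) (by
        intro a b c d
        rw [intervalIntegral.integral_mul_const, ← mul_assoc, hmean a b]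
        by_cases hab : a = b
        · subst hab
          by_cases hcd : c = d
          · subst hcd; simp
          · rw [Matrix.one_apply_ne hcd, Matrix.one_apply_ne (by simp [hcd])]; simp
        · rw [Matrix.one_apply_ne hab, Matrix.one_apply_ne (by simp [hab])]; simp) v v
    rw [one_mulVec, star_dot_self] at h1
    have h2 := congrArg Complex.re h1
    rw [Complex.ofReal_re] at h2
    rw [h2]
    have h3 : ∀ z : ℂ, (((2 * Real.pi : ℂ))⁻¹ * z).re = (2 * Real.pi)⁻¹ * z.re := by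
      intro z
      rw [show (2 * Real.pi : ℂ) = ((2 * Real.pi : ℝ) : ℂ) by push_cast; ring,
        ← Complex.ofReal_inv, Complex.re_ofReal_mul]
    rw [h3]
    congr 1
    have h4 : IntervalIntegrable (fun θ => Star.star v ⬝ᵥ
        ((Λ θ ⊗ₖ (1 : Matrix (Fin m) (Fin m) ℂ)) *ᵥ v)) MeasureTheory.volume 0 (2 * Real.pi) :=
      (hcontF (fun _ => 1) continuous_const v v).intervalIntegrable _ _
    exact (Complex.reCLM.intervalIntegral_comp_comm h4)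
  rw [int_form Λ hc N hN W hW y x, norm_mul, hpiC]
  have hbound : ∀ θ, ‖Star.star y ⬝ᵥ ((Λ θ ⊗ₖ N θ) *ᵥ x)‖ ≤ M / 2 *
      ((Star.star y ⬝ᵥ ((Λ θ ⊗ₖ (1 : Matrix (Fin m) (Fin m) ℂ)) *ᵥ y)).re
        + (Star.star x ⬝ᵥ ((Λ θ ⊗ₖ (1 : Matrix (Fin m) (Fin m) ℂ)) *ᵥ x)).re) := by
    intro θ
    have h1 := form_bound (Λ θ) (hpsd θ) (N θ) y x
    have h2 : 0 ≤ (Star.star y ⬝ᵥ ((Λ θ ⊗ₖ (1 : Matrix (Fin m) (Fin m) ℂ)) *ᵥ y)).re
        + (Star.star x ⬝ᵥ ((Λ θ ⊗ₖ (1 : Matrix (Fin m) (Fin m) ℂ)) *ᵥ x)).re := by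
      have h3 : ∀ v : Fin n × Fin m → ℂ,
          0 ≤ (Star.star v ⬝ᵥ ((Λ θ ⊗ₖ (1 : Matrix (Fin m) (Fin m) ℂ)) *ᵥ v)).re := by
        intro v
        obtain ⟨B, hB⟩ := psd_fact (hpsd θ)
        rw [hB, form_fact, one_kronecker_one, one_mulVec, star_dot_self, Complex.ofReal_re]
        positivity
      linarith [h3 y, h3 x]
    have h3 := hM θ
    nlinarith
  have hq' : ∀ v : Fin n × Fin m → ℂ, Continuous fun θ =>
      (Star.star v ⬝ᵥ ((Λ θ ⊗ₖ (1 : Matrix (Fin m) (Fin m) ℂ)) *ᵥ v)).re := fun v =>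
    Complex.continuous_re.comp (hcontF (fun _ => 1) continuous_const v v)
  have hgi : Continuous fun θ => M / 2 *
      ((Star.star y ⬝ᵥ ((Λ θ ⊗ₖ (1 : Matrix (Fin m) (Fin m) ℂ)) *ᵥ y)).re
        + (Star.star x ⬝ᵥ ((Λ θ ⊗ₖ (1 : Matrix (Fin m) (Fin m) ℂ)) *ᵥ x)).re) :=
    continuous_const.mul ((hq' y).add (hq' x))
  have h5 := intervalIntegral.norm_integral_le_of_norm_le (μ := MeasureTheory.volume) hpi.le
    (MeasureTheory.ae_of_all _ fun θ _ => hbound θ) (hgi.intervalIntegrable _ _)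
  refine (mul_le_mul_of_nonneg_left h5 (by positivity)).trans (le_of_eq ?_)
  rw [intervalIntegral.integral_const_mul, intervalIntegral.integral_add
    ((hq' y).intervalIntegrable _ _) ((hq' x).intervalIntegrable _ _), ← hq y, ← hq x]
  ring

end Crest.Agent.R132
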