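import Crest.Agent.R132.S181Val
import Crest.Agent.R132.S181Avg
import Crest.Agent.R132.Fin180

/-!
# Piece S181ASM : assembly of S0181

`S` is invertible (`S * S = H ≥ 1`), Hermitian.  `B = S A S⁻¹`, `T_B = p(B) = S p(A) S⁻¹`; `1 - T_Bᴴ T_B = S⁻¹ (H - Tᴴ H T) S⁻¹` PSD.
spectrum of `B` = spectrum of `A` (similar), so `AgreesOnSpectrum B`; spectrum `A ⊆ numRange A ⊆ Ω` (`spectrum_subset_nrange`);
spectrum of `T_B` in the open disc (`spectrum_aeval_lt` for `A`, similarity).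
`Λ θ = τ(e^{iθ}).re • pois T_B (f (G (e^{iθ})))`, `τ t = t * deriv (f ∘ G) t / f (G t)`.  Mean and representation: `s181_val` (the circle average is
`(2π)⁻¹ ∫_0^{2π}`; `τ` is real on the circle), with `v = 1, q = 1` for the mean.
Norm bound: the big matrix is `(S⁻¹ ⊗ 1) W (S ⊗ 1)` with `W` the matrix of `q[B]`, `opn W ≤ M` (`avg_contr`, `G (e^{iθ}) ∈ closure Ω`),
`opn (S ⊗ 1) ≤ √κsq` (`S² = H ≤ κsq`), `opn (S⁻¹ ⊗ 1) ≤ 1`.
-/

set_option autoImplicit false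
open Matrix
open scoped ComplexOrder Kronecker
open Crest.AnalysisR.NumRange

namespace Crest.Agent.R132

namespace AsmAux

theorem isUnit_of_sq {n : ℕ} (H S : Matrix (Fin n) (Fin n) ℂ) (hH : (H - 1).PosSemidef)
    (hS₂ : S * S = H) : IsUnit S.det := by
  have h1 : H.PosDef := by
    have h2 := Matrix.PosDef.posSemidef_add hH (Matrix.PosDef.one (n := Fin n) (R := ℂ))
    simpa using h2
  have h3 : IsUnit H.det := (Matrix.isUnit_iff_isUnit_det _).1 h1.isUnit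
  rw [← hS₂, Matrix.det_mul] at h3
  exact isUnit_of_mul_isUnit_left h3

/-- conjugation as an algebra map -/
noncomputable def conjHom {n : ℕ} (S : Matrix (Fin n) (Fin n) ℂ) (hS : IsUnit S.det) :
    Matrix (Fin n) (Fin n) ℂ →ₐ[ℂ] Matrix (Fin n) (Fin n) ℂ :=
  AlgHom.ofLinearMap
    { toFun := fun X => S * X * S⁻¹
      map_add' := by intro X Y; rw [Matrix.mul_add, Matrix.add_mul]
      map_smul' := by intro c X; simp }
    (by simp [Matrix.mul_nonsing_inv S hS])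
    (by
      intro X Y
      have h : S⁻¹ * S = 1 := Matrix.nonsing_inv_mul S hS
      simp only [LinearMap.coe_mk, AddHom.coe_mk]
      calc S * (X * Y) * S⁻¹ = S * X * 1 * Y * S⁻¹ := by simp only [Matrix.mul_assoc, Matrix.mul_one, Matrix.one_mul]
        _ = S * X * (S⁻¹ * S) * Y * S⁻¹ := by rw [h]
        _ = S * X * S⁻¹ * (S * Y * S⁻¹) := by simp only [Matrix.mul_assoc])

theorem conjHom_apply {n : ℕ} (S : Matrix (Fin n) (Fin n) ℂ) (hS : IsUnit S.det)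
    (X : Matrix (Fin n) (Fin n) ℂ) : conjHom S hS X = S * X * S⁻¹ := rfl

theorem aeval_conj {n : ℕ} (S : Matrix (Fin n) (Fin n) ℂ) (hS : IsUnit S.det)
    (A : Matrix (Fin n) (Fin n) ℂ) (q : Polynomial ℂ) :
    Polynomial.aeval (S * A * S⁻¹) q = S * Polynomial.aeval A q * S⁻¹ := by
  rw [← conjHom_apply S hS A, ← conjHom_apply S hS (Polynomial.aeval A q),
    Polynomial.aeval_algHom_apply]

theorem spectrum_conj {n : ℕ} (S : Matrix (Fin n) (Fin n) ℂ) (hS : IsUnit S.det)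
    (A : Matrix (Fin n) (Fin n) ℂ) : spectrum ℂ (S * A * S⁻¹) = spectrum ℂ A := by
  have h := spectrum.units_conjugate (R := ℂ) (a := A) (u := Matrix.nonsingInvUnit S hS)
  exact h

theorem agrees_conj {n : ℕ} (S : Matrix (Fin n) (Fin n) ℂ) (hS : IsUnit S.det)
    (A : Matrix (Fin n) (Fin n) ℂ) (f : ℂ → ℂ) (p : Polynomial ℂ) (hp : AgreesOnSpectrum A f p) :
    AgreesOnSpectrum (S * A * S⁻¹) f p := by
  intro μ hμ j hj
  rw [spectrum_conj S hS] at hμ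
  exact hp μ hμ j hj

theorem agrees_one {n : ℕ} (A : Matrix (Fin n) (Fin n) ℂ) :
    AgreesOnSpectrum A (fun _ => (1 : ℂ)) 1 := by
  intro μ _ j _
  simp

theorem contr_psd {n : ℕ} (S H T : Matrix (Fin n) (Fin n) ℂ) (hS : IsUnit S.det)
    (hSh : Sᴴ = S) (hS₂ : S * S = H) (hT : (H - Tᴴ * H * T).PosSemidef) :
    (1 - (S * T * S⁻¹)ᴴ * (S * T * S⁻¹)).PosSemidef := by
  have h1 := hT.conjTranspose_mul_mul_same S⁻¹
  have h2 : S⁻¹ * S = 1 := Matrix.nonsing_inv_mul S hS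
  have h3 : S * S⁻¹ = 1 := Matrix.mul_nonsing_inv S hS
  have h4 : (S⁻¹)ᴴ = S⁻¹ := by rw [Matrix.conjTranspose_nonsing_inv, hSh]
  have h5 : (S⁻¹)ᴴ * (H - Tᴴ * H * T) * S⁻¹ = 1 - (S * T * S⁻¹)ᴴ * (S * T * S⁻¹) := by
    rw [Matrix.conjTranspose_mul, Matrix.conjTranspose_mul, h4, hSh, Matrix.mul_sub,
      Matrix.sub_mul, ← hS₂]
    have e1 : S⁻¹ * (S * S) * S⁻¹ = 1 := by
      rw [← Matrix.mul_assoc, h2, Matrix.one_mul, h3]
    rw [e1]
    simp only [Matrix.mul_assoc]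
  rw [h5] at h1
  exact h1

theorem sub_kron {n m : ℕ} (A B : Matrix (Fin n) (Fin n) ℂ) (C : Matrix (Fin m) (Fin m) ℂ) :
    (A - B) ⊗ₖ C = A ⊗ₖ C - B ⊗ₖ C := by
  ext ⟨a, c⟩ ⟨b, d⟩
  simp [Matrix.kroneckerMap_apply, sub_mul]

theorem opn_kron_inv {n m : ℕ} (S H : Matrix (Fin n) (Fin n) ℂ) (hS : IsUnit S.det)
    (hSh : Sᴴ = S) (hS₂ : S * S = H) (hH : (H - 1).PosSemidef) :
    opn (S⁻¹ ⊗ₖ (1 : Matrix (Fin m) (Fin m) ℂ)) ≤ 1 := by
  rw [opn_le_one_iff, conjTranspose_kronecker, conjTranspose_one, ← mul_kronecker_mul,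
    Matrix.one_mul]
  have h1 := hH.conjTranspose_mul_mul_same S⁻¹
  have h2 : S⁻¹ * S = 1 := Matrix.nonsing_inv_mul S hS
  have h3 : S * S⁻¹ = 1 := Matrix.mul_nonsing_inv S hS
  have h4 : (S⁻¹)ᴴ = S⁻¹ := by rw [Matrix.conjTranspose_nonsing_inv, hSh]
  have h5 : (S⁻¹)ᴴ * (H - 1) * S⁻¹ = 1 - (S⁻¹)ᴴ * S⁻¹ := by
    rw [Matrix.mul_sub, Matrix.sub_mul, ← hS₂, Matrix.mul_one, h4]
    congr 1
    rw [← Matrix.mul_assoc, h2, Matrix.one_mul, h3]
  rw [h5] at h1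
  have h6 := h1.kronecker (Matrix.PosSemidef.one (n := Fin m) (R := ℂ))
  rw [sub_kron, Matrix.one_kronecker_one] at h6
  exact h6

theorem opn_smul (a : Type) [Fintype a] [DecidableEq a] (c : ℂ) (X : Matrix a a ℂ) :
    opn (c • X) = ‖c‖ * opn X := by
  unfold opn
  rw [map_smul, norm_smul]

theorem one_le_kappa {n : ℕ} (hn : 1 ≤ n) (H : Matrix (Fin n) (Fin n) ℂ) (κsq : ℝ)
    (h1 : (H - 1).PosSemidef) (h2 : ((κsq : ℂ) • (1 : Matrix (Fin n) (Fin n) ℂ) - H).PosSemidef) :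
    1 ≤ κsq := by
  have h3 := (h1.add h2).diag_nonneg (i := (⟨0, hn⟩ : Fin n))
  have h4 : ((H - 1) + ((κsq : ℂ) • (1 : Matrix (Fin n) (Fin n) ℂ) - H)) (⟨0, hn⟩ : Fin n) ⟨0, hn⟩
      = ((κsq - 1 : ℝ) : ℂ) := by
    simp
  rw [h4, Complex.zero_le_real] at h3
  linarith

theorem opn_kron {n m : ℕ} (hn : 1 ≤ n) (S H : Matrix (Fin n) (Fin n) ℂ)
    (hSh : Sᴴ = S) (hS₂ : S * S = H) (κsq : ℝ) (h1 : (H - 1).PosSemidef)
    (h2 : ((κsq : ℂ) • (1 : Matrix (Fin n) (Fin n) ℂ) - H).PosSemidef) :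
    opn (S ⊗ₖ (1 : Matrix (Fin m) (Fin m) ℂ)) ≤ Real.sqrt κsq := by
  have hκ := one_le_kappa hn H κsq h1 h2
  have hs : 0 < Real.sqrt κsq := Real.sqrt_pos.2 (by linarith)
  have hsq : Real.sqrt κsq * Real.sqrt κsq = κsq := Real.mul_self_sqrt (by linarith)
  set c : ℝ := Real.sqrt κsq with hc
  have h3 : opn (((c⁻¹ : ℝ) : ℂ) • (S ⊗ₖ (1 : Matrix (Fin m) (Fin m) ℂ))) ≤ 1 := by
    rw [opn_le_one_iff]
    have h4 := (h2.kronecker (Matrix.PosSemidef.one (n := Fin m) (R := ℂ))).smul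
      (a := (κsq⁻¹ : ℝ)) (by positivity)
    have h5 : (κsq⁻¹ : ℝ) • (((κsq : ℂ) • (1 : Matrix (Fin n) (Fin n) ℂ) - H) ⊗ₖ
        (1 : Matrix (Fin m) (Fin m) ℂ)) =
        1 - (((c⁻¹ : ℝ) : ℂ) • (S ⊗ₖ (1 : Matrix (Fin m) (Fin m) ℂ)))ᴴ *
          (((c⁻¹ : ℝ) : ℂ) • (S ⊗ₖ (1 : Matrix (Fin m) (Fin m) ℂ))) := by
      rw [Matrix.conjTranspose_smul, conjTranspose_kronecker, conjTranspose_one, hSh,
        Matrix.smul_mul, Matrix.mul_smul, smul_smul, ← mul_kronecker_mul, Matrix.one_mul, hS₂,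
        sub_kron, Matrix.smul_kronecker, Matrix.one_kronecker_one, smul_sub]
      have e1 : (κsq⁻¹ : ℝ) • ((κsq : ℂ) • (1 : Matrix (Fin n × Fin m) (Fin n × Fin m) ℂ)) = 1 := by
        rw [← Complex.coe_smul (κsq⁻¹), smul_smul, ← Complex.ofReal_mul, inv_mul_cancel₀ (by linarith)]
        simp
      have e2 : Star.star ((c⁻¹ : ℝ) : ℂ) * ((c⁻¹ : ℝ) : ℂ) = ((κsq⁻¹ : ℝ) : ℂ) := by
        rw [Complex.star_def, Complex.conj_ofReal, ← Complex.ofReal_mul, ← mul_inv, hsq]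
      rw [e1, e2, Complex.coe_smul]
    rw [h5] at h4
    exact h4
  rw [opn_smul, Complex.norm_real, Real.norm_eq_abs, abs_of_pos (by positivity)] at h3
  rw [inv_mul_le_iff₀ hs] at h3
  simpa using h3

theorem av_eq (φ : ℂ → ℂ) : av φ = (2 * Real.pi : ℂ)⁻¹ *
    (∫ θ in (0 : ℝ)..2 * Real.pi, φ (Complex.exp ((θ : ℂ) * Complex.I))) := by
  rw [av, Real.circleAverage_def]
  rw [← Complex.coe_smul, smul_eq_mul]
  congr 1
  · push_cast; ring
  · refine intervalIntegral.integral_congr fun θ _ => ?_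
    simp [circleMap]

end AsmAux

open AsmAux

theorem s0181_aux
    (n : ℕ) (hn : 1 ≤ n) (A : Matrix (Fin n) (Fin n) ℂ)
    (Ω U : Set ℂ) (hΩ₁ : IsOpen Ω) (hΩ₂ : Bornology.IsBounded Ω) (hΩ₃ : Convex ℝ Ω)
    (hU : IsOpen U) (hΩU : closure Ω ⊆ U)
    (f : ℂ → ℂ) (hf₁ : DifferentiableOn ℂ f U) (hf₂ : Set.InjOn f U)
    (hf₃ : f '' Ω = Metric.ball 0 1)
    (G : ℂ → ℂ) (r : ℝ) (hr₁ : 0 < r) (hr₂ : r < 1)
    (hG₁ : DifferentiableOn ℂ G {t : ℂ | r < ‖t‖}) (hG₂ : Set.InjOn G {t : ℂ | r < ‖t‖})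
    (hG₃ : G '' {t : ℂ | 1 < ‖t‖} = (closure Ω)ᶜ)
    (hA : numRange A ⊆ Ω) (p : Polynomial ℂ) (hp : AgreesOnSpectrum A f p)
    (H : Matrix (Fin n) (Fin n) ℂ) (κsq : ℝ) (hH : IsOptimalMetric (Polynomial.aeval A p) H κsq)
    (S : Matrix (Fin n) (Fin n) ℂ) (hS₁ : S.PosSemidef) (hS₂ : S * S = H) :
    ∃ Λ : ℝ → Matrix (Fin n) (Fin n) ℂ, Continuous Λ ∧ Function.Periodic Λ (2 * Real.pi) ∧
      (∀ θ, (Λ θ).PosSemidef) ∧
      (∀ a b, (2 * Real.pi : ℂ)⁻¹ * (∫ θ in (0 : ℝ)..2 * Real.pi, Λ θ a b)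
        = (1 : Matrix (Fin n) (Fin n) ℂ) a b) ∧
      ∀ (m : ℕ), 1 ≤ m → ∀ (V : Set ℂ), IsOpen V → closure Ω ⊆ V →
        ∀ v : ℂ → Matrix (Fin m) (Fin m) ℂ, (∀ c d, DifferentiableOn ℂ (fun z => v z c d) V) →
        ∀ q : Fin m → Fin m → Polynomial ℂ,
          (∀ c d, AgreesOnSpectrum A (fun z => v z c d) (q c d)) →
          (∀ a b c d, Polynomial.aeval (S * A * S⁻¹) (q c d) a b =
              (2 * Real.pi : ℂ)⁻¹ * (∫ θ in (0 : ℝ)..2 * Real.pi,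
                Λ θ a b * v (G (Complex.exp ((θ : ℂ) * Complex.I))) c d)) ∧
          ∀ M : ℝ, (∀ z ∈ closure Ω, ‖Matrix.toEuclideanCLM (n := Fin m) (𝕜 := ℂ) (v z)‖ ≤ M) →
            ‖Matrix.toEuclideanCLM (n := Fin n × Fin m) (𝕜 := ℂ)
                (Matrix.of fun (i : Fin n × Fin m) (j : Fin n × Fin m) =>
                  Polynomial.aeval A (q i.2 j.2) i.1 j.1)‖ ≤ Real.sqrt κsq * M := by
  obtain ⟨⟨hH1, hH2, hH3⟩, -⟩ := hH
  have hSu : IsUnit S.det := isUnit_of_sq H S hH1 hS₂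
  have hSh : Sᴴ = S := hS₁.isHermitian
  set B : Matrix (Fin n) (Fin n) ℂ := S * A * S⁻¹ with hBdef
  have hTB : Polynomial.aeval B p = S * Polynomial.aeval A p * S⁻¹ := aeval_conj S hSu A p
  have hTpsd : (1 - (Polynomial.aeval B p)ᴴ * Polynomial.aeval B p).PosSemidef := by
    rw [hTB]
    exact contr_psd S H _ hSu hSh hS₂ hH3
  have hAΩ : spectrum ℂ A ⊆ Ω := (spectrum_subset_nrange A).trans hA
  have hBΩ : spectrum ℂ B ⊆ Ω := by rw [hBdef, spectrum_conj S hSu]; exact hAΩ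
  have hBp : AgreesOnSpectrum B f p := agrees_conj S hSu A f p hp
  have hTs : ∀ μ ∈ spectrum ℂ (Polynomial.aeval B p), ‖μ‖ < 1 := by
    intro μ hμ
    rw [hTB, spectrum_conj S hSu] at hμ
    exact spectrum_aeval_lt A Ω f hf₃ hA p hp μ hμ
  obtain ⟨g1, g2, g3, -, g5, g6⟩ := s181_geo Ω U hΩ₁ hΩ₂ hΩ₃ hU hΩU f hf₁ hf₂ hf₃ G r hr₁ hr₂ hG₁ hG₂ hG₃
  have hval := fun (V : Set ℂ) (hV : IsOpen V) (hΩV : closure Ω ⊆ V) (v : ℂ → ℂ)
      (hv : DifferentiableOn ℂ v V) (q : Polynomial ℂ) (hq : AgreesOnSpectrum B v q)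
      (a b : Fin n) => s181_val hn B Ω U hΩ₁ hΩ₂ hΩ₃ hU hΩU f hf₁ hf₂ hf₃ G r hr₁ hr₂ hG₁ hG₂ hG₃
        hBΩ p hBp V hV hΩV v hv q hq a b
  set τ : ℂ → ℂ := fun t => t * deriv (fun s => f (G s)) t / f (G t) with hτ
  set E : ℝ → ℂ := fun θ => Complex.exp ((θ : ℂ) * Complex.I) with hE
  have hEn : ∀ θ, ‖E θ‖ = 1 := fun θ => Complex.norm_exp_ofReal_mul_I θ
  have hEc : Continuous E := by rw [hE]; fun_prop
  have hEs : ∀ θ, E θ ∈ Metric.sphere (0 : ℂ) 1 := fun θ => by simpa using hEn θ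
  have hEp : ∀ θ, E (θ + 2 * Real.pi) = E θ := by
    intro θ
    simp only [hE]
    push_cast
    rw [add_mul, Complex.exp_add, Complex.exp_two_pi_mul_I, mul_one]
  have hFc : ContinuousOn (fun s => f (G s)) (Metric.sphere 0 1) := fun t ht =>
    (g5 t (by simpa using ht)).continuousAt.continuousWithinAt
  have hτc : ContinuousOn τ (Metric.sphere 0 1) := by
    refine ContinuousOn.div (continuousOn_id.mul g6) hFc ?_
    intro t ht h0
    have := g2 t (by simpa using ht)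
    rw [h0] at this
    simp at this
  have hτre : ∀ t : ℂ, ‖t‖ = 1 → ((τ t).re : ℂ) = τ t := by
    intro t ht
    apply Complex.ext
    · simp
    · simp [hτ, (g3 t ht).1]
  have hpc : ∀ a b, Continuous fun θ => pois (Polynomial.aeval B p) (f (G (E θ))) a b := by
    intro a b
    have h1 := pois_continuousOn (Polynomial.aeval B p) hTs a b
    have h2 : Continuous fun θ => f (G (E θ)) := hFc.comp_continuous hEc hEs
    exact h1.comp_continuous h2 fun θ => by simpa using g2 _ (hEn θ)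
  set Λ : ℝ → Matrix (Fin n) (Fin n) ℂ := fun θ =>
    (τ (E θ)).re • pois (Polynomial.aeval B p) (f (G (E θ))) with hΛ
  have hΛe : ∀ θ a b, Λ θ a b = pois (Polynomial.aeval B p) (f (G (E θ))) a b * τ (E θ) := by
    intro θ a b
    rw [hΛ]
    simp only [Matrix.smul_apply]
    rw [← Complex.coe_smul, smul_eq_mul, hτre _ (hEn θ), mul_comm]
  have hΛc : Continuous Λ := by
    refine continuous_matrix fun a b => ?_
    simp only [hΛe]
    exact (hpc a b).mul (hτc.comp_continuous hEc hEs)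
  have hΛp : ∀ θ, (Λ θ).PosSemidef := fun θ =>
    (pois_posSemidef _ hTpsd _).smul (g3 _ (hEn θ)).2
  have hrep : ∀ (V : Set ℂ), IsOpen V → closure Ω ⊆ V → ∀ v : ℂ → ℂ, DifferentiableOn ℂ v V →
      ∀ q : Polynomial ℂ, AgreesOnSpectrum B v q → ∀ a b, Polynomial.aeval B q a b =
        (2 * Real.pi : ℂ)⁻¹ * (∫ θ in (0 : ℝ)..2 * Real.pi, Λ θ a b * v (G (E θ))) := by
    intro V hV hΩV v hv q hq a b
    rw [← hval V hV hΩV v hv q hq a b, av_eq]
    simp only [hΛe, hE, hτ]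
  have hmean : ∀ a b, (2 * Real.pi : ℂ)⁻¹ * (∫ θ in (0 : ℝ)..2 * Real.pi, Λ θ a b)
        = (1 : Matrix (Fin n) (Fin n) ℂ) a b := by
    intro a b
    have h1 := hrep U hU hΩU (fun _ => 1) (differentiableOn_const _) 1 (agrees_one B) a b
    simp only [mul_one, map_one] at h1
    exact h1.symm
  refine ⟨Λ, hΛc, ?_, hΛp, hmean, ?_⟩
  · intro θ
    simp only [hΛ]
    rw [hEp]
  · intro m hm V hV hΩV v hv q hq
    have hq' : ∀ c d, AgreesOnSpectrum B (fun z => v z c d) (q c d) := fun c d =>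
      agrees_conj S hSu A _ _ (hq c d)
    have hr : ∀ a b c d, Polynomial.aeval B (q c d) a b =
        (2 * Real.pi : ℂ)⁻¹ * (∫ θ in (0 : ℝ)..2 * Real.pi, Λ θ a b * v (G (E θ)) c d) :=
      fun a b c d => hrep V hV hΩV (fun z => v z c d) (hv c d) (q c d) (hq' c d) a b
    refine ⟨hr, ?_⟩
    intro M hM
    set W : Matrix (Fin n × Fin m) (Fin n × Fin m) ℂ :=
      Matrix.of fun i j => Polynomial.aeval B (q i.2 j.2) i.1 j.1 with hW
    have hWM : opn W ≤ M := by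
      refine avg_contr Λ hΛc hΛp hmean (fun θ => v (G (E θ))) ?_ M ?_ W ?_
      · refine continuous_matrix fun c d => ?_
        have h1 : ContinuousOn (fun z => v z c d) V := (hv c d).continuousOn
        have h2 : ContinuousOn G (Metric.sphere 0 1) := by
          refine hG₁.continuousOn.mono fun t ht => ?_
          have : ‖t‖ = 1 := by simpa using ht
          show r < ‖t‖
          rw [this]; exact hr₂
        exact h1.comp_continuous (h2.comp_continuous hEc hEs) fun θ => hΩV (g1 _ (hEn θ))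
      · intro θ
        exact hM _ (g1 _ (hEn θ))
      · intro a b c d
        exact hr a b c d
    have hM0 : 0 ≤ M := (norm_nonneg _).trans hWM
    have hfac : (Matrix.of fun (i : Fin n × Fin m) (j : Fin n × Fin m) =>
                  Polynomial.aeval A (q i.2 j.2) i.1 j.1) =
        (S⁻¹ ⊗ₖ (1 : Matrix (Fin m) (Fin m) ℂ)) * W * (S ⊗ₖ (1 : Matrix (Fin m) (Fin m) ℂ)) := by
      ext ⟨a, c⟩ ⟨b, d⟩
      have h1 : Polynomial.aeval A (q c d) = S⁻¹ * Polynomial.aeval B (q c d) * S := by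
        rw [hBdef, aeval_conj S hSu]
        have h2 : S⁻¹ * S = 1 := Matrix.nonsing_inv_mul S hSu
        calc Polynomial.aeval A (q c d) = (S⁻¹ * S) * Polynomial.aeval A (q c d) * (S⁻¹ * S) := by
              rw [h2, Matrix.one_mul, Matrix.mul_one]
          _ = _ := by simp only [Matrix.mul_assoc]
      rw [Matrix.of_apply, h1]
      simp only [Matrix.mul_apply, Fintype.sum_prod_type, Matrix.kroneckerMap_apply,
        Matrix.one_apply, hW, Matrix.of_apply, mul_ite, mul_one, mul_zero, ite_mul, zero_mul,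
        Finset.sum_ite_eq, Finset.sum_ite_eq', Finset.mem_univ, if_true]
    have h3 : opn ((S⁻¹ ⊗ₖ (1 : Matrix (Fin m) (Fin m) ℂ)) * W *
        (S ⊗ₖ (1 : Matrix (Fin m) (Fin m) ℂ))) ≤ Real.sqrt κsq * M := by
      have e1 := opn_mul_le ((S⁻¹ ⊗ₖ (1 : Matrix (Fin m) (Fin m) ℂ)) * W)
        (S ⊗ₖ (1 : Matrix (Fin m) (Fin m) ℂ))
      have e2 := opn_mul_le (S⁻¹ ⊗ₖ (1 : Matrix (Fin m) (Fin m) ℂ)) W
      have e3 := opn_kron_inv (m := m) S H hSu hSh hS₂ hH1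
      have e4 := opn_kron (m := m) hn S H hSh hS₂ κsq hH1 hH2
      have e5 : 0 ≤ opn W := norm_nonneg _
      have e6 : opn ((S⁻¹ ⊗ₖ (1 : Matrix (Fin m) (Fin m) ℂ)) * W) ≤ M :=
        e2.trans ((mul_le_mul_of_nonneg_right e3 e5).trans (by rw [one_mul]; exact hWM))
      calc _ ≤ _ := e1
        _ ≤ M * Real.sqrt κsq := mul_le_mul e6 e4 (norm_nonneg _) hM0
        _ = _ := mul_comm _ _
    rw [hfac]
    exact h3

end Crest.Agent.R132
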