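import Crest.Agent.R132.Defs

/-!
# Piece S181GEO : the boundary correspondence `F = f ∘ G` on the unit circle

(a) `G t ∈ closure Ω` for `|t| = 1`: otherwise `G t = G t'` with `1 < |t'|`, contradicting injectivity on `{r < |t|}`.
(b) `|f (G t)| ≤ 1` (closure, `f` continuous on `U ⊇ closure Ω`); for `z ∈ U \ Ω`: `f z ∉ ball 0 1` (else `f z = f z'` with `z' ∈ Ω`, `f` injective on `U`);
    `G ((1+ε) t) ∉ closure Ω`, in `U` for small `ε`, so `|f (G ((1+ε)t))| ≥ 1`; let `ε → 0`.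
(c) `F` is holomorphic near the circle (`G` is differentiable on the open set `{r < |t|}`, `f` on `U`).  `|F|² = 1` on the circle: tangential derivative
    `Re (conj F * i t F') = 0`; radial derivative of `|F|²` at `t` outward is `≥ 0`: `Re (conj F * t F') ≥ 0`.  Since `1/F = conj F` on the circle:
    `t F'/F` is real and `≥ 0`.
(d) injectivity on the circle from `hG₂` and `hf₂`.
-/

set_option autoImplicit false
open Metric Set

namespace Crest.Agent.R132

theorem s181_geo (Ω U : Set ℂ) (hΩ₁ : IsOpen Ω) (hΩ₂ : Bornology.IsBounded Ω)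
    (hΩ₃ : Convex ℝ Ω) (hU : IsOpen U) (hΩU : closure Ω ⊆ U)
    (f : ℂ → ℂ) (hf₁ : DifferentiableOn ℂ f U) (hf₂ : Set.InjOn f U)
    (hf₃ : f '' Ω = Metric.ball 0 1)
    (G : ℂ → ℂ) (r : ℝ) (hr₁ : 0 < r) (hr₂ : r < 1)
    (hG₁ : DifferentiableOn ℂ G {t : ℂ | r < ‖t‖}) (hG₂ : Set.InjOn G {t : ℂ | r < ‖t‖})
    (hG₃ : G '' {t : ℂ | 1 < ‖t‖} = (closure Ω)ᶜ) :
    (∀ t : ℂ, ‖t‖ = 1 → G t ∈ closure Ω) ∧ (∀ t : ℂ, ‖t‖ = 1 → ‖f (G t)‖ = 1) ∧
    (∀ t : ℂ, ‖t‖ = 1 → (t * deriv (fun s => f (G s)) t / f (G t)).im = 0 ∧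
      0 ≤ (t * deriv (fun s => f (G s)) t / f (G t)).re) ∧
    Set.InjOn (fun s => f (G s)) (sphere 0 1) ∧
    (∀ t : ℂ, ‖t‖ = 1 → DifferentiableAt ℂ (fun s => f (G s)) t) ∧
    ContinuousOn (deriv (fun s => f (G s))) (sphere 0 1) := by
  have hopen : IsOpen {t : ℂ | r < ‖t‖} := isOpen_lt continuous_const continuous_norm
  have hGc : ContinuousOn G {t : ℂ | r < ‖t‖} := hG₁.continuousOn
  have hmem : ∀ t : ℂ, ‖t‖ = 1 → t ∈ {t : ℂ | r < ‖t‖} := fun t ht => by
    show r < ‖t‖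
    rw [ht]; exact hr₂
  have hmem' : ∀ t : ℂ, 1 < ‖t‖ → t ∈ {t : ℂ | r < ‖t‖} := fun t ht => hr₂.trans ht
  -- (a)
  have ha : ∀ t : ℂ, ‖t‖ = 1 → G t ∈ closure Ω := by
    intro t ht
    by_contra hne
    have h1 : G t ∈ G '' {t : ℂ | 1 < ‖t‖} := by rw [hG₃]; exact hne
    obtain ⟨t', ht', h2⟩ := h1
    have h3 := hG₂ (hmem' t' ht') (hmem t ht) h2
    have h4 : 1 < ‖t'‖ := ht'
    rw [h3, ht] at h4
    exact lt_irrefl _ h4
  set W := {t : ℂ | r < ‖t‖} ∩ G ⁻¹' U with hW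
  have hWo : IsOpen W := hGc.isOpen_inter_preimage hopen hU
  have hsW : ∀ t : ℂ, ‖t‖ = 1 → t ∈ W := fun t ht => ⟨hmem t ht, hΩU (ha t ht)⟩
  set F : ℂ → ℂ := fun s => f (G s) with hF
  have hFd : DifferentiableOn ℂ F W := by
    refine (hf₁.comp (hG₁.mono inter_subset_left) ?_)
    exact fun t ht => ht.2
  have hFda : ∀ t : ℂ, ‖t‖ = 1 → DifferentiableAt ℂ F t := fun t ht =>
    hFd.differentiableAt (hWo.mem_nhds (hsW t ht))
  -- outside
  have hout : ∀ s : ℂ, 1 < ‖s‖ → s ∈ W → 1 ≤ ‖F s‖ := by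
    intro s hs hsW
    by_contra hlt
    rw [not_le] at hlt
    have h1 : f (G s) ∈ f '' Ω := by
      rw [hf₃]
      simpa [hF] using hlt
    obtain ⟨z, hz, h2⟩ := h1
    have h3 := hf₂ (hΩU (subset_closure hz)) hsW.2 h2
    have h4 : G s ∈ (closure Ω)ᶜ := by
      rw [← hG₃]
      exact ⟨s, hs, rfl⟩
    apply h4
    rw [← h3]
    exact subset_closure hz
  -- radial path
  have hpath : ∀ t : ℂ, ‖t‖ = 1 → ∀ᶠ x : ℝ in nhdsWithin 0 (Ioi 0), 1 ≤ ‖F (t * (1 + x))‖ := by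
    intro t ht
    have h1 : ContinuousAt (fun x : ℝ => t * (1 + (x : ℂ))) 0 := by fun_prop
    have h2 : ∀ᶠ x : ℝ in nhds 0, t * (1 + (x : ℂ)) ∈ W := by
      apply h1.eventually
      simp only [Complex.ofReal_zero, add_zero, mul_one]
      exact hWo.mem_nhds (hsW t ht)
    filter_upwards [nhdsWithin_le_nhds h2, self_mem_nhdsWithin] with x hx hx0
    refine hout _ ?_ hx
    have hx0' : (0 : ℝ) < x := hx0
    rw [norm_mul, ht, one_mul]
    have h3 : (1 : ℂ) + (x : ℂ) = ((1 + x : ℝ) : ℂ) := by push_cast; ring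
    rw [h3, Complex.norm_real, Real.norm_eq_abs, abs_of_pos (by linarith)]
    linarith
  have hb : ∀ t : ℂ, ‖t‖ = 1 → ‖F t‖ = 1 := by
    intro t ht
    refine le_antisymm ?_ ?_
    · have h1 : f '' closure Ω ⊆ closure (f '' Ω) :=
        ContinuousOn.image_closure (hf₁.continuousOn.mono hΩU)
      have h2 := h1 ⟨G t, ha t ht, rfl⟩
      rw [hf₃] at h2
      have h3 := Metric.closure_ball_subset_closedBall h2
      simpa [hF] using h3
    · have h1 : Filter.Tendsto (fun x : ℝ => ‖F (t * (1 + x))‖) (nhdsWithin 0 (Ioi 0))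
          (nhds ‖F t‖) := by
        have h2 : ContinuousAt F t := (hFda t ht).continuousAt
        have h3 : ContinuousAt (fun x : ℝ => t * (1 + (x : ℂ))) 0 := by fun_prop
        have h4 : ContinuousAt (fun x : ℝ => F (t * (1 + (x : ℂ)))) 0 := by
          refine ContinuousAt.comp (g := F) ?_ h3
          simpa using h2
        have h5 := h4.norm.tendsto
        simp only [Complex.ofReal_zero, add_zero, mul_one] at h5
        exact h5.mono_left nhdsWithin_le_nhds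
      exact ge_of_tendsto h1 (hpath t ht)
  have hFne : ∀ t : ℂ, ‖t‖ = 1 → F t ≠ 0 := by
    intro t ht h0
    have := hb t ht
    rw [h0, norm_zero] at this
    exact zero_ne_one this
  -- (c)
  have hquot : ∀ t : ℂ, ‖t‖ = 1 → t * deriv F t / F t = (starRingEnd ℂ) (F t) * (t * deriv F t) := by
    intro t ht
    have h1 : (F t)⁻¹ = (starRingEnd ℂ) (F t) := by
      rw [Complex.inv_def, Complex.normSq_eq_norm_sq, hb t ht]
      simp
    rw [div_eq_mul_inv, h1]
    ring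
  have hc1 : ∀ t : ℂ, ‖t‖ = 1 → ((starRingEnd ℂ) (F t) * (t * deriv F t)).im = 0 := by
    intro t ht
    have h1 : HasDerivAt F (deriv F t) (t * Complex.exp (((0 : ℝ) : ℂ) * Complex.I)) := by
      simpa using (hFda t ht).hasDerivAt
    have h2 : HasDerivAt (fun x : ℝ => t * Complex.exp ((x : ℂ) * Complex.I))
        (t * (Complex.exp (((0 : ℝ) : ℂ) * Complex.I) * (1 * Complex.I))) 0 := by
      have h3 : HasDerivAt (fun x : ℝ => ((x : ℝ) : ℂ)) 1 0 := Complex.ofRealCLM.hasDerivAt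
      exact ((h3.mul_const Complex.I).cexp).const_mul t
    have h3 : HasDerivAt (fun x : ℝ => F (t * Complex.exp ((x : ℂ) * Complex.I)))
        (deriv F t * (t * (Complex.exp (((0 : ℝ) : ℂ) * Complex.I) * (1 * Complex.I)))) 0 :=
      HasDerivAt.comp (𝕜 := ℝ) (𝕜' := ℂ) (h₂ := F) 0 h1 h2
    have h4 := h3.norm_sq
    have h5 : (fun x : ℝ => ‖F (t * Complex.exp ((x : ℂ) * Complex.I))‖ ^ 2) = fun _ => 1 := by
      funext x
      rw [hb, one_pow]
      rw [norm_mul, ht, Complex.norm_exp_ofReal_mul_I, mul_one]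
    rw [h5] at h4
    have h6 := h4.unique (hasDerivAt_const (0 : ℝ) (1 : ℝ))
    simp only [Complex.ofReal_zero, zero_mul, Complex.exp_zero, mul_one, one_mul,
      Complex.inner] at h6
    have h7 : (deriv F t * (t * Complex.I)) * (starRingEnd ℂ) (F t) =
        Complex.I * ((starRingEnd ℂ) (F t) * (t * deriv F t)) := by ring
    rw [h7] at h6
    simp only [Complex.mul_re, Complex.I_re, Complex.I_im, zero_mul, one_mul, zero_sub] at h6
    linarith
  have hc2 : ∀ t : ℂ, ‖t‖ = 1 → 0 ≤ ((starRingEnd ℂ) (F t) * (t * deriv F t)).re := by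
    intro t ht
    have h1 : HasDerivAt F (deriv F t) (t * (1 + ((0 : ℝ) : ℂ))) := by
      simpa using (hFda t ht).hasDerivAt
    have h2 : HasDerivAt (fun x : ℝ => t * (1 + (x : ℂ))) (t * 1) 0 := by
      have h3 : HasDerivAt (fun x : ℝ => ((x : ℝ) : ℂ)) 1 0 := Complex.ofRealCLM.hasDerivAt
      exact (h3.const_add 1).const_mul t
    have h3 : HasDerivAt (fun x : ℝ => F (t * (1 + (x : ℂ)))) (deriv F t * (t * 1)) 0 :=
      HasDerivAt.comp (𝕜 := ℝ) (𝕜' := ℂ) (h₂ := F) 0 h1 h2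
    have h4 := h3.norm_sq
    have h5 := (hasDerivWithinAt_iff_tendsto_slope' (s := Ioi (0 : ℝ)) (by simp)).1
      h4.hasDerivWithinAt
    have h6 := ge_of_tendsto h5 (b := 0) (by
      filter_upwards [hpath t ht, self_mem_nhdsWithin] with x hx hx0
      have hx0' : (0 : ℝ) < x := hx0
      rw [slope_def_field]
      refine div_nonneg ?_ (by linarith)
      simp only [Complex.ofReal_zero, add_zero, mul_one]
      rw [hb t ht]
      nlinarith)
    simp only [Complex.ofReal_zero, add_zero, mul_one, Complex.inner] at h6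
    have h7 : (deriv F t * t) * (starRingEnd ℂ) (F t) =
        (starRingEnd ℂ) (F t) * (t * deriv F t) := by ring
    rw [h7] at h6
    linarith
  refine ⟨ha, hb, fun t ht => ?_, ?_, hFda, ?_⟩
  · rw [hquot t ht]
    exact ⟨hc1 t ht, hc2 t ht⟩
  · intro s hs s' hs' h
    have hs1 : ‖s‖ = 1 := by simpa using hs
    have hs1' : ‖s'‖ = 1 := by simpa using hs'
    exact hG₂ (hmem s hs1) (hmem s' hs1') (hf₂ (hΩU (ha s hs1)) (hΩU (ha s' hs1')) h)
  · refine (hFd.deriv hWo).continuousOn.mono fun t ht => hsW t ?_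
    simpa using ht

end Crest.Agent.R132
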