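import Crest.Agent.R132.Frob

/-!
# Piece TF1 : transfer functions of a unitary colligation

* `opn_htil`: `htil h = 1_K ⊗ hᵀ`; `opn` is at most `opn h` (row/column block decomposition: for a vector `x : K × m`,
  `‖htil h x‖² = ∑_k ‖(hᵀ) x_k‖²` and `opn (hᵀ) = opn h`).
* blocks of a unitary matrix have operator norm `≤ 1`.
* `isUnit_one_sub`: `opn B < 1` implies `1 - B` invertible (Neumann series, or: `(1-B)x = 0` implies `‖x‖ = ‖Bx‖ < ‖x‖`).
* `tf_contr`: let `α` be a row vector (or a matrix `W`), `β = α V12 (1 - B V22)⁻¹`, so `β = α V12 + β B V22`, and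
  `α v = α V11 + β B V21`; i.e. `[α v, β] = [α, β B] U`, so `‖α v‖² + ‖β‖² = ‖α‖² + ‖β B‖² ≤ ‖α‖² + ‖β‖²`.
  As matrices: `v vᴴ + q qᴴ = 1 + q B Bᴴ qᴴ ≤ 1 + q qᴴ` with `q = V12 (1 - B V22)⁻¹`; then `opn vᴴ ≤ 1`.
* `tf_hol`: entries of the inverse are rational functions (adjugate / det) of holomorphic entries.
-/

set_option autoImplicit false
open Matrix
open scoped ComplexOrder

namespace Crest.Agent.R132

variable {a J m K : Type} [Fintype a] [DecidableEq a] [Fintype J] [DecidableEq J]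
  [Fintype m] [DecidableEq m] [Fintype K] [DecidableEq K]

theorem opn_htil_aux (h : Matrix m m ℂ) (y : m → ℂ) :
    ∑ l, ‖∑ l', h l' l * y l'‖ ^ 2 ≤ opn h ^ 2 * ∑ l, ‖y l‖ ^ 2 := by
  set z : EuclideanSpace ℂ m := WithLp.toLp 2 (fun l => Star.star (y l)) with hz
  have h1 : ∀ l, ((Matrix.toEuclideanCLM (n := m) (𝕜 := ℂ) hᴴ) z) l =
      Star.star (∑ l', h l' l * y l') := by
    intro l
    have := congrFun (Matrix.ofLp_toEuclideanCLM (𝕜 := ℂ) hᴴ z) l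
    rw [this]
    simp only [Matrix.mulVec, dotProduct, Matrix.conjTranspose_apply, hz, star_sum, star_mul']
  have h2 := (Matrix.toEuclideanCLM (n := m) (𝕜 := ℂ) hᴴ).le_opNorm z
  have h3 : ‖(Matrix.toEuclideanCLM (n := m) (𝕜 := ℂ) hᴴ)‖ = opn h := opn_conjTranspose h
  rw [h3] at h2
  have h4 := pow_le_pow_left₀ (norm_nonneg _) h2 2
  rw [mul_pow, EuclideanSpace.norm_sq_eq, EuclideanSpace.norm_sq_eq] at h4
  simp only [h1, norm_star] at h4
  simpa [hz] using h4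

theorem opn_htil (h : Matrix m m ℂ) : opn (htil (K := K) h) ≤ opn h := by
  refine ContinuousLinearMap.opNorm_le_bound _ (norm_nonneg _) fun x => ?_
  have h0 : 0 ≤ opn h * ‖x‖ := mul_nonneg (norm_nonneg _) (norm_nonneg _)
  refine le_of_sq_le_sq ?_ h0
  rw [mul_pow, EuclideanSpace.norm_sq_eq, EuclideanSpace.norm_sq_eq]
  have h1 : ∀ p : K × m, ((Matrix.toEuclideanCLM (n := K × m) (𝕜 := ℂ) (htil (K := K) h)) x) p =
      ∑ l', h l' p.2 * x (p.1, l') := by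
    intro p
    have := congrFun (Matrix.ofLp_toEuclideanCLM (𝕜 := ℂ) (htil (K := K) h) x) p
    rw [this]
    simp only [Matrix.mulVec, dotProduct, htil, Matrix.of_apply]
    rw [Fintype.sum_prod_type]
    simp
  simp only [h1]
  rw [Fintype.sum_prod_type, Fintype.sum_prod_type, Finset.mul_sum]
  refine Finset.sum_le_sum fun k _ => ?_
  exact opn_htil_aux h (fun l => x (k, l))

theorem isUnit_one_sub (B : Matrix J J ℂ) (hB : opn B < 1) : IsUnit (1 - B) := by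
  have h : IsUnit ((Matrix.toEuclideanCLM (n := J) (𝕜 := ℂ)) (1 - B)) := by
    rw [map_sub, map_one]
    exact isUnit_one_sub_of_norm_lt_one hB
  exact (MulEquiv.isUnit_map (Matrix.toEuclideanCLM (n := J) (𝕜 := ℂ))).1 h

theorem blocks_mul (U : Matrix (a ⊕ J) (a ⊕ J) ℂ) (hU : U * Uᴴ = 1) :
    U.toBlocks₁₁ * U.toBlocks₁₁ᴴ + U.toBlocks₁₂ * U.toBlocks₁₂ᴴ = 1 ∧
    U.toBlocks₁₁ * U.toBlocks₂₁ᴴ + U.toBlocks₁₂ * U.toBlocks₂₂ᴴ = 0 ∧
    U.toBlocks₂₁ * U.toBlocks₁₁ᴴ + U.toBlocks₂₂ * U.toBlocks₁₂ᴴ = 0 ∧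
    U.toBlocks₂₁ * U.toBlocks₂₁ᴴ + U.toBlocks₂₂ * U.toBlocks₂₂ᴴ = 1 := by
  have h := hU
  rw [← Matrix.fromBlocks_toBlocks U, Matrix.fromBlocks_conjTranspose,
    Matrix.fromBlocks_multiply, ← Matrix.fromBlocks_one, Matrix.fromBlocks_inj] at h
  simpa using h

theorem opn_block22 (U : Matrix (a ⊕ J) (a ⊕ J) ℂ) (hU : U * Uᴴ = 1) :
    opn U.toBlocks₂₂ ≤ 1 := by
  rw [← opn_conjTranspose, opn_le_one_iff, Matrix.conjTranspose_conjTranspose]
  have h := (blocks_mul U hU).2.2.2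
  have e : 1 - U.toBlocks₂₂ * U.toBlocks₂₂ᴴ = U.toBlocks₂₁ * U.toBlocks₂₁ᴴ := by
    rw [← h]; abel
  rw [e]
  exact Matrix.posSemidef_self_mul_conjTranspose _

theorem tf_contr (U : Matrix (a ⊕ J) (a ⊕ J) ℂ) (hU : U * Uᴴ = 1) (B : Matrix J J ℂ)
    (hB : opn B < 1) :
    opn (U.toBlocks₁₁ + U.toBlocks₁₂ * (1 - B * U.toBlocks₂₂)⁻¹ * B * U.toBlocks₂₁) ≤ 1 := by
  obtain ⟨h11, h12, h21, h22⟩ := blocks_mul U hU
  have hBU : opn (B * U.toBlocks₂₂) < 1 := by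
    refine lt_of_le_of_lt (opn_mul_le _ _) ?_
    have h1 := opn_block22 U hU
    have h0 : 0 ≤ opn B := norm_nonneg _
    nlinarith
  have hunit := isUnit_one_sub (B * U.toBlocks₂₂) hBU
  set q := U.toBlocks₁₂ * (1 - B * U.toBlocks₂₂)⁻¹ with hq
  have hq1 : q * (1 - B * U.toBlocks₂₂) = U.toBlocks₁₂ := by
    rw [hq, Matrix.mul_assoc, Matrix.nonsing_inv_mul _ ((Matrix.isUnit_iff_isUnit_det _).1 hunit),
      Matrix.mul_one]
  clear_value q
  have hq2 : q = U.toBlocks₁₂ + q * B * U.toBlocks₂₂ := by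
    rw [Matrix.mul_sub, Matrix.mul_one, ← Matrix.mul_assoc] at hq1
    rw [← hq1]; abel
  set v := U.toBlocks₁₁ + q * B * U.toBlocks₂₁ with hv
  rw [← opn_conjTranspose, opn_le_one_iff, Matrix.conjTranspose_conjTranspose]
  have key : v * vᴴ + q * qᴴ = 1 + (q * B) * (q * B)ᴴ := by
    have e1 : v * vᴴ = (U.toBlocks₁₁ + q * B * U.toBlocks₂₁) *
        (U.toBlocks₁₁ᴴ + U.toBlocks₂₁ᴴ * (q * B)ᴴ) := by
      rw [hv, Matrix.conjTranspose_add, Matrix.conjTranspose_mul (q * B)]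
    have e2 : q * qᴴ = (U.toBlocks₁₂ + q * B * U.toBlocks₂₂) *
        (U.toBlocks₁₂ᴴ + U.toBlocks₂₂ᴴ * (q * B)ᴴ) := by
      conv_lhs => rw [hq2]
      rw [Matrix.conjTranspose_add, Matrix.conjTranspose_mul (q * B)]
    rw [e1, e2]
    have e3 : (U.toBlocks₁₁ + q * B * U.toBlocks₂₁) *
        (U.toBlocks₁₁ᴴ + U.toBlocks₂₁ᴴ * (q * B)ᴴ) + (U.toBlocks₁₂ + q * B * U.toBlocks₂₂) *
        (U.toBlocks₁₂ᴴ + U.toBlocks₂₂ᴴ * (q * B)ᴴ) =
        (U.toBlocks₁₁ * U.toBlocks₁₁ᴴ + U.toBlocks₁₂ * U.toBlocks₁₂ᴴ) +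
        (U.toBlocks₁₁ * U.toBlocks₂₁ᴴ + U.toBlocks₁₂ * U.toBlocks₂₂ᴴ) * (q * B)ᴴ +
        (q * B) * (U.toBlocks₂₁ * U.toBlocks₁₁ᴴ + U.toBlocks₂₂ * U.toBlocks₁₂ᴴ) +
        (q * B) * (U.toBlocks₂₁ * U.toBlocks₂₁ᴴ + U.toBlocks₂₂ * U.toBlocks₂₂ᴴ) * (q * B)ᴴ := by
      simp only [Matrix.add_mul, Matrix.mul_add, Matrix.mul_assoc]
      abel
    rw [e3, h11, h12, h21, h22]
    simp
  have key2 : 1 - v * vᴴ = q * (1 - B * Bᴴ) * qᴴ := by
    have e : 1 - v * vᴴ = q * qᴴ - (q * B) * (q * B)ᴴ := by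
      rw [sub_eq_sub_iff_add_eq_add, add_comm (q * qᴴ), key]
    rw [e, Matrix.mul_sub, Matrix.mul_one, Matrix.sub_mul, Matrix.conjTranspose_mul]
    simp only [Matrix.mul_assoc]
  rw [key2]
  have hBB : (1 - B * Bᴴ).PosSemidef := by
    have h1 : opn Bᴴ ≤ 1 := by rw [opn_conjTranspose]; exact hB.le
    have := (opn_le_one_iff Bᴴ).1 h1
    rwa [Matrix.conjTranspose_conjTranspose] at this
  exact hBB.mul_mul_conjTranspose_same q

theorem holOn_det (V : Set ℂ) (C : ℂ → Matrix J J ℂ) (hC : HolOn V C) :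
    DifferentiableOn ℂ (fun z => (C z).det) V := by
  simp only [Matrix.det_apply]
  refine DifferentiableOn.fun_sum fun σ _ => ?_
  refine DifferentiableOn.const_smul ?_ _
  exact DifferentiableOn.fun_finsetProd fun i _ => hC _ _

theorem holOn_inv (V : Set ℂ) (hV : IsOpen V) (C : ℂ → Matrix J J ℂ) (hC : HolOn V C)
    (h : ∀ z ∈ V, IsUnit (C z)) : HolOn V (fun z => (C z)⁻¹) := by
  intro i j
  simp only [Matrix.inv_def, Matrix.smul_apply, smul_eq_mul, Ring.inverse_eq_inv']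
  refine DifferentiableOn.mul ?_ ?_
  · refine DifferentiableOn.inv (holOn_det V C hC) fun z hz => ?_
    exact ((Matrix.isUnit_iff_isUnit_det _).1 (h z hz)).ne_zero
  · simp only [Matrix.adjugate_apply]
    refine holOn_det V _ ?_
    intro k l
    simp only [Matrix.updateRow_apply]
    by_cases hk : k = j
    · simp only [hk, if_true]; exact differentiableOn_const _
    · simp only [hk, if_false]; exact hC k l

end Crest.Agent.R132
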