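import Crest.Agent.R132.ExtAnBasic
import Crest.Agent.R132.Transfer1

/-!
# Piece S181POIS : the Poisson kernel of a matrix with spectrum in the disc

`pois T ζ = ((ζ - T)⁻¹)ᴴ (1 - Tᴴ T) (ζ - T)⁻¹`.
* PSD if `1 - Tᴴ T` is PSD.
* for `|ζ| = 1`: `pois T ζ = ζ (ζ - T)⁻¹ + Tᴴ (ζ̄ - Tᴴ)⁻¹`: multiply by `(ζ - T)ᴴ` on the left and `(ζ - T)` on the right:
  `(ζ̄ - Tᴴ) ζ + Tᴴ (ζ - T) = 1 - Tᴴ T` (`Tᴴ` commutes with `(ζ̄ - Tᴴ)⁻¹`).
* the entries of `Tᴴ (ζ̄ - Tᴴ)⁻¹ = ζ Tᴴ (1 - ζ Tᴴ)⁻¹` are analytic functions of `ζ` on a ball of radius `> 1` (spectral radius of `Tᴴ` less than 1: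
  `det (1 - ζ Tᴴ) ≠ 0` for `|ζ| ≤ 1`, compactness) vanishing at `ζ = 0`; times `u ζ`, mean value property: average `0`.
-/

set_option autoImplicit false
open Metric Set Matrix
open scoped ComplexOrder

namespace Crest.Agent.R132

/-- Poisson kernel of a matrix -/
noncomputable def pois {n : ℕ} (T : Matrix (Fin n) (Fin n) ℂ) (ζ : ℂ) :
    Matrix (Fin n) (Fin n) ℂ :=
  ((ζ • (1 : Matrix (Fin n) (Fin n) ℂ) - T)⁻¹)ᴴ * (1 - Tᴴ * T) *
    (ζ • (1 : Matrix (Fin n) (Fin n) ℂ) - T)⁻¹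

theorem S181POISaux.exists_rho {n : ℕ} (T : Matrix (Fin n) (Fin n) ℂ)
    (hT : ∀ μ ∈ spectrum ℂ T, ‖μ‖ < 1) :
    ∃ ρ : ℝ, 1 < ρ ∧ (∀ ζ ∈ ball (0 : ℂ) ρ, IsUnit (1 - ζ • T)) ∧
      ∀ a b, DifferentiableOn ℂ (fun ζ : ℂ => ((1 - ζ • T)⁻¹) a b) (ball 0 ρ) := by
  have hopen : IsOpen {ζ : ℂ | (1 - ζ • T).det ≠ 0} := by
    have hc : Continuous (fun ζ : ℂ => (1 - ζ • T).det) :=
      Continuous.matrix_det (by fun_prop)
    exact isOpen_ne_fun hc continuous_const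
  have hsub : closedBall (0 : ℂ) 1 ⊆ {ζ : ℂ | (1 - ζ • T).det ≠ 0} := by
    intro ζ hζ
    show (1 - ζ • T).det ≠ 0
    by_cases h0 : ζ = 0
    · simp [h0]
    · have h1 : ζ⁻¹ ∉ spectrum ℂ T := by
        intro hmem
        have h2 := hT _ hmem
        rw [norm_inv] at h2
        have h3 : ‖ζ‖ ≤ 1 := by simpa using hζ
        have h4 : 0 < ‖ζ‖ := norm_pos_iff.2 h0
        have h5 : 1 ≤ ‖ζ‖⁻¹ := (one_le_inv₀ h4).2 h3
        linarith
      rw [spectrum.notMem_iff, Algebra.algebraMap_eq_smul_one] at h1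
      have h6 : (1 - ζ • T) = ζ • (ζ⁻¹ • (1 : Matrix (Fin n) (Fin n) ℂ) - T) := by
        rw [smul_sub, smul_smul, mul_inv_cancel₀ h0, one_smul]
      rw [h6, Matrix.det_smul]
      exact mul_ne_zero (pow_ne_zero _ h0) ((Matrix.isUnit_iff_isUnit_det _).1 h1).ne_zero
  obtain ⟨δ, hδ, hthick⟩ := (isCompact_closedBall (0 : ℂ) 1).exists_thickening_subset_open hopen hsub
  rw [thickening_closedBall hδ zero_le_one] at hthick
  have hunit : ∀ ζ ∈ ball (0 : ℂ) (δ + 1), IsUnit (1 - ζ • T) := by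
    intro ζ hζ
    rw [Matrix.isUnit_iff_isUnit_det]
    exact isUnit_iff_ne_zero.2 (hthick hζ)
  refine ⟨δ + 1, by linarith, hunit, ?_⟩
  intro a b
  have hhol : HolOn (ball (0 : ℂ) (δ + 1)) (fun ζ : ℂ => 1 - ζ • T) := by
    intro i j
    simp only [Matrix.sub_apply, Matrix.smul_apply, smul_eq_mul]
    fun_prop
  exact holOn_inv _ isOpen_ball (fun ζ : ℂ => 1 - ζ • T) hhol hunit a b

/-- `(t - T)⁻¹ = t⁻¹ (1 - t⁻¹ T)⁻¹` -/
theorem S181POISaux.inv_eq {n : ℕ} (T : Matrix (Fin n) (Fin n) ℂ) (t : ℂ) (ht : t ≠ 0)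
    (hu : IsUnit (1 - t⁻¹ • T)) :
    (t • (1 : Matrix (Fin n) (Fin n) ℂ) - T)⁻¹ = t⁻¹ • (1 - t⁻¹ • T)⁻¹ := by
  refine Matrix.inv_eq_right_inv ?_
  have h1 : (t • (1 : Matrix (Fin n) (Fin n) ℂ) - T) = t • (1 - t⁻¹ • T) := by
    rw [smul_sub, smul_smul, mul_inv_cancel₀ ht, one_smul]
  rw [h1, smul_mul_smul_comm, mul_inv_cancel₀ ht, one_smul,
    Matrix.mul_nonsing_inv _ ((Matrix.isUnit_iff_isUnit_det _).1 hu)]

theorem S181POISaux.res_extAn {n : ℕ} (T : Matrix (Fin n) (Fin n) ℂ)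
    (hT : ∀ μ ∈ spectrum ℂ T, ‖μ‖ < 1) (a b : Fin n) :
    ExtAn (fun ζ => ζ * ((ζ • (1 : Matrix (Fin n) (Fin n) ℂ) - T)⁻¹ a b))
      ((1 : Matrix (Fin n) (Fin n) ℂ) a b) := by
  obtain ⟨ρ, hρ, hunit, hdiff⟩ := S181POISaux.exists_rho T hT
  refine ⟨ρ, fun w => ((1 - w • T)⁻¹) a b, hρ, hdiff a b, by simp, fun t ht => ?_⟩
  have ht0 : t ≠ 0 := by rintro rfl; simp at ht
  have hmem : t⁻¹ ∈ ball (0 : ℂ) ρ := by
    rw [mem_ball_zero_iff, norm_inv, ht, inv_one]; exact hρ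
  show t * ((t • (1 : Matrix (Fin n) (Fin n) ℂ) - T)⁻¹ a b) = ((1 - t⁻¹ • T)⁻¹) a b
  rw [S181POISaux.inv_eq T t ht0 (hunit _ hmem), Matrix.smul_apply, smul_eq_mul, ← mul_assoc,
    mul_inv_cancel₀ ht0, one_mul]

theorem S181POISaux.res_continuousOn {n : ℕ} (T : Matrix (Fin n) (Fin n) ℂ)
    (hT : ∀ μ ∈ spectrum ℂ T, ‖μ‖ < 1) (a b : Fin n) :
    ContinuousOn (fun ζ : ℂ => ((ζ • (1 : Matrix (Fin n) (Fin n) ℂ) - T)⁻¹ a b)) (sphere 0 1) := by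
  have h1 := (S181POISaux.res_extAn T hT a b).continuousOn
  have h2 : ContinuousOn (fun ζ : ℂ => ζ⁻¹) (sphere (0 : ℂ) 1) := by
    refine continuousOn_inv₀.mono fun z hz => ?_
    rw [mem_sphere_zero_iff_norm] at hz
    rintro rfl
    simp at hz
  refine (h2.mul h1).congr fun z hz => ?_
  have hz0 : z ≠ 0 := by
    rw [mem_sphere_zero_iff_norm] at hz
    rintro rfl
    simp at hz
  show _ = z⁻¹ * (z * _)
  rw [← mul_assoc, inv_mul_cancel₀ hz0, one_mul]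

theorem S181POISaux.spec_conj {n : ℕ} (T : Matrix (Fin n) (Fin n) ℂ)
    (hT : ∀ μ ∈ spectrum ℂ T, ‖μ‖ < 1) : ∀ μ ∈ spectrum ℂ Tᴴ, ‖μ‖ < 1 := by
  intro μ hμ
  rw [← Matrix.star_eq_conjTranspose, spectrum.map_star] at hμ
  have := hT _ (Set.mem_star.1 hμ)
  rwa [norm_star] at this

theorem pois_posSemidef {n : ℕ} (T : Matrix (Fin n) (Fin n) ℂ) (hT : (1 - Tᴴ * T).PosSemidef)
    (ζ : ℂ) : (pois T ζ).PosSemidef :=
  hT.conjTranspose_mul_mul_same _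

theorem pois_continuousOn {n : ℕ} (T : Matrix (Fin n) (Fin n) ℂ)
    (hT : ∀ μ ∈ spectrum ℂ T, ‖μ‖ < 1) (a b : Fin n) :
    ContinuousOn (fun ζ => pois T ζ a b) (sphere 0 1) := by
  unfold pois
  simp only [Matrix.mul_apply, Matrix.conjTranspose_apply]
  refine continuousOn_finsetSum _ fun k _ => ContinuousOn.mul ?_ (S181POISaux.res_continuousOn T hT k b)
  refine continuousOn_finsetSum _ fun l _ => ContinuousOn.mul ?_ continuousOn_const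
  exact (S181POISaux.res_continuousOn T hT l a).star

theorem S181POISaux.unit_circle {n : ℕ} (T : Matrix (Fin n) (Fin n) ℂ)
    (hT : ∀ μ ∈ spectrum ℂ T, ‖μ‖ < 1) (t : ℂ) (ht : ‖t‖ = 1) :
    IsUnit (t • (1 : Matrix (Fin n) (Fin n) ℂ) - T) := by
  have h1 : t ∉ spectrum ℂ T := fun h => by have := hT _ h; linarith
  rw [spectrum.notMem_iff, Algebra.algebraMap_eq_smul_one] at h1
  exact h1

theorem S181POISaux.pois_eq {n : ℕ} (T : Matrix (Fin n) (Fin n) ℂ)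
    (hT : ∀ μ ∈ spectrum ℂ T, ‖μ‖ < 1) (t : ℂ) (ht : ‖t‖ = 1)
    (hu : IsUnit (1 - t • Tᴴ)) :
    pois T t = t • (t • (1 : Matrix (Fin n) (Fin n) ℂ) - T)⁻¹ + t • ((1 - t • Tᴴ)⁻¹ * Tᴴ) := by
  have ht0 : t ≠ 0 := by rintro rfl; simp at ht
  have hU := S181POISaux.unit_circle T hT t ht
  have hdet := (Matrix.isUnit_iff_isUnit_det _).1 hU
  set M := t • (1 : Matrix (Fin n) (Fin n) ℂ) - T with hM
  have hMR : M * M⁻¹ = 1 := Matrix.mul_nonsing_inv _ hdet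
  have hstar : (starRingEnd ℂ) t = t⁻¹ := by
    rw [Complex.inv_def, Complex.normSq_eq_norm_sq, ht]; simp
  have hMH : Mᴴ = t⁻¹ • (1 : Matrix (Fin n) (Fin n) ℂ) - Tᴴ := by
    rw [hM, Matrix.conjTranspose_sub, Matrix.conjTranspose_smul, Matrix.conjTranspose_one]
    congr 2
  have hRM : (M⁻¹)ᴴ * Mᴴ = 1 := by
    rw [← Matrix.conjTranspose_mul, hMR, Matrix.conjTranspose_one]
  have hR' : (M⁻¹)ᴴ = t • (1 - t • Tᴴ)⁻¹ := by
    have h1 := S181POISaux.inv_eq (n := n) Tᴴ t⁻¹ (inv_ne_zero ht0) (by rwa [inv_inv])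
    rw [inv_inv] at h1
    rw [Matrix.conjTranspose_nonsing_inv, hMH, h1]
  have hid : (1 - Tᴴ * T) = t • Mᴴ + Tᴴ * M := by
    rw [hMH, hM, smul_sub, smul_smul, mul_inv_cancel₀ ht0, one_smul, mul_sub, mul_smul_comm,
      mul_one]
    abel
  unfold pois
  rw [← hM, hid, mul_add, add_mul, mul_smul_comm, hRM, smul_mul_assoc, one_mul,
    ← mul_assoc, mul_assoc _ M, hMR, mul_one, hR', smul_mul_assoc]

theorem pois_av {n : ℕ} (T : Matrix (Fin n) (Fin n) ℂ)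
    (hT : ∀ μ ∈ spectrum ℂ T, ‖μ‖ < 1) (ρ : ℝ) (hρ : 1 < ρ) (u : ℂ → ℂ)
    (hu : DifferentiableOn ℂ u (ball 0 ρ)) (a b : Fin n) :
    av (fun ζ => pois T ζ a b * u ζ)
      = av (fun ζ => ζ * u ζ * ((ζ • (1 : Matrix (Fin n) (Fin n) ℂ) - T)⁻¹ a b)) := by
  obtain ⟨ρ', hρ', hunit, hdiff⟩ := S181POISaux.exists_rho Tᴴ (S181POISaux.spec_conj T hT)
  set r := min ρ ρ' with hr
  have hr1 : 1 < r := lt_min hρ hρ'
  -- the analytic part
  set F : ℂ → ℂ := fun ζ => u ζ * (ζ * (((1 - ζ • Tᴴ)⁻¹ * Tᴴ) a b)) with hF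
  have hFd : DifferentiableOn ℂ F (ball 0 r) := by
    have h1 : DifferentiableOn ℂ (fun ζ : ℂ => ((1 - ζ • Tᴴ)⁻¹ * Tᴴ) a b) (ball 0 r) := by
      simp only [Matrix.mul_apply]
      refine DifferentiableOn.fun_sum fun k _ => ?_
      exact ((hdiff a k).mono (ball_subset_ball (min_le_right _ _))).mul_const _
    exact (hu.mono (ball_subset_ball (min_le_left _ _))).mul (differentiableOn_id.mul h1)
  have hsub : closedBall (0 : ℂ) 1 ⊆ ball 0 r := closedBall_subset_ball hr1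
  have hsph : sphere (0 : ℂ) 1 ⊆ ball 0 r := sphere_subset_closedBall.trans hsub
  have hF0 : av F = 0 := by
    have hdc : DiffContOnCl ℂ F (ball (0 : ℂ) |1|) := by
      rw [abs_one]
      refine DifferentiableOn.diffContOnCl (hFd.mono ?_)
      rw [closure_ball (0 : ℂ) one_ne_zero]; exact hsub
    have := hdc.circleAverage
    show Real.circleAverage F 0 1 = 0
    rw [this]
    simp [hF]
  have hucont : ContinuousOn u (sphere 0 1) :=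
    hu.continuousOn.mono (sphere_subset_closedBall.trans (closedBall_subset_ball hρ))
  have hcont1 : ContinuousOn
      (fun ζ : ℂ => ζ * u ζ * ((ζ • (1 : Matrix (Fin n) (Fin n) ℂ) - T)⁻¹ a b)) (sphere 0 1) :=
    (continuousOn_id.mul hucont).mul (S181POISaux.res_continuousOn T hT a b)
  have hcont2 : ContinuousOn F (sphere 0 1) := hFd.continuousOn.mono hsph
  have hsplit : av (fun ζ => pois T ζ a b * u ζ) =
      av (fun ζ => ζ * u ζ * ((ζ • (1 : Matrix (Fin n) (Fin n) ℂ) - T)⁻¹ a b) + F ζ) := by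
    refine av_congr fun t ht => ?_
    have hmem : t ∈ ball (0 : ℂ) ρ' := by
      rw [mem_ball_zero_iff, ht]; exact hρ'
    rw [S181POISaux.pois_eq T hT t ht (hunit t hmem), Matrix.add_apply, Matrix.smul_apply,
      Matrix.smul_apply, smul_eq_mul, smul_eq_mul, hF]
    ring
  rw [hsplit, av_add hcont1 hcont2, hF0, add_zero]

/-- `av (ζ (ζ - T)⁻¹) = 1` -/
theorem av_res_eq_one {n : ℕ} (T : Matrix (Fin n) (Fin n) ℂ)
    (hT : ∀ μ ∈ spectrum ℂ T, ‖μ‖ < 1) (a b : Fin n) :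
    av (fun ζ => ζ * ((ζ • (1 : Matrix (Fin n) (Fin n) ℂ) - T)⁻¹ a b))
      = (1 : Matrix (Fin n) (Fin n) ℂ) a b :=
  (S181POISaux.res_extAn T hT a b).av_eq

end Crest.Agent.R132
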