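import Crest.Agent.R132.ExtAnBasic

/-!
# Piece S181VAR : change of variables on the circle

`τ(θ) = e^{iθ} F'(e^{iθ})/F(e^{iθ})` real, `≥ 0`, continuous.  Let `exp (i a₀) = F 1`, `a(θ) = a₀ + ∫_0^θ τ`; then
`F(e^{iθ}) exp (-i a(θ))` has derivative zero, so `F(e^{iθ}) = exp (i a(θ))`.  `a(2π) - a(0) = 2π d`, `d ∈ ℕ`.  `d = 0` would make `a` constant, `d ≥ 2` gives
`θ* ∈ (0, 2π)` with `a(θ*) = a(0) + 2π` (IVT): both contradict injectivity.  So `d = 1` and
`∫_0^{2π} Φ(e^{i a(θ)}) a'(θ) dθ = ∫_{a(0)}^{a(0)+2π} Φ(e^{iφ}) dφ` (`intervalIntegral.integral_comp_mul_deriv`), periodicity.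
-/

set_option autoImplicit false
open Metric Set

namespace Crest.Agent.R132

namespace ChangeVarAux

theorem norm_cm (θ : ℝ) : ‖circleMap 0 1 θ‖ = 1 := by
  have := circleMap_mem_sphere (0 : ℂ) zero_le_one θ
  simpa using this

theorem cm_eq (θ : ℝ) : circleMap 0 1 θ = Complex.exp (θ * Complex.I) := by
  rw [circleMap_zero]; simp

theorem lift_exists (F : ℂ → ℂ) (hd : ∀ t : ℂ, ‖t‖ = 1 → DifferentiableAt ℂ F t)
    (hc : ContinuousOn (deriv F) (sphere 0 1)) (h1 : ∀ t : ℂ, ‖t‖ = 1 → ‖F t‖ = 1)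
    (hτ : ∀ t : ℂ, ‖t‖ = 1 → (t * deriv F t / F t).im = 0 ∧ 0 ≤ (t * deriv F t / F t).re) :
    ∃ a τ : ℝ → ℝ, Continuous τ ∧ (∀ θ, 0 ≤ τ θ) ∧ (∀ θ, HasDerivAt a (τ θ) θ) ∧
      (∀ θ : ℝ, circleMap 0 1 θ * deriv F (circleMap 0 1 θ) / F (circleMap 0 1 θ) = (τ θ : ℂ)) ∧
      (∀ θ : ℝ, F (circleMap 0 1 θ) = circleMap 0 1 (a θ)) := by
  have hFc : Continuous fun θ : ℝ => F (circleMap 0 1 θ) :=
    continuous_iff_continuousAt.2 fun θ =>
      ContinuousAt.comp (hd _ (norm_cm θ)).continuousAt (continuous_circleMap 0 1).continuousAt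
  have hFne : ∀ θ : ℝ, F (circleMap 0 1 θ) ≠ 0 := by
    intro θ h
    have := h1 _ (norm_cm θ)
    rw [h, norm_zero] at this
    exact zero_ne_one this
  have hdc : Continuous fun θ : ℝ => deriv F (circleMap 0 1 θ) :=
    hc.comp_continuous (continuous_circleMap 0 1)
      (fun θ => circleMap_mem_sphere (0 : ℂ) zero_le_one θ)
  set τ : ℝ → ℝ := fun θ =>
    (circleMap 0 1 θ * deriv F (circleMap 0 1 θ) / F (circleMap 0 1 θ)).re with hτdef
  have hτc : Continuous τ :=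
    Complex.continuous_re.comp (((continuous_circleMap 0 1).mul hdc).div hFc hFne)
  have hτeq : ∀ θ : ℝ,
      circleMap 0 1 θ * deriv F (circleMap 0 1 θ) / F (circleMap 0 1 θ) = (τ θ : ℂ) := by
    intro θ
    apply Complex.ext
    · rfl
    · rw [(hτ _ (norm_cm θ)).1]; rfl
  set a : ℝ → ℝ := fun θ => Complex.arg (F 1) + ∫ x in (0 : ℝ)..θ, τ x with ha
  have had : ∀ θ, HasDerivAt a (τ θ) θ := fun θ =>
    (hτc.integral_hasStrictDerivAt 0 θ).hasDerivAt.const_add _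
  refine ⟨a, τ, hτc, fun θ => (hτ _ (norm_cm θ)).2, had, hτeq, ?_⟩
  set g : ℝ → ℂ := fun θ => F (circleMap 0 1 θ) * Complex.exp (-(a θ : ℂ) * Complex.I) with hg
  have hgd : ∀ θ, HasDerivAt g 0 θ := by
    intro θ
    have e1 : HasDerivAt (fun θ : ℝ => F (circleMap 0 1 θ))
        (deriv F (circleMap 0 1 θ) * (circleMap 0 1 θ * Complex.I)) θ :=
      HasDerivAt.comp θ (hd _ (norm_cm θ)).hasDerivAt (hasDerivAt_circleMap 0 1 θ)
    have e2 : HasDerivAt (fun θ : ℝ => Complex.exp (-(a θ : ℂ) * Complex.I))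
        (Complex.exp (-(a θ : ℂ) * Complex.I) * (-(τ θ : ℂ) * Complex.I)) θ :=
      ((had θ).ofReal_comp.fun_neg.mul_const Complex.I).cexp
    have e3 := e1.mul e2
    have e4 : deriv F (circleMap 0 1 θ) * (circleMap 0 1 θ * Complex.I) *
        Complex.exp (-(a θ : ℂ) * Complex.I) + F (circleMap 0 1 θ) *
        (Complex.exp (-(a θ : ℂ) * Complex.I) * (-(τ θ : ℂ) * Complex.I)) = 0 := by
      have e5 : F (circleMap 0 1 θ) * (τ θ : ℂ)
          = circleMap 0 1 θ * deriv F (circleMap 0 1 θ) := by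
        rw [← hτeq θ, mul_div_cancel₀ _ (hFne θ)]
      linear_combination (-(Complex.exp (-(a θ : ℂ) * Complex.I)) * Complex.I) * e5
    rw [e4] at e3
    exact e3
  have hgc : ∀ θ, g θ = g 0 := fun θ =>
    is_const_of_deriv_eq_zero (fun x => (hgd x).differentiableAt) (fun x => (hgd x).deriv) θ 0
  have hg0 : g 0 = 1 := by
    have ha0 : a 0 = Complex.arg (F 1) := by rw [ha]; simp
    have hF1 : F 1 = Complex.exp (Complex.arg (F 1) * Complex.I) := by
      have := Complex.norm_mul_exp_arg_mul_I (F 1)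
      rw [h1 1 (by simp)] at this
      simpa using this.symm
    have hcm : circleMap 0 1 (0 : ℝ) = (1 : ℂ) := by rw [cm_eq]; simp
    rw [hg]
    beta_reduce
    rw [ha0, hcm]
    nth_rw 1 [hF1]
    rw [← Complex.exp_add]
    simp
  intro θ
  have h2 := hgc θ
  rw [hg0, hg] at h2
  beta_reduce at h2
  rw [cm_eq (a θ)]
  have h3 : Complex.exp ((a θ : ℂ) * Complex.I) * Complex.exp (-(a θ : ℂ) * Complex.I) = 1 := by
    rw [← Complex.exp_add]; simp
  have h4 : Complex.exp (-(a θ : ℂ) * Complex.I) ≠ 0 := Complex.exp_ne_zero _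
  exact mul_right_cancel₀ h4 (h2.trans h3.symm)

theorem cm_inj {x y : ℝ} (h : circleMap 0 1 x = circleMap 0 1 y) :
    ∃ k : ℤ, x = y + k * (2 * Real.pi) := by
  rw [cm_eq, cm_eq, Complex.exp_eq_exp_iff_exists_int] at h
  obtain ⟨k, hk⟩ := h
  refine ⟨k, ?_⟩
  have := congrArg Complex.im hk
  simpa using this

theorem winding (F : ℂ → ℂ) (hinj : Set.InjOn F (sphere 0 1)) (a τ : ℝ → ℝ)
    (hτ0 : ∀ θ, 0 ≤ τ θ) (had : ∀ θ, HasDerivAt a (τ θ) θ)
    (hF : ∀ θ : ℝ, F (circleMap 0 1 θ) = circleMap 0 1 (a θ)) :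
    a (2 * Real.pi) = a 0 + 2 * Real.pi := by
  have hpi := Real.pi_pos
  have hmono : Monotone a := monotone_of_deriv_nonneg (fun x => (had x).differentiableAt)
    (fun x => by rw [(had x).deriv]; exact hτ0 x)
  have hac : Continuous a := continuous_iff_continuousAt.2 fun x => (had x).continuousAt
  have hms : ∀ θ : ℝ, circleMap 0 1 θ ∈ sphere (0 : ℂ) 1 := fun θ =>
    circleMap_mem_sphere (0 : ℂ) zero_le_one θ
  have hper : circleMap (0 : ℂ) 1 (2 * Real.pi) = circleMap 0 1 0 := by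
    have := periodic_circleMap (0 : ℂ) 1 0
    rwa [zero_add] at this
  obtain ⟨d, hd⟩ : ∃ d : ℤ, a (2 * Real.pi) = a 0 + d * (2 * Real.pi) := by
    apply cm_inj
    rw [← hF, ← hF, hper]
  have hd1 : ¬ d ≤ 0 := by
    intro hle
    have hle' : (d : ℝ) ≤ 0 := by exact_mod_cast hle
    have h1 : a (2 * Real.pi) ≤ a 0 := by rw [hd]; nlinarith
    have h2 : a Real.pi = a 0 :=
      le_antisymm ((hmono (by linarith)).trans h1) (hmono hpi.le)
    have h3 : circleMap (0 : ℂ) 1 Real.pi = circleMap 0 1 0 := by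
      apply hinj (hms _) (hms _)
      rw [hF, hF, h2]
    obtain ⟨k, hk⟩ := cm_inj h3
    rw [zero_add] at hk
    have h4 : (1 : ℝ) = (2 * k : ℤ) := by
      push_cast
      have : Real.pi * 1 = Real.pi * (2 * k) := by linarith
      exact mul_left_cancel₀ hpi.ne' this
    have h5 : (1 : ℤ) = 2 * k := by exact_mod_cast h4
    omega
  have hd2 : ¬ 2 ≤ d := by
    intro hle
    have hle' : (2 : ℝ) ≤ d := by exact_mod_cast hle
    have h1 : a 0 + 4 * Real.pi ≤ a (2 * Real.pi) := by rw [hd]; nlinarith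
    obtain ⟨θ, hθ, hθa⟩ := intermediate_value_Icc (show (0 : ℝ) ≤ 2 * Real.pi by linarith)
      hac.continuousOn (show a 0 + 2 * Real.pi ∈ Icc (a 0) (a (2 * Real.pi)) from
        ⟨by linarith, by linarith⟩)
    have h3 : circleMap (0 : ℂ) 1 θ = circleMap 0 1 0 := by
      apply hinj (hms _) (hms _)
      rw [hF, hF, hθa]
      exact periodic_circleMap (0 : ℂ) 1 (a 0)
    obtain ⟨k, hk⟩ := cm_inj h3
    rw [zero_add] at hk
    have hk0 : (0 : ℝ) ≤ k := by
      by_contra hneg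
      push Not at hneg
      have := hθ.1
      nlinarith
    have hk1 : (k : ℝ) ≤ 1 := by
      by_contra hneg
      push Not at hneg
      have := hθ.2
      nlinarith
    have hk0' : (0 : ℤ) ≤ k := by exact_mod_cast hk0
    have hk1' : k ≤ (1 : ℤ) := by exact_mod_cast hk1
    have hk2 : k = 0 ∨ k = 1 := by omega
    rcases hk2 with h | h
    · rw [h] at hk
      have : θ = 0 := by simpa using hk
      rw [this] at hθa
      linarith
    · rw [h] at hk
      have : θ = 2 * Real.pi := by simpa using hk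
      rw [this] at hθa
      linarith
  have : d = 1 := by omega
  rw [hd, this]
  simp

end ChangeVarAux

open ChangeVarAux

theorem change_var (F : ℂ → ℂ) (hd : ∀ t : ℂ, ‖t‖ = 1 → DifferentiableAt ℂ F t)
    (hc : ContinuousOn (deriv F) (sphere 0 1)) (h1 : ∀ t : ℂ, ‖t‖ = 1 → ‖F t‖ = 1)
    (hτ : ∀ t : ℂ, ‖t‖ = 1 → (t * deriv F t / F t).im = 0 ∧ 0 ≤ (t * deriv F t / F t).re)
    (hinj : Set.InjOn F (sphere 0 1)) (Φ : ℂ → ℂ) (hΦ : ContinuousOn Φ (sphere 0 1)) :
    av (fun t => Φ (F t) * (t * deriv F t / F t)) = av Φ := by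
  obtain ⟨a, τ, hτc, hτ0, had, hτeq, hF⟩ := lift_exists F hd hc h1 hτ
  have hw := winding F hinj a τ hτ0 had hF
  have hgc : Continuous fun φ : ℝ => Φ (circleMap 0 1 φ) :=
    hΦ.comp_continuous (continuous_circleMap 0 1)
      (fun θ => circleMap_mem_sphere (0 : ℂ) zero_le_one θ)
  have hper : Function.Periodic (fun φ : ℝ => Φ (circleMap 0 1 φ)) (2 * Real.pi) := by
    intro φ
    beta_reduce
    rw [periodic_circleMap (0 : ℂ) 1 φ]
  unfold av
  rw [Real.circleAverage_def, Real.circleAverage_def]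
  congr 1
  have e1 : ∀ θ : ℝ, Φ (F (circleMap 0 1 θ)) *
      (circleMap 0 1 θ * deriv F (circleMap 0 1 θ) / F (circleMap 0 1 θ))
      = τ θ • ((fun φ : ℝ => Φ (circleMap 0 1 φ)) ∘ a) θ := by
    intro θ
    rw [hτeq, hF, Function.comp_apply, Complex.real_smul, mul_comm]
  simp_rw [e1]
  rw [intervalIntegral.integral_deriv_smul_comp (fun x _ => had x) hτc.continuousOn hgc, hw,
    hper.intervalIntegral_add_eq (a 0) 0, zero_add]

end Crest.Agent.R132
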