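import Crest.Agent.R132.S181Pois
import Crest.Agent.R132.S181Var
import Crest.Agent.R132.S181Geo
import Crest.Agent.R132.Div
import Crest.Agent.R132.Res

/-!
# Piece S181VAL, auxiliary file: the proof of `s181_val` from the conclusions of `inv_fun` and `fac`
-/

set_option autoImplicit false
open Metric Set Matrix
open scoped ComplexOrder
open Crest.AnalysisR.NumRange

namespace Crest.Agent.R132.S181Valaux

/-- `q(z) - q(B) = (z - B) R(z)` -/
theorem poly_div {n : ℕ} (B : Matrix (Fin n) (Fin n) ℂ) (q : Polynomial ℂ) :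
    ∃ R : ℂ → Matrix (Fin n) (Fin n) ℂ, (∀ i j, Differentiable ℂ (fun z => R z i j)) ∧
      ∀ z : ℂ, (z • (1 : Matrix (Fin n) (Fin n) ℂ) - B) * R z =
        q.eval z • (1 : Matrix (Fin n) (Fin n) ℂ) - Polynomial.aeval B q := by
  induction q using Polynomial.induction_on with
  | C a =>
    refine ⟨fun _ => 0, fun i j => differentiable_const _, fun z => ?_⟩
    rw [Polynomial.eval_C, Polynomial.aeval_C, Algebra.algebraMap_eq_smul_one, sub_self, mul_zero]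
  | add p q hp hq =>
    obtain ⟨R, hR, h⟩ := hp
    obtain ⟨R', hR', h'⟩ := hq
    refine ⟨fun z => R z + R' z, fun i j => (hR i j).add (hR' i j), fun z => ?_⟩
    rw [mul_add, h, h', Polynomial.eval_add, map_add, add_smul]
    abel
  | monomial m a hp =>
    obtain ⟨R, hR, h⟩ := hp
    refine ⟨fun z => z • R z + Polynomial.aeval B (Polynomial.C a * Polynomial.X ^ m), ?_, ?_⟩
    · intro i j
      simp only [Matrix.add_apply, Matrix.smul_apply, smul_eq_mul]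
      exact (differentiable_id.mul (hR i j)).add (differentiable_const _)
    · intro z
      rw [mul_add, mul_smul_comm, h, pow_succ, ← mul_assoc]
      generalize Polynomial.C a * Polynomial.X ^ m = p
      have hc : B * Polynomial.aeval B p = Polynomial.aeval B p * B := by
        have : Polynomial.aeval B (Polynomial.X * p) = Polynomial.aeval B (p * Polynomial.X) := by
          rw [mul_comm]
        rwa [map_mul, map_mul, Polynomial.aeval_X] at this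
      rw [Polynomial.eval_mul, Polynomial.eval_X, map_mul, Polynomial.aeval_X, sub_mul, hc,
        smul_mul_assoc, one_mul, smul_sub, smul_smul, mul_comm z]
      abel

theorem smul_sub_det_ne {n : ℕ} (T : Matrix (Fin n) (Fin n) ℂ)
    (hT : ∀ μ ∈ spectrum ℂ T, ‖μ‖ < 1) (ζ : ℂ) (hζ : 1 ≤ ‖ζ‖) :
    IsUnit (ζ • (1 : Matrix (Fin n) (Fin n) ℂ) - T) := by
  rw [← Algebra.algebraMap_eq_smul_one, ← spectrum.notMem_iff]
  intro h
  exact absurd (hT ζ h) (not_lt.2 hζ)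

theorem inv_cont {n : ℕ} (T : Matrix (Fin n) (Fin n) ℂ)
    (hT : ∀ μ ∈ spectrum ℂ T, ‖μ‖ < 1) (a b : Fin n) :
    ContinuousOn (fun ζ : ℂ => (ζ • (1 : Matrix (Fin n) (Fin n) ℂ) - T)⁻¹ a b)
      (sphere 0 1) := by
  have h1 : DifferentiableOn ℂ (fun ζ : ℂ => (ζ • (1 : Matrix (Fin n) (Fin n) ℂ) - T)⁻¹ a b)
      {ζ | (ζ • (1 : Matrix (Fin n) (Fin n) ℂ) - T).det ≠ 0} := by
    refine Res_aux.differentiableOn_inv ?_ (fun u hu => hu) a b
    intro i j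
    simp only [Matrix.sub_apply, Matrix.smul_apply, smul_eq_mul]
    exact (differentiableOn_id.mul_const _).sub_const _
  refine h1.continuousOn.mono ?_
  intro ζ hζ
  have h2 : ‖ζ‖ = 1 := by simpa using hζ
  exact ((Matrix.isUnit_iff_isUnit_det _).1 (smul_sub_det_ne T hT ζ h2.ge)).ne_zero

theorem val_core {n : ℕ} (B T : Matrix (Fin n) (Fin n) ℂ) (W : Set ℂ) (hW : IsOpen W)
    (hB : spectrum ℂ B ⊆ W) (hT : ∀ μ ∈ spectrum ℂ T, ‖μ‖ < 1) (f : ℂ → ℂ)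
    (D : ℂ → Matrix (Fin n) (Fin n) ℂ) (hD : HolOn W D)
    (hDf : ∀ z ∈ W, f z • (1 : Matrix (Fin n) (Fin n) ℂ) - T =
      (z • (1 : Matrix (Fin n) (Fin n) ℂ) - B) * D z)
    (hDu : ∀ z ∈ W, IsUnit (D z))
    (ρ : ℝ) (hρ : 1 < ρ) (ψ : ℂ → ℂ) (hψ : DifferentiableOn ℂ ψ (ball 0 ρ))
    (hψW : ∀ ζ ∈ ball (0 : ℂ) ρ, ψ ζ ∈ W) (hfψ : ∀ ζ ∈ ball (0 : ℂ) ρ, f (ψ ζ) = ζ)
    (v : ℂ → ℂ) (hv : DifferentiableOn ℂ v W) (q : Polynomial ℂ)
    (hq : AgreesOnSpectrum B v q) (a b : Fin n) :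
    av (fun ζ => ζ * v (ψ ζ) * ((ζ • (1 : Matrix (Fin n) (Fin n) ℂ) - T)⁻¹ a b)) =
      Polynomial.aeval B q a b := by
  obtain ⟨k, hk, hvk⟩ := agrees_div B W hW hB v hv q hq
  obtain ⟨R, hR, hRq⟩ := poly_div B q
  -- the holomorphic matrix function
  set M : ℂ → Matrix (Fin n) (Fin n) ℂ := fun z =>
    R z + k z • (z • (1 : Matrix (Fin n) (Fin n) ℂ) - B).adjugate with hM
  have hzB : ∀ i j, Differentiable ℂ
      (fun z : ℂ => (z • (1 : Matrix (Fin n) (Fin n) ℂ) - B) i j) := by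
    intro i j
    simp only [Matrix.sub_apply, Matrix.smul_apply, smul_eq_mul]
    exact (differentiable_id.mul_const _).sub_const _
  have hMh : ∀ i j, DifferentiableOn ℂ (fun z => M z i j) W := by
    intro i j
    simp only [hM, Matrix.add_apply, Matrix.smul_apply, smul_eq_mul]
    exact (hR i j).differentiableOn.add (hk.mul
      (Res_aux.differentiableOn_adjugate (fun i j => (hzB i j).differentiableOn) i j))
  have hvM : ∀ z ∈ W, v z • (1 : Matrix (Fin n) (Fin n) ℂ) =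
      Polynomial.aeval B q + (z • (1 : Matrix (Fin n) (Fin n) ℂ) - B) * M z := by
    intro z hz
    have hchar : (z • (1 : Matrix (Fin n) (Fin n) ℂ) - B) *
        (z • (1 : Matrix (Fin n) (Fin n) ℂ) - B).adjugate =
        B.charpoly.eval z • (1 : Matrix (Fin n) (Fin n) ℂ) := by
      rw [Matrix.mul_adjugate, Matrix.eval_charpoly]
      congr 2
      rw [Matrix.scalar_apply, Matrix.smul_one_eq_diagonal]
    rw [hM, mul_add, hRq, mul_smul_comm, hchar, hvk z hz, add_smul, smul_smul,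
      mul_comm (k z)]
    abel
  have hkey : ∀ ζ : ℂ, ‖ζ‖ = 1 →
      ζ * v (ψ ζ) * ((ζ • (1 : Matrix (Fin n) (Fin n) ℂ) - T)⁻¹ a b) =
      (∑ c, Polynomial.aeval B q c b *
        (ζ * ((ζ • (1 : Matrix (Fin n) (Fin n) ℂ) - T)⁻¹ a c))) +
      ζ * ((D (ψ ζ))⁻¹ * M (ψ ζ)) a b := by
    intro ζ hζ
    have hζρ : ζ ∈ ball (0 : ℂ) ρ := by simp [hζ, hρ]
    have hz : ψ ζ ∈ W := hψW ζ hζρ
    have hu := smul_sub_det_ne T hT ζ hζ.ge
    have hfac : ζ • (1 : Matrix (Fin n) (Fin n) ℂ) - T =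
        (ψ ζ • (1 : Matrix (Fin n) (Fin n) ℂ) - B) * D (ψ ζ) := by
      have := hDf (ψ ζ) hz
      rwa [hfψ ζ hζρ] at this
    have huB : IsUnit (ψ ζ • (1 : Matrix (Fin n) (Fin n) ℂ) - B) := by
      rw [Matrix.isUnit_iff_isUnit_det]
      rw [hfac, Matrix.isUnit_iff_isUnit_det, Matrix.det_mul] at hu
      exact isUnit_of_mul_isUnit_left hu
    have hinv : (ζ • (1 : Matrix (Fin n) (Fin n) ℂ) - T)⁻¹ =
        (D (ψ ζ))⁻¹ * (ψ ζ • (1 : Matrix (Fin n) (Fin n) ℂ) - B)⁻¹ := by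
      rw [hfac, Matrix.mul_inv_rev]
    have hmat : v (ψ ζ) • (ζ • (1 : Matrix (Fin n) (Fin n) ℂ) - T)⁻¹ =
        (ζ • (1 : Matrix (Fin n) (Fin n) ℂ) - T)⁻¹ * Polynomial.aeval B q +
          (D (ψ ζ))⁻¹ * M (ψ ζ) := by
      calc v (ψ ζ) • (ζ • (1 : Matrix (Fin n) (Fin n) ℂ) - T)⁻¹
          = (ζ • (1 : Matrix (Fin n) (Fin n) ℂ) - T)⁻¹ *
            (v (ψ ζ) • (1 : Matrix (Fin n) (Fin n) ℂ)) := by rw [mul_smul_comm, mul_one]
        _ = (ζ • (1 : Matrix (Fin n) (Fin n) ℂ) - T)⁻¹ * Polynomial.aeval B q +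
            (D (ψ ζ))⁻¹ * ((ψ ζ • (1 : Matrix (Fin n) (Fin n) ℂ) - B)⁻¹ *
              (ψ ζ • (1 : Matrix (Fin n) (Fin n) ℂ) - B)) * M (ψ ζ) := by
            rw [hvM (ψ ζ) hz, mul_add]
            congr 1
            rw [hinv]
            simp only [mul_assoc]
        _ = _ := by
            rw [Matrix.nonsing_inv_mul _ ((Matrix.isUnit_iff_isUnit_det _).1 huB), mul_one]
    have hent := congrFun (congrFun hmat a) b
    rw [Matrix.smul_apply, smul_eq_mul, Matrix.add_apply, Matrix.mul_apply] at hent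
    rw [mul_assoc, hent, mul_add, Finset.mul_sum]
    congr 1
    refine Finset.sum_congr rfl fun c _ => by ring
  have hN : DifferentiableOn ℂ (fun ζ => ζ * ((D (ψ ζ))⁻¹ * M (ψ ζ)) a b) (ball 0 ρ) := by
    refine differentiableOn_id.mul ?_
    simp only [Matrix.mul_apply]
    refine DifferentiableOn.fun_sum fun c _ => ?_
    have e1 : DifferentiableOn ℂ (fun z => (D z)⁻¹ a c) W :=
      Res_aux.differentiableOn_inv hD
        (fun z hz => ((Matrix.isUnit_iff_isUnit_det _).1 (hDu z hz)).ne_zero) a c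
    exact (e1.comp hψ hψW).mul ((hMh c b).comp hψ hψW)
  have hsub : closedBall (0 : ℂ) 1 ⊆ ball 0 ρ := closedBall_subset_ball hρ
  rw [av_congr hkey, av_add, av_sum]
  · have h2 : av (fun ζ => ζ * ((D (ψ ζ))⁻¹ * M (ψ ζ)) a b) = 0 := by
      have := DiffContOnCl.circleAverage (f := fun ζ => ζ * ((D (ψ ζ))⁻¹ * M (ψ ζ)) a b)
        (c := 0) (R := 1) (hN.diffContOnCl_ball (by rw [abs_one]; exact hsub))
      rw [av, this, zero_mul]
    rw [h2, add_zero]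
    simp_rw [av_const_mul, av_res_eq_one T hT]
    have h3 : ((1 : Matrix (Fin n) (Fin n) ℂ) * Polynomial.aeval B q) a b =
        ∑ c, Polynomial.aeval B q c b * (1 : Matrix (Fin n) (Fin n) ℂ) a c := by
      rw [Matrix.mul_apply]
      exact Finset.sum_congr rfl fun c _ => mul_comm _ _
    rw [← h3, one_mul]
  · intro c _
    exact continuousOn_const.mul (continuousOn_id.mul (inv_cont T hT a c))
  · exact continuousOn_finsetSum _ fun c _ =>
      continuousOn_const.mul (continuousOn_id.mul (inv_cont T hT a c))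
  · exact hN.continuousOn.mono (sphere_subset_closedBall.trans hsub)

theorem spec_aeval {n : ℕ} (hn : 1 ≤ n) (B : Matrix (Fin n) (Fin n) ℂ) (Ω : Set ℂ)
    (f : ℂ → ℂ) (hf₃ : f '' Ω = Metric.ball 0 1) (hB : spectrum ℂ B ⊆ Ω) (p : Polynomial ℂ)
    (hp : AgreesOnSpectrum B f p) : ∀ μ ∈ spectrum ℂ (Polynomial.aeval B p), ‖μ‖ < 1 := by
  have : Nonempty (Fin n) := ⟨⟨0, hn⟩⟩
  intro μ hμ
  rw [spectrum.map_polynomial_aeval_of_nonempty B p
    (spectrum.nonempty_of_isAlgClosed_of_finiteDimensional ℂ B)] at hμ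
  obtain ⟨w, hw, rfl⟩ := hμ
  have h1 := hp w hw 0 hn
  simp only [iteratedDeriv_zero] at h1
  have h2 : f w ∈ Metric.ball (0 : ℂ) 1 := by
    rw [← hf₃]
    exact ⟨w, hB hw, rfl⟩
  simp only [h1]
  simpa using h2

theorem s181_val' {n : ℕ} (hn : 1 ≤ n) (B : Matrix (Fin n) (Fin n) ℂ)
    (Ω U : Set ℂ) (hΩ₁ : IsOpen Ω) (hΩ₂ : Bornology.IsBounded Ω)
    (hΩ₃ : Convex ℝ Ω) (hU : IsOpen U) (hΩU : closure Ω ⊆ U)
    (f : ℂ → ℂ) (hf₁ : DifferentiableOn ℂ f U) (hf₂ : Set.InjOn f U)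
    (hf₃ : f '' Ω = Metric.ball 0 1)
    (G : ℂ → ℂ) (r : ℝ) (hr₁ : 0 < r) (hr₂ : r < 1)
    (hG₁ : DifferentiableOn ℂ G {t : ℂ | r < ‖t‖}) (hG₂ : Set.InjOn G {t : ℂ | r < ‖t‖})
    (hG₃ : G '' {t : ℂ | 1 < ‖t‖} = (closure Ω)ᶜ)
    (hB : spectrum ℂ B ⊆ Ω) (p : Polynomial ℂ) (hp : AgreesOnSpectrum B f p)
    (V : Set ℂ) (hV : IsOpen V) (hΩV : closure Ω ⊆ V) (v : ℂ → ℂ) (hv : DifferentiableOn ℂ v V)
    (q : Polynomial ℂ) (hq : AgreesOnSpectrum B v q) (a b : Fin n)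
    (hinv : ∃ (ρ : ℝ) (ψ : ℂ → ℂ), 1 < ρ ∧ DifferentiableOn ℂ ψ (ball 0 ρ) ∧
      (∀ ζ ∈ ball (0 : ℂ) ρ, ψ ζ ∈ U ∩ V) ∧ (∀ ζ ∈ ball (0 : ℂ) ρ, f (ψ ζ) = ζ))
    (hfac : ∃ D : ℂ → Matrix (Fin n) (Fin n) ℂ, HolOn U D ∧
      (∀ z ∈ U, f z • (1 : Matrix (Fin n) (Fin n) ℂ) - Polynomial.aeval B p
        = (z • (1 : Matrix (Fin n) (Fin n) ℂ) - B) * D z) ∧
      (∀ z ∈ U, D z * B = B * D z) ∧ (∀ z ∈ U, IsUnit (D z))) :
    av (fun t => pois (Polynomial.aeval B p) (f (G t)) a b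
        * (t * deriv (fun s => f (G s)) t / f (G t)) * v (G t))
      = Polynomial.aeval B q a b := by
  obtain ⟨h1, h2, h3, h4, h5, h6⟩ := s181_geo Ω U hΩ₁ hΩ₂ hΩ₃ hU hΩU f hf₁ hf₂ hf₃ G r hr₁ hr₂
    hG₁ hG₂ hG₃
  obtain ⟨ρ, ψ, hρ, hψ, hψW, hfψ⟩ := hinv
  obtain ⟨D, hD, hDf, -, hDu⟩ := hfac
  have hT := spec_aeval hn B Ω f hf₃ hB p hp
  have hΩW : Ω ⊆ U ∩ V := fun z hz => ⟨hΩU (subset_closure hz), hΩV (subset_closure hz)⟩
  have hsph : sphere (0 : ℂ) 1 ⊆ ball 0 ρ :=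
    sphere_subset_closedBall.trans (closedBall_subset_ball hρ)
  -- change of variables
  have e1 : ∀ t : ℂ, ‖t‖ = 1 → pois (Polynomial.aeval B p) (f (G t)) a b
        * (t * deriv (fun s => f (G s)) t / f (G t)) * v (G t) =
      (fun ζ => pois (Polynomial.aeval B p) ζ a b * v (ψ ζ)) ((fun s => f (G s)) t) *
        (t * deriv (fun s => f (G s)) t / (fun s => f (G s)) t) := by
    intro t ht
    have hF : f (G t) ∈ ball (0 : ℂ) ρ := hsph (by simp [h2 t ht])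
    have hψG : ψ (f (G t)) = G t :=
      hf₂ (hψW _ hF).1 (hΩU (h1 t ht)) (hfψ _ hF)
    simp only [hψG]
    ring
  rw [av_congr e1]
  have hvψ : DifferentiableOn ℂ (fun ζ => v (ψ ζ)) (ball 0 ρ) :=
    hv.comp hψ (fun ζ hζ => (hψW ζ hζ).2)
  rw [change_var (fun s => f (G s)) h5 h6 h2 h3 h4
    (fun ζ => pois (Polynomial.aeval B p) ζ a b * v (ψ ζ))
    ((pois_continuousOn _ hT a b).mul (hvψ.continuousOn.mono hsph))]
  rw [pois_av _ hT ρ hρ _ hvψ a b]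
  exact val_core B (Polynomial.aeval B p) (U ∩ V) (hU.inter hV) (hB.trans hΩW) hT f D
    (fun i j => (hD i j).mono inter_subset_left) (fun z hz => hDf z hz.1)
    (fun z hz => hDu z hz.1) ρ hρ ψ hψ hψW hfψ v (hv.mono inter_subset_right) q hq a b

end Crest.Agent.R132.S181Valaux
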