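import Crest.Agent.R132.S181Pois
import Crest.Agent.R132.S181Var
import Crest.Agent.R132.S181Geo
import Crest.Agent.R132.Div
import Crest.Agent.R132.FacAux
import Crest.Agent.R132.S181ValAux
import Crest.Agent.R132.InjDeriv

/-!
# Pieces S181INV, S181D, S181VAL : `∮ Poisson · v = q(B)`

* S181INV `inv_fun`: `f` injective holomorphic on the open `U ⊇ closure Ω`, `Ω` bounded open, `f(Ω) = ball 0 1`: there are `ρ > 1` and `ψ`
  holomorphic on `ball 0 ρ` with values in `U'` (any given open set `U'` with `closure Ω ⊆ U' ⊆ U`) and `f (ψ ζ) = ζ` on `ball 0 ρ`.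
  Proof: `f (closure Ω)` is compact, contains `ball 0 1`, so contains the closed ball; `f (U')` is open (open mapping theorem) and contains the compact
  `closedBall 0 1`, hence a ball of radius `ρ > 1`; `ψ` = inverse function, holomorphic since `f' ≠ 0` (injective), e.g. `HasStrictDerivAt.of_local_left_inverse`
  or the holomorphic inverse function theorem; continuity of the inverse from the open mapping theorem.
* S181D `fac`: `T = p(B)`; `(f z) • 1 - T = (z • 1 - B) * D z`, `D` entrywise holomorphic on `U`, commuting with `B`, invertible for every `z ∈ U`.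
  `D z = r_p(z) + k_f(z) adjugate(z - B)` with `p(z) - p(B) = (z - B) r_p(z)` and `f z - p z = χ(z) k_f(z)` (`agrees_div`).
  Invertible: if `D z x = 0`, `x ≠ 0`, then `ker (D z)` is a nonzero `B`-invariant subspace, so it contains an eigenvector `y` of `B`, `B y = μ y`;
  `D w y = ((f w - f μ)/(w - μ)) y` for `w ≠ μ` (as `p μ = f μ`), and `= f'(μ) y` for `w = μ` by continuity; both are `≠ 0` since `f` is injective on `U`.
* S181VAL `s181_val`: `change_var` with `F = f ∘ G`, `Φ ζ = pois T ζ a b * v (ψ ζ)` (`v (G t) = v (ψ (F t))` because `ψ (f z) = z` for `z = G t ∈ closure Ω`),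
  `pois_av` with `u = v ∘ ψ`; then with `v = q + χ k` (`agrees_div`, on `U ∩ V`): on the unit circle, `z = ψ ζ`, `(ζ - T)⁻¹ = (D z)⁻¹ (z - B)⁻¹`, so
  `v(z) (ζ - T)⁻¹ = q(B) (ζ - T)⁻¹ + (D z)⁻¹ r_q(z) + k(z) (D z)⁻¹ adjugate(z - B)`, where the last two terms are analytic functions of `ζ` on `ball 0 ρ`; times `ζ` their mean is
  `0`; the first gives `q(B)` by `av_res_eq_one`.
-/

set_option autoImplicit false
open Metric Set Matrix
open scoped ComplexOrder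
open Crest.AnalysisR.NumRange

namespace Crest.Agent.R132

theorem inv_fun (Ω U U' : Set ℂ) (hΩ₁ : IsOpen Ω) (hΩ₂ : Bornology.IsBounded Ω)
    (hU : IsOpen U) (hU' : IsOpen U') (h1 : closure Ω ⊆ U') (h2 : U' ⊆ U)
    (f : ℂ → ℂ) (hf₁ : DifferentiableOn ℂ f U) (hf₂ : Set.InjOn f U)
    (hf₃ : f '' Ω = Metric.ball 0 1) :
    ∃ (ρ : ℝ) (ψ : ℂ → ℂ), 1 < ρ ∧ DifferentiableOn ℂ ψ (ball 0 ρ) ∧
      (∀ ζ ∈ ball (0 : ℂ) ρ, ψ ζ ∈ U') ∧ (∀ ζ ∈ ball (0 : ℂ) ρ, f (ψ ζ) = ζ) := by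
  obtain ⟨ψ, hψ, hinv⟩ := inj_inverse hU hf₁ hf₂
  have hopen : IsOpen (f '' U') := inj_image_open hU hf₁ hf₂ hU' h2
  have hcomp : IsCompact (f '' closure Ω) :=
    (hΩ₂.isCompact_closure).image_of_continuousOn
      (hf₁.continuousOn.mono (h1.trans h2))
  have hsub : closedBall (0 : ℂ) 1 ⊆ f '' U' := by
    have e1 : ball (0 : ℂ) 1 ⊆ f '' closure Ω := by
      rw [← hf₃]
      exact image_mono subset_closure
    have e2 : closure (ball (0 : ℂ) 1) ⊆ f '' closure Ω :=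
      closure_minimal e1 hcomp.isClosed
    rw [closure_ball (0 : ℂ) one_ne_zero] at e2
    exact e2.trans (image_mono h1)
  obtain ⟨δ, hδ, hthick⟩ :=
    (isCompact_closedBall (0 : ℂ) 1).exists_thickening_subset_open hopen hsub
  rw [thickening_closedBall hδ zero_le_one] at hthick
  refine ⟨δ + 1, ψ, by linarith, hψ.mono (hthick.trans (image_mono h2)), ?_, ?_⟩
  · intro ζ hζ
    obtain ⟨z, hz, rfl⟩ := hthick hζ
    rw [hinv z (h2 hz)]
    exact hz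
  · intro ζ hζ
    obtain ⟨z, hz, rfl⟩ := hthick hζ
    rw [hinv z (h2 hz)]

theorem fac {n : ℕ} (B : Matrix (Fin n) (Fin n) ℂ) (U : Set ℂ) (hU : IsOpen U) (f : ℂ → ℂ)
    (hf₁ : DifferentiableOn ℂ f U) (hf₂ : Set.InjOn f U) (hB : spectrum ℂ B ⊆ U)
    (p : Polynomial ℂ) (hp : AgreesOnSpectrum B f p) :
    ∃ D : ℂ → Matrix (Fin n) (Fin n) ℂ, HolOn U D ∧
      (∀ z ∈ U, f z • (1 : Matrix (Fin n) (Fin n) ℂ) - Polynomial.aeval B p
        = (z • (1 : Matrix (Fin n) (Fin n) ℂ) - B) * D z) ∧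
      (∀ z ∈ U, D z * B = B * D z) ∧ (∀ z ∈ U, IsUnit (D z)) :=
  fac_aux B U hU f hf₁ hf₂ hB p hp

theorem s181_val {n : ℕ} (hn : 1 ≤ n) (B : Matrix (Fin n) (Fin n) ℂ)
    (Ω U : Set ℂ) (hΩ₁ : IsOpen Ω) (hΩ₂ : Bornology.IsBounded Ω)
    (hΩ₃ : Convex ℝ Ω) (hU : IsOpen U) (hΩU : closure Ω ⊆ U)
    (f : ℂ → ℂ) (hf₁ : DifferentiableOn ℂ f U) (hf₂ : Set.InjOn f U)
    (hf₃ : f '' Ω = Metric.ball 0 1)
    (G : ℂ → ℂ) (r : ℝ) (hr₁ : 0 < r) (hr₂ : r < 1)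
    (hG₁ : DifferentiableOn ℂ G {t : ℂ | r < ‖t‖}) (hG₂ : Set.InjOn G {t : ℂ | r < ‖t‖})
    (hG₃ : G '' {t : ℂ | 1 < ‖t‖} = (closure Ω)ᶜ)
    (hB : spectrum ℂ B ⊆ Ω) (p : Polynomial ℂ) (hp : AgreesOnSpectrum B f p)
    (V : Set ℂ) (hV : IsOpen V) (hΩV : closure Ω ⊆ V) (v : ℂ → ℂ) (hv : DifferentiableOn ℂ v V)
    (q : Polynomial ℂ) (hq : AgreesOnSpectrum B v q) (a b : Fin n) :
    av (fun t => pois (Polynomial.aeval B p) (f (G t)) a b
        * (t * deriv (fun s => f (G s)) t / f (G t)) * v (G t))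
      = Polynomial.aeval B q a b := by
  exact S181Valaux.s181_val' hn B Ω U hΩ₁ hΩ₂ hΩ₃ hU hΩU f hf₁ hf₂ hf₃ G r hr₁ hr₂ hG₁ hG₂ hG₃ hB p hp
    V hV hΩV v hv q hq a b
    (inv_fun Ω U (U ∩ V) hΩ₁ hΩ₂ hU (hU.inter hV) (Set.subset_inter hΩU hΩV)
      Set.inter_subset_left f hf₁ hf₂ hf₃)
    (fac B U hU f hf₁ hf₂ (hB.trans (subset_closure.trans hΩU)) p hp)

end Crest.Agent.R132
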