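import Crest.Agent.R132.SCDefs

/-! # SC1b: first and second derivative test at a maximum over the circle -/

set_option autoImplicit false
open Metric Set

namespace Crest.Agent.R132.SC1B

variable {L g0 : ℂ → ℂ}

theorem inv_mem (t : ℂ) (ht : 1 < ‖t‖) : t⁻¹ ∈ ball (0 : ℂ) 1 := by
  rw [mem_ball_zero_iff, norm_inv]
  exact inv_lt_one_of_one_lt₀ ht

theorem hasDerivAt_G0 (h : CD L g0) (t : ℂ) (ht : 1 < ‖t‖) :
    HasDerivAt (G0 g0) (Complex.exp (L t⁻¹)) t := by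
  have ht0 : t ≠ 0 := by
    intro h0; rw [h0, norm_zero] at ht; linarith
  have hu := inv_mem t ht
  have hg : HasDerivAt g0 (deriv g0 t⁻¹) t⁻¹ :=
    (h.hg.differentiableAt (isOpen_ball.mem_nhds hu)).hasDerivAt
  have hinv : HasDerivAt (fun z : ℂ => z⁻¹) (-(t ^ 2)⁻¹) t := hasDerivAt_inv ht0
  have h1 : HasDerivAt (fun z : ℂ => g0 z⁻¹) (deriv g0 t⁻¹ * (-(t ^ 2)⁻¹)) t := hg.comp t hinv
  have h2 := (hasDerivAt_id t).add h1
  have h3 : (1 : ℂ) + deriv g0 t⁻¹ * (-(t ^ 2)⁻¹) = Complex.exp (L t⁻¹) := by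
    rw [← h.rel t⁻¹ hu, inv_pow]; ring
  rw [h3] at h2
  exact h2

theorem max_dir (h : CD L g0) (R : ℝ) (hR : 1 < R) (ν : ℂ) (hν : ν ≠ 0) (s : ℂ) (hs : ‖s‖ = R)
    (hmax : ∀ s' : ℂ, ‖s'‖ = R →
      ((starRingEnd ℂ) ν * G0 g0 s').re ≤ ((starRingEnd ℂ) ν * G0 g0 s).re) :
    ∃ r : ℝ, 0 < r ∧ s * Complex.exp (L s⁻¹) = (r : ℂ) * ν := by
  set T : ℂ → ℂ := fun z => (R : ℂ) * Complex.exp (z * Complex.I) with hT
  have hTn : ∀ θ : ℝ, ‖T θ‖ = R := by
    intro θ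
    simp only [hT, norm_mul, Complex.norm_real, Complex.norm_exp_ofReal_mul_I, mul_one,
      Real.norm_eq_abs]
    exact abs_of_pos (by linarith)
  have hT1 : ∀ θ : ℝ, 1 < ‖T θ‖ := fun θ => by rw [hTn]; exact hR
  have hT0 : ∀ θ : ℝ, T θ ≠ 0 := fun θ h0 => by
    have := hT1 θ; rw [h0, norm_zero] at this; linarith
  have hTd : ∀ z : ℂ, HasDerivAt T (T z * Complex.I) z := by
    intro z
    have h1 : HasDerivAt (fun z : ℂ => z * Complex.I) Complex.I z := by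
      simpa using (hasDerivAt_id z).mul_const Complex.I
    have h2 := (h1.cexp).const_mul (R : ℂ)
    have e : (R : ℂ) * (Complex.exp (z * Complex.I) * Complex.I) = T z * Complex.I := by
      simp only [hT]; ring
    rw [e] at h2
    exact h2
  obtain ⟨θ0, hθ0⟩ : ∃ θ0 : ℝ, T θ0 = s := ⟨Complex.arg s, by
    simp only [hT]; rw [← hs]; exact Complex.norm_mul_exp_arg_mul_I s⟩
  -- the function and its derivatives
  set f : ℝ → ℝ := fun θ => ((starRingEnd ℂ) ν * G0 g0 (T θ)).re with hf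
  set Ψ : ℂ → ℂ := fun z => (starRingEnd ℂ) ν * (Complex.exp (L (T z)⁻¹) * (T z * Complex.I))
    with hΨ
  have hfd : ∀ θ : ℝ, HasDerivAt f (Ψ θ).re θ := by
    intro θ
    have h1 : HasDerivAt (fun z : ℂ => (starRingEnd ℂ) ν * G0 g0 (T z)) (Ψ θ) (θ : ℂ) :=
      ((hasDerivAt_G0 h (T θ) (hT1 θ)).comp (θ : ℂ) (hTd θ)).const_mul _
    exact h1.real_of_complex
  have hdf : deriv f = fun θ : ℝ => (Ψ θ).re := funext fun θ => (hfd θ).deriv
  have hΨd : ∀ θ : ℝ, HasDerivAt Ψ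
      (-((starRingEnd ℂ) ν * (T θ * Complex.exp (L (T θ)⁻¹)) *
        (1 - (T θ)⁻¹ * deriv L (T θ)⁻¹))) (θ : ℂ) := by
    intro θ
    have hu := inv_mem (T θ) (hT1 θ)
    have hL : HasDerivAt L (deriv L (T θ)⁻¹) (T θ)⁻¹ :=
      (h.hL.differentiableAt (isOpen_ball.mem_nhds hu)).hasDerivAt
    have h1 : HasDerivAt (fun z => (T z)⁻¹) (-(T θ * Complex.I) / (T θ) ^ 2) (θ : ℂ) :=
      (hTd θ).fun_inv (hT0 θ)
    have h2 : HasDerivAt (fun z => L (T z)⁻¹)
        (deriv L (T θ)⁻¹ * (-(T θ * Complex.I) / (T θ) ^ 2)) (θ : ℂ) := hL.comp (θ : ℂ) h1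
    have h3 := (h2.cexp.mul ((hTd θ).mul_const Complex.I)).const_mul ((starRingEnd ℂ) ν)
    have e : (starRingEnd ℂ) ν * (Complex.exp (L (T θ)⁻¹) *
        (deriv L (T θ)⁻¹ * (-(T θ * Complex.I) / (T θ) ^ 2)) * (T θ * Complex.I) +
        Complex.exp (L (T θ)⁻¹) * (T θ * Complex.I * Complex.I)) =
        (-((starRingEnd ℂ) ν * (T θ * Complex.exp (L (T θ)⁻¹)) *
        (1 - (T θ)⁻¹ * deriv L (T θ)⁻¹))) := by
      have hI : Complex.I * Complex.I = -1 := Complex.I_mul_I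
      have ht := hT0 θ
      have e1 : (-(T θ * Complex.I) / (T θ) ^ 2) * (T θ * Complex.I) = 1 := by
        field_simp
        rw [Complex.I_sq]; ring
      have e2 : T θ * (T θ)⁻¹ = 1 := mul_inv_cancel₀ ht
      calc _ = (starRingEnd ℂ) ν * (Complex.exp (L (T θ)⁻¹) *
        (deriv L (T θ)⁻¹ * ((-(T θ * Complex.I) / (T θ) ^ 2) * (T θ * Complex.I))) +
        Complex.exp (L (T θ)⁻¹) * (T θ * (Complex.I * Complex.I))) := by ring
        _ = (starRingEnd ℂ) ν * (Complex.exp (L (T θ)⁻¹) * (deriv L (T θ)⁻¹) -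
        Complex.exp (L (T θ)⁻¹) * T θ) := by rw [e1, hI]; ring
        _ = (starRingEnd ℂ) ν * (Complex.exp (L (T θ)⁻¹) * (deriv L (T θ)⁻¹) * (T θ * (T θ)⁻¹) -
        Complex.exp (L (T θ)⁻¹) * T θ) := by rw [e2]; ring
        _ = _ := by ring
    rw [e] at h3
    exact h3
  have hdd : deriv (deriv f) θ0 = (-((starRingEnd ℂ) ν * (s * Complex.exp (L s⁻¹)) *
        (1 - s⁻¹ * deriv L s⁻¹))).re := by
    rw [hdf]
    have := (hΨd θ0).real_of_complex.deriv
    rw [hθ0] at this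
    exact this
  have hfmax : ∀ θ, f θ ≤ f θ0 := by
    intro θ
    have := hmax (T θ) (hTn θ)
    simp only [hf, hθ0]
    exact this
  have hlmax : IsLocalMax f θ0 := Filter.Eventually.of_forall hfmax
  have hd0 : deriv f θ0 = 0 := hlmax.deriv_eq_zero
  set c : ℂ := (starRingEnd ℂ) ν * (s * Complex.exp (L s⁻¹)) with hc
  have hcim : c.im = 0 := by
    have h1 : (Ψ θ0).re = 0 := by rw [← congrFun hdf θ0]; exact hd0
    have h2 : Ψ θ0 = c * Complex.I := by
      simp only [hΨ, hθ0, hc]; ring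
    rw [h2] at h1
    simpa using h1
  have hcr : c = (c.re : ℂ) := by
    apply Complex.ext <;> simp [hcim]
  have hc0 : c ≠ 0 := by
    have hs0 : s ≠ 0 := by rw [← hθ0]; exact hT0 θ0
    exact mul_ne_zero ((map_ne_zero _).mpr hν) (mul_ne_zero hs0 (Complex.exp_ne_zero _))
  have hcre0 : c.re ≠ 0 := by
    intro h0; rw [h0] at hcr; exact hc0 (by simpa using hcr)
  have hs1 : 1 < ‖s‖ := by rw [hs]; exact hR
  have hpos := h.pos s⁻¹ (inv_mem s hs1)
  have hcpos : 0 < c.re := by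
    rcases lt_or_gt_of_ne hcre0 with hneg | hp
    · exfalso
      have h1 : 0 < deriv (deriv f) θ0 := by
        rw [hdd, hcr, Complex.neg_re, Complex.re_ofReal_mul]
        nlinarith
      have hcf : ContinuousAt f θ0 := (hfd θ0).continuousAt
      have hmin := isLocalMin_of_deriv_deriv_pos h1 hd0 hcf
      have hconst : f =ᶠ[nhds θ0] fun _ => f θ0 := by
        filter_upwards [hmin] with θ hθ
        exact le_antisymm (hfmax θ) hθ
      have h2 : deriv f =ᶠ[nhds θ0] fun _ => 0 := by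
        have := hconst.deriv
        simpa using this
      have h3 : deriv (deriv f) θ0 = 0 := by
        rw [h2.deriv_eq]; simp
      linarith
    · exact hp
  have hn : 0 < Complex.normSq ν := Complex.normSq_pos.mpr hν
  refine ⟨c.re / Complex.normSq ν, div_pos hcpos hn, ?_⟩
  have h5 : (starRingEnd ℂ) ν * (s * Complex.exp (L s⁻¹)) = (c.re : ℂ) := hcr
  have h6 : ν * (starRingEnd ℂ) ν = (Complex.normSq ν : ℂ) := Complex.mul_conj ν
  have hnc : (Complex.normSq ν : ℂ) ≠ 0 := by exact_mod_cast hn.ne'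
  push_cast
  rw [div_mul_eq_mul_div, eq_div_iff hnc, ← h6, ← h5]
  ring

end Crest.Agent.R132.SC1B
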