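import Crest.Agent.R132.Defs

/-!
# Row 132, exterior maps : definitions for the Schwarz-Christoffel part

`G0 t = t + g0 (1/t)` on `|t| > 1`, `G0' t = exp (L (1/t))`, `Re (1 + t G0''/G0') = Re (1 - u L' u) > 0` (`u = 1/t`): convex level curves.
Schwarz-Christoffel: `exp (L u) = ∏_k (1 - e^{iθ_k} u)^{2/N}`.
-/

set_option autoImplicit false
open Metric Set

namespace Crest.Agent.R132

/-- convex exterior data -/
structure CD (L g0 : ℂ → ℂ) : Prop where
  hL : DifferentiableOn ℂ L (ball 0 1)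
  hg : DifferentiableOn ℂ g0 (ball 0 1)
  L0 : L 0 = 0
  pos : ∀ u ∈ ball (0 : ℂ) 1, 0 < (1 - u * deriv L u).re
  rel : ∀ u ∈ ball (0 : ℂ) 1, 1 - u ^ 2 * deriv g0 u = Complex.exp (L u)

/-- normalised exterior map -/
noncomputable def G0 (g0 : ℂ → ℂ) (t : ℂ) : ℂ := t + g0 t⁻¹

/-- `L` for Schwarz-Christoffel -/
noncomputable def scL (N : ℕ) (θ : Fin N → ℝ) (u : ℂ) : ℂ :=
  (2 / (N : ℂ)) * ∑ k, Complex.log (1 - Complex.exp (θ k * Complex.I) * u)

/-- `E = exp L`, also on the closed disc -/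
noncomputable def scE (N : ℕ) (θ : Fin N → ℝ) (u : ℂ) : ℂ :=
  ∏ k, (1 - Complex.exp (θ k * Complex.I) * u) ^ (2 / (N : ℂ))

/-- prevertices from the vector of gaps -/
noncomputable def thx (N : ℕ) (x : Fin N → ℝ) (k : Fin N) : ℝ :=
  2 * Real.pi * ∑ j ∈ Finset.univ.filter (fun j => j < k), x j

/-- length of the `k`-th side -/
noncomputable def len (N : ℕ) (x : Fin N → ℝ) (k : Fin N) : ℝ :=
  ∫ ψ in (thx N x k)..(thx N x k + 2 * Real.pi * x k),
    ‖scE N (thx N x) (Complex.exp (-(ψ * Complex.I)))‖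

/-- the equiangular normals `ν_k = e^{2πik/N}` -/
noncomputable def nu (N : ℕ) (k : ℕ) : ℂ := Complex.exp (2 * Real.pi * k / N * Complex.I)

end Crest.Agent.R132
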