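import Crest.Agent.R132.SCSupport

/-!
# Piece SC2 : from convex exterior data to `Ext`

`mkExt` uses the level curve `|t| = R`: `G t = c * G0 (R t) + b`.  `Conv` follows from `support` (for `inj` use it with the roles of
`R t`, `R s` exchanged: `‖R t‖ ≤ ‖R s‖`), `Re (t dG t / (G t - G s)) = Re (conj (t dG t) (G t - G s)) / ‖G t - G s‖²`.
`Encl`: for `‖t‖ ≥ 1`, `ν = c (R t) exp (L (R t)⁻¹)`; `hP` gives `s` on the unit circle with `Re ν̄ (c G0 s + b - a) > 0`, and
`Re ν̄ (c G0 (R t) - c G0 s) ≥ 0` by `support` for `r s`, `r ↓ 1`, and continuity of `g0` on the closed disc.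
-/

set_option autoImplicit false
open Metric Set

namespace Crest.Agent.R132

variable {L g0 : ℂ → ℂ}

/-- the exterior map `t ↦ c * G0 (R t) + b` -/
noncomputable def mkExt (h : CD L g0) (c b : ℂ) (hc : c ≠ 0) (R : ℝ) (hR : 1 < R) : Ext where
  c := c * R
  g := fun u => c * g0 (u / R) + b
  ρ := R
  hc := by
    have : (R : ℂ) ≠ 0 := by
      exact_mod_cast (by linarith : (R : ℝ) ≠ 0)
    exact mul_ne_zero hc this
  hρ := hR
  hg := by
    have hR0 : 0 < R := by linarith
    have h1 : DifferentiableOn ℂ (fun u : ℂ => g0 (u / R)) (ball 0 R) := by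
      have h2 : MapsTo (fun u : ℂ => u / (R : ℂ)) (ball 0 R) (ball 0 1) := by
        intro u hu
        rw [mem_ball_zero_iff] at hu ⊢
        rw [norm_div, Complex.norm_real, Real.norm_eq_abs, abs_of_pos hR0]
        rw [div_lt_one hR0]; exact hu
      exact h.hg.comp (differentiable_id.div_const _).differentiableOn h2
    exact (h1.const_mul c).add_const b

theorem mkExt_G (h : CD L g0) (c b : ℂ) (hc : c ≠ 0) (R : ℝ) (hR : 1 < R) (t : ℂ) :
    (mkExt h c b hc R hR).G t = c * G0 g0 (R * t) + b := by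
  have hdef : (mkExt h c b hc R hR).G t = c * R * t + (c * g0 (t⁻¹ / R) + b) := rfl
  rw [hdef, G0]
  have : t⁻¹ / (R : ℂ) = ((R : ℂ) * t)⁻¹ := by
    rw [mul_inv, div_eq_mul_inv, mul_comm]
  rw [this]; ring

theorem mkExt_dG (h : CD L g0) (c b : ℂ) (hc : c ≠ 0) (R : ℝ) (hR : 1 < R) (t : ℂ) (ht : 1 ≤ ‖t‖) :
    (mkExt h c b hc R hR).dG t = c * R * Complex.exp (L (R * t)⁻¹) := by
  have hR0 : 0 < R := by linarith
  have hRc : (R : ℂ) ≠ 0 := by exact_mod_cast hR0.ne'
  have ht0 : t ≠ 0 := by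
    intro h0; rw [h0, norm_zero] at ht; linarith
  have hu : ((R : ℂ) * t)⁻¹ ∈ ball (0 : ℂ) 1 := by
    rw [mem_ball_zero_iff, norm_inv, norm_mul, Complex.norm_real, Real.norm_eq_abs, abs_of_pos hR0]
    apply inv_lt_one_of_one_lt₀
    nlinarith
  have hdef : (mkExt h c b hc R hR).dG t
      = c * R - deriv (fun u : ℂ => c * g0 (u / R) + b) t⁻¹ * (t⁻¹) ^ 2 := rfl
  have hu' : t⁻¹ / (R : ℂ) = ((R : ℂ) * t)⁻¹ := by
    rw [mul_inv, div_eq_mul_inv, mul_comm]
  have hd : HasDerivAt g0 (deriv g0 ((R : ℂ) * t)⁻¹) (t⁻¹ / (R : ℂ)) := by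
    rw [hu']
    exact (h.hg.differentiableAt (isOpen_ball.mem_nhds hu)).hasDerivAt
  have hd2 : HasDerivAt (fun u : ℂ => c * g0 (u / R) + b)
      (c * (deriv g0 ((R : ℂ) * t)⁻¹ * (1 / (R : ℂ)))) t⁻¹ := by
    have h3 : HasDerivAt (fun u : ℂ => u / (R : ℂ)) (1 / (R : ℂ)) t⁻¹ := (hasDerivAt_id _).div_const _
    have h4 := hd.comp t⁻¹ h3
    exact (h4.const_mul c).add_const b
  rw [hdef, hd2.deriv, ← h.rel _ hu]
  field_simp

theorem mkExt_conv (h : CD L g0) (c b : ℂ) (hc : c ≠ 0) (R : ℝ) (hR : 1 < R) :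
    (mkExt h c b hc R hR).Conv := by
  have hR0 : 0 < R := by linarith
  have hRc : (R : ℂ) ≠ 0 := by exact_mod_cast hR0.ne'
  have hn : ∀ t : ℂ, ‖(R : ℂ) * t‖ = R * ‖t‖ := by
    intro t
    rw [norm_mul, Complex.norm_real, Real.norm_eq_abs, abs_of_pos hR0]
  constructor
  · intro t s ht hs hts heq
    rw [mkExt_G, mkExt_G] at heq
    have h1 : G0 g0 (R * t) = G0 g0 (R * s) := mul_left_cancel₀ hc (add_right_cancel heq)
    have h2 := support h (R * s) (R * t) (by rw [hn, ht]; linarith)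
      (by rw [hn, hn, ht]; nlinarith) (by
        intro h3; exact hts (mul_left_cancel₀ hRc h3))
    rw [h1, sub_self, mul_zero] at h2
    simp at h2
  · intro t ht
    rw [mkExt_dG h c b hc R hR t ht.ge]
    exact mul_ne_zero (mul_ne_zero hc hRc) (Complex.exp_ne_zero _)
  · intro t s ht hs hts
    rw [mkExt_dG h c b hc R hR t ht.ge, mkExt_G, mkExt_G]
    have h2 := support h (R * t) (R * s) (by rw [hn, hs]; linarith)
      (by rw [hn, hn, ht, hs]) (by
        intro h3; exact hts (mul_left_cancel₀ hRc h3).symm)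
    have h3 : t * (c * R * Complex.exp (L (R * t)⁻¹)) / (c * G0 g0 (R * t) + b - (c * G0 g0 (R * s) + b))
        = (R * t * Complex.exp (L (R * t)⁻¹)) / (G0 g0 (R * t) - G0 g0 (R * s)) := by
      have : c * G0 g0 (R * t) + b - (c * G0 g0 (R * s) + b) = c * (G0 g0 (R * t) - G0 g0 (R * s)) := by
        ring
      rw [this, show t * (c * R * Complex.exp (L (R * t)⁻¹)) = c * (R * t * Complex.exp (L (R * t)⁻¹)) by ring,
        mul_div_mul_left _ _ hc]
    rw [h3]
    set A : ℂ := R * t * Complex.exp (L (R * t)⁻¹) with hA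
    set D : ℂ := G0 g0 (R * t) - G0 g0 (R * s) with hD
    rw [Complex.div_re]
    have h4 : 0 < A.re * D.re + A.im * D.im := by
      have : ((starRingEnd ℂ) A * D).re = A.re * D.re + A.im * D.im := by
        rw [Complex.mul_re, Complex.conj_re, Complex.conj_im]; ring
      rw [← this]; exact h2
    rw [← add_div]
    exact div_nonneg h4.le (Complex.normSq_nonneg _)

theorem mkExt_encl (h : CD L g0) (hcont : ContinuousOn g0 (closedBall 0 1)) (c b : ℂ) (hc : c ≠ 0)
    (R : ℝ) (hR : 1 < R) (K : Set ℂ)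
    (hP : ∀ a ∈ K, ∀ ν : ℂ, ν ≠ 0 → ∃ s : ℂ, ‖s‖ = 1 ∧
      0 < ((starRingEnd ℂ) ν * (c * G0 g0 s + b - a)).re) :
    (mkExt h c b hc R hR).Encl K := by
  have hR0 : 0 < R := by linarith
  have hRc : (R : ℂ) ≠ 0 := by exact_mod_cast hR0.ne'
  have hn : ∀ t : ℂ, ‖(R : ℂ) * t‖ = R * ‖t‖ := by
    intro t
    rw [norm_mul, Complex.norm_real, Real.norm_eq_abs, abs_of_pos hR0]
  -- key inequality
  have key : ∀ t : ℂ, 1 ≤ ‖t‖ → ∀ a ∈ K,
      0 < ((starRingEnd ℂ) (c * (R * t * Complex.exp (L (R * t)⁻¹)))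
        * (c * G0 g0 (R * t) + b - a)).re := by
    intro t ht a ha
    have ht0 : t ≠ 0 := by
      intro h0; rw [h0, norm_zero] at ht; linarith
    set A : ℂ := R * t * Complex.exp (L (R * t)⁻¹) with hA
    have hA0 : A ≠ 0 := mul_ne_zero (mul_ne_zero hRc ht0) (Complex.exp_ne_zero _)
    obtain ⟨s, hs, hpos⟩ := hP a ha (c * A) (mul_ne_zero hc hA0)
    have hs0 : s ≠ 0 := by
      intro h0; rw [h0, norm_zero] at hs; linarith
    -- limit
    have hlim : 0 ≤ ((starRingEnd ℂ) A * (G0 g0 (R * t) - G0 g0 s)).re := by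
      -- function of r
      have hcontG : ContinuousWithinAt (fun r : ℝ => G0 g0 ((r : ℂ) * s)) (Ioi 1) 1 := by
        unfold G0
        apply ContinuousWithinAt.add
        · exact ((Complex.continuous_ofReal.mul continuous_const).continuousAt).continuousWithinAt
        · have h1 : ContinuousWithinAt g0 (closedBall 0 1) (((1 : ℝ) : ℂ) * s)⁻¹ := by
            apply hcont
            rw [mem_closedBall_zero_iff, norm_inv]
            simp [hs]
          have h2 : ContinuousWithinAt (fun r : ℝ => ((r : ℂ) * s)⁻¹) (Ioi 1) 1 := by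
            apply ContinuousAt.continuousWithinAt
            apply ContinuousAt.inv₀
            · exact (Complex.continuous_ofReal.mul continuous_const).continuousAt
            · simpa using hs0
          refine ContinuousWithinAt.comp (t := closedBall 0 1) h1 h2 ?_
          intro r hr
          have hr' : (1 : ℝ) < r := hr
          rw [mem_closedBall_zero_iff, norm_inv, norm_mul, Complex.norm_real, Real.norm_eq_abs,
            abs_of_pos (by linarith), hs, mul_one]
          exact inv_le_one_of_one_le₀ hr'.le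
      have hT : Filter.Tendsto (fun r : ℝ => ((starRingEnd ℂ) A * (G0 g0 (R * t) - G0 g0 ((r : ℂ) * s))).re)
          (nhdsWithin 1 (Ioi 1)) (nhds (((starRingEnd ℂ) A * (G0 g0 (R * t) - G0 g0 s)).re)) := by
        have h1 : Filter.Tendsto (fun r : ℝ => G0 g0 ((r : ℂ) * s)) (nhdsWithin 1 (Ioi 1))
            (nhds (G0 g0 s)) := by
          have := hcontG.tendsto
          simpa using this
        exact (Complex.continuous_re.tendsto _).comp
          ((tendsto_const_nhds.sub h1).const_mul ((starRingEnd ℂ) A))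
      apply ge_of_tendsto hT
      have hmem : Ioo (1 : ℝ) R ∈ nhdsWithin (1 : ℝ) (Ioi 1) := Ioo_mem_nhdsGT hR
      filter_upwards [hmem] with r hr
      have hnr : ‖(r : ℂ) * s‖ = r := by
        rw [norm_mul, Complex.norm_real, Real.norm_eq_abs, abs_of_pos (by linarith [hr.1]), hs, mul_one]
      have h5 := support h (R * t) (r * s) (by rw [hnr]; exact hr.1)
        (by rw [hnr, hn]; nlinarith [hr.2, hr.1]) (by
          intro h6
          have h7 : ‖(r : ℂ) * s‖ = ‖(R : ℂ) * t‖ := by rw [h6]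
          rw [hnr, hn] at h7
          nlinarith [hr.2, hr.1])
      exact h5.le
    have hsplit : ((starRingEnd ℂ) (c * A) * (c * G0 g0 (R * t) + b - a)).re
        = Complex.normSq c * ((starRingEnd ℂ) A * (G0 g0 (R * t) - G0 g0 s)).re
          + ((starRingEnd ℂ) (c * A) * (c * G0 g0 s + b - a)).re := by
      have e1 : (starRingEnd ℂ) (c * A) * (c * G0 g0 (R * t) + b - a)
          = ((Complex.normSq c : ℝ) : ℂ) * ((starRingEnd ℂ) A * (G0 g0 (R * t) - G0 g0 s))
            + (starRingEnd ℂ) (c * A) * (c * G0 g0 s + b - a) := by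
        rw [Complex.normSq_eq_conj_mul_self, map_mul]; ring
      rw [e1, Complex.add_re, Complex.re_ofReal_mul]
    rw [hsplit]
    have : 0 ≤ Complex.normSq c * ((starRingEnd ℂ) A * (G0 g0 (R * t) - G0 g0 s)).re :=
      mul_nonneg (Complex.normSq_nonneg _) hlim
    linarith
  constructor
  · intro t ht a ha heq
    have h1 := key t ht a ha
    rw [mkExt_G] at heq
    rw [heq, sub_self, mul_zero] at h1
    simp at h1
  · intro t ht a ha
    have h1 := key t ht.ge a ha
    rw [mkExt_dG h c b hc R hR t ht.ge, mkExt_G]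
    have e : ∀ X Y : ℂ, (X * (starRingEnd ℂ) Y).re = ((starRingEnd ℂ) X * Y).re := by
      intro X Y
      simp [Complex.mul_re]
    rw [e, show t * (c * R * Complex.exp (L (R * t)⁻¹)) = c * (R * t * Complex.exp (L (R * t)⁻¹)) by ring]
    exact h1.le

end Crest.Agent.R132
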