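import Crest.Agent.R132.SCDefs
import Crest.Agent.R132.SC1B

/-!
# Pieces SC1a, SC1b, SC1c : the support lemma for convex exterior maps

Write `n(t) = t exp (L t⁻¹)` (normal vector at `G0 t`).  On the circle `|t| = R > 1`, `t = R e^{iθ}`:
`d/dθ Re (ν̄ G0) = Re (ν̄ i n(t))`, `n(t) = R exp (i θ + L(e^{-iθ}/R))`, so `arg n = a(θ) := θ + Im L(e^{-iθ}/R)`,
`a'(θ) = Re (1 - u L'(u)) > 0`, `a(θ + 2π) = a(θ) + 2π`.
* `dir_inj` (SC1a): if `n(s) = r n(t)`, `r > 0`, `|s| = |t|`, then `a(θ_s) - a(θ_t) ∈ 2πℤ`; choose `θ_s ∈ [θ_t, θ_t + 2π)`; `a` strictly monotone, so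
  `0 ≤ a(θ_s) - a(θ_t) < 2π`, so `θ_s = θ_t`.
* `max_dir` (SC1b): at a maximum over the circle of `Re (ν̄ G0)` the first derivative vanishes: `Re (i ν̄ n(s)) = 0`, so `ν̄ n(s)` is real (`≠ 0`);
  the second derivative is `≤ 0`: it equals `- Re (ν̄ n(s) (1 - u L'(u)))`, so `ν̄ n(s) ≥ 0`.
* `max_mono` (SC1c): let `M(R) = max_{|s|=R} Re (ν̄ G0 s)`, continuous on `(1,∞)`.  If `M(R2) ≤ Re ν̄ G0(s1) ≤ M(R1)`, `R1 < R2`, let `R*` be the smallest/any point of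
  `[R1, R2)` where `M` attains its maximum over `[R1, R2]`, `s*` a maximiser on `|s| = R*`; by `max_dir` the radial derivative of `Re ν̄ G0` at
  `s*` is `Re (ν̄ n(s*))/R* > 0`, so `M(R* + ε) > M(R*)`, contradiction.
* `support` : let `ν = n(t)`, `R = |t|`. A maximiser `s*` on `|s| = R` has `n(s*) = r n(t)`, `r > 0`, so `s* = t` (`dir_inj`): `Re ν̄ G0 s < Re ν̄ G0 t` for
  `|s| = R, s ≠ t`; for `|s| < R` use `max_mono`.
-/

set_option autoImplicit false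
open Metric Set

namespace Crest.Agent.R132

variable {L g0 : ℂ → ℂ}

theorem cd_hasDerivAt (h : CD L g0) (t : ℂ) (ht : 1 < ‖t‖) :
    HasDerivAt (G0 g0) (Complex.exp (L t⁻¹)) t := by
  have ht0 : t ≠ 0 := by rintro rfl; simp at ht; linarith
  have hu : t⁻¹ ∈ ball (0 : ℂ) 1 := by
    rw [mem_ball_zero_iff, norm_inv]; exact inv_lt_one_of_one_lt₀ ht
  have hg : HasDerivAt g0 (deriv g0 t⁻¹) t⁻¹ :=
    (h.hg.differentiableAt (isOpen_ball.mem_nhds hu)).hasDerivAt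
  have h1 : HasDerivAt (fun t => g0 t⁻¹) (deriv g0 t⁻¹ * (-(t ^ 2)⁻¹)) t :=
    HasDerivAt.comp t hg (hasDerivAt_inv ht0)
  have h2 : HasDerivAt (G0 g0) (1 + deriv g0 t⁻¹ * (-(t ^ 2)⁻¹)) t := (hasDerivAt_id t).add h1
  convert h2 using 1
  rw [← h.rel _ hu, inv_pow]
  ring

theorem dir_inj (h : CD L g0) (t s : ℂ) (ht : 1 < ‖t‖) (hst : ‖s‖ = ‖t‖) (r : ℝ) (hr : 0 < r)
    (hdir : s * Complex.exp (L s⁻¹) = (r : ℂ) * (t * Complex.exp (L t⁻¹))) : s = t := by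
  have ht0 : t ≠ 0 := by rintro rfl; simp at ht; linarith
  have hnt : ‖t‖ ≠ 0 := norm_ne_zero_iff.2 ht0
  set φ : ℝ := Complex.arg (s / t) with hφ
  have hsφ : s = t * Complex.exp (φ * Complex.I) := by
    have h1 := Complex.norm_mul_exp_arg_mul_I (s / t)
    rw [norm_div, hst, div_self hnt, Complex.ofReal_one, one_mul] at h1
    rw [hφ, h1, mul_div_cancel₀ _ ht0]
  -- the angle function
  set c : ℂ → ℂ := fun z => t⁻¹ * Complex.exp (-z * Complex.I) with hc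
  have hcn : ∀ θ : ℝ, c θ ∈ ball (0 : ℂ) 1 := by
    intro θ
    rw [mem_ball_zero_iff, hc]
    simp only
    rw [norm_mul, norm_inv, ← Complex.ofReal_neg, Complex.norm_exp_ofReal_mul_I, mul_one]
    exact inv_lt_one_of_one_lt₀ ht
  set a : ℝ → ℝ := fun θ => θ + (L (c θ)).im with ha
  have hda : ∀ θ : ℝ, HasDerivAt a ((1 - c θ * deriv L (c θ)).re) θ := by
    intro θ
    have h1 : HasDerivAt c (t⁻¹ * (Complex.exp (-(θ : ℂ) * Complex.I) * (-1 * Complex.I))) (θ : ℂ) :=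
      (((hasDerivAt_id (θ : ℂ)).neg.mul_const Complex.I).cexp).const_mul _
    have hL : HasDerivAt L (deriv L (c θ)) (c θ) :=
      (h.hL.differentiableAt (isOpen_ball.mem_nhds (hcn θ))).hasDerivAt
    have h2 := (HasDerivAt.comp (θ : ℂ) hL h1).comp_ofReal
    have h3 := Complex.imCLM.hasFDerivAt.comp_hasDerivAt θ h2
    have h4 : HasDerivAt a (1 + Complex.imCLM (deriv L (c θ) *
        (t⁻¹ * (Complex.exp (-(θ : ℂ) * Complex.I) * (-1 * Complex.I))))) θ :=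
      (hasDerivAt_id θ).add h3
    convert h4 using 1
    have e1 : deriv L (c θ) * (t⁻¹ * (Complex.exp (-(θ : ℂ) * Complex.I) * (-1 * Complex.I))) =
        -(c θ * deriv L (c θ)) * Complex.I := by
      rw [hc]; ring
    rw [e1, Complex.imCLM_apply, Complex.mul_I_im, Complex.sub_re, Complex.one_re, Complex.neg_re]
    ring
  have hmono : StrictMono a := by
    refine strictMono_of_deriv_pos fun θ => ?_
    rw [(hda θ).deriv]
    exact h.pos _ (hcn θ)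
  have hper : ∀ n : ℤ, a (2 * Real.pi * n) = 2 * Real.pi * n + a 0 := by
    intro n
    have : c ((2 * Real.pi * n : ℝ) : ℂ) = c ((0 : ℝ) : ℂ) := by
      rw [hc]
      simp only [Complex.ofReal_zero, neg_zero, zero_mul, Complex.exp_zero]
      congr 1
      rw [Complex.exp_eq_one_iff]
      exact ⟨-n, by push_cast; ring⟩
    simp only [ha, this]
    ring
  have hs1 : s⁻¹ = c φ := by
    rw [hsφ, hc, mul_inv, ← Complex.exp_neg]
    congr 2
    ring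
  have ht1 : t⁻¹ = c ((0 : ℝ) : ℂ) := by
    rw [hc]; simp
  have hkey : Complex.exp (φ * Complex.I + L (c φ)) =
      Complex.exp ((Real.log r : ℂ) + L (c ((0 : ℝ) : ℂ))) := by
    rw [Complex.exp_add, Complex.exp_add, ← hs1, ← ht1, ← Complex.ofReal_exp, Real.exp_log hr]
    have h5 : t * (Complex.exp (φ * Complex.I) * Complex.exp (L s⁻¹)) =
        t * ((r : ℂ) * Complex.exp (L t⁻¹)) := by
      rw [← mul_assoc, ← hsφ, hdir]; ring
    exact mul_left_cancel₀ ht0 h5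
  rw [Complex.exp_eq_exp_iff_exists_int] at hkey
  obtain ⟨n, hn⟩ := hkey
  have hn2 := congrArg Complex.im hn
  have hn3 : a φ = a (2 * Real.pi * n) := by
    rw [hper]
    simp only [Complex.add_im, Complex.mul_im, Complex.ofReal_re, Complex.I_im, mul_one,
      Complex.ofReal_im, Complex.I_re, mul_zero, add_zero, zero_add] at hn2
    simp only [ha]
    have h6 : ((n : ℂ) * (2 * (Real.pi : ℂ) * Complex.I)).im = 2 * Real.pi * n := by
      have : (n : ℂ) * (2 * (Real.pi : ℂ) * Complex.I) = ((2 * Real.pi * n : ℝ) : ℂ) * Complex.I := by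
        push_cast; ring
      rw [this, Complex.mul_I_im, Complex.ofReal_re]
    have h7 := congrArg Complex.im hn
    rw [Complex.add_im, Complex.add_im, Complex.add_im, h6, Complex.mul_I_im, Complex.ofReal_re,
      Complex.ofReal_im] at h7
    linarith
  have hφn := hmono.injective hn3
  rw [hsφ, hφn]
  have : Complex.exp (((2 * Real.pi * n : ℝ) : ℂ) * Complex.I) = 1 := by
    rw [Complex.exp_eq_one_iff]
    exact ⟨n, by push_cast; ring⟩
  rw [this, mul_one]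

theorem max_dir (h : CD L g0) (R : ℝ) (hR : 1 < R) (ν : ℂ) (hν : ν ≠ 0) (s : ℂ) (hs : ‖s‖ = R)
    (hmax : ∀ s' : ℂ, ‖s'‖ = R →
      ((starRingEnd ℂ) ν * G0 g0 s').re ≤ ((starRingEnd ℂ) ν * G0 g0 s).re) :
    ∃ r : ℝ, 0 < r ∧ s * Complex.exp (L s⁻¹) = (r : ℂ) * ν :=
  SC1B.max_dir h R hR ν hν s hs hmax

namespace SC1C

theorem cont_f (h : CD L g0) (ν : ℂ) :
    ContinuousOn (fun s => ((starRingEnd ℂ) ν * G0 g0 s).re) {s | 1 < ‖s‖} := by
  intro s hs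
  have h1 : ContinuousAt (G0 g0) s := (cd_hasDerivAt h s hs).continuousAt
  have h2 : ContinuousAt (fun s => ((starRingEnd ℂ) ν * G0 g0 s).re) s :=
    Complex.continuous_re.continuousAt.comp (continuousAt_const.mul h1)
  exact h2.continuousWithinAt

/-- at a maximum on its circle the function increases radially -/
theorem radial (h : CD L g0) (ν : ℂ) (hν : ν ≠ 0) (s : ℂ) (hs : 1 < ‖s‖)
    (hmax : ∀ s' : ℂ, ‖s'‖ = ‖s‖ →
      ((starRingEnd ℂ) ν * G0 g0 s').re ≤ ((starRingEnd ℂ) ν * G0 g0 s).re)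
    (δ : ℝ) (hδ : 0 < δ) :
    ∃ x : ℝ, 0 < x ∧ x < δ ∧
      ((starRingEnd ℂ) ν * G0 g0 s).re < ((starRingEnd ℂ) ν * G0 g0 ((1 + x : ℝ) * s)).re := by
  obtain ⟨r, hr, hr2⟩ := max_dir h ‖s‖ hs ν hν s rfl hmax
  have hd : HasDerivAt (fun x : ℝ => ((1 + x : ℝ) : ℂ) * s) s 0 := by
    have h1 : HasDerivAt (fun x : ℝ => (1 + x : ℝ)) 1 0 := by
      simpa using (hasDerivAt_id (0 : ℝ)).const_add 1
    have h2 := h1.ofReal_comp.mul_const s
    simpa using h2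
  have hG : HasDerivAt (G0 g0) (Complex.exp (L s⁻¹)) (((1 + (0 : ℝ) : ℝ) : ℂ) * s) := by
    have := cd_hasDerivAt h s hs
    simpa using this
  have hc : HasDerivAt (fun x : ℝ => G0 g0 (((1 + x : ℝ) : ℂ) * s)) (Complex.exp (L s⁻¹) * s) 0 :=
    HasDerivAt.comp (h₂ := G0 g0) (0 : ℝ) hG hd
  have hm : HasDerivAt (fun x : ℝ => (starRingEnd ℂ) ν * G0 g0 (((1 + x : ℝ) : ℂ) * s))
      ((starRingEnd ℂ) ν * (Complex.exp (L s⁻¹) * s)) 0 := hc.const_mul _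
  have hre : HasDerivAt (fun x : ℝ => ((starRingEnd ℂ) ν * G0 g0 (((1 + x : ℝ) : ℂ) * s)).re)
      ((starRingEnd ℂ) ν * (Complex.exp (L s⁻¹) * s)).re 0 := by
    exact (Complex.reCLM.hasFDerivAt.comp_hasDerivAt (0 : ℝ) hm)
  have hval : ((starRingEnd ℂ) ν * (Complex.exp (L s⁻¹) * s)).re = r * ‖ν‖ ^ 2 := by
    rw [mul_comm (Complex.exp _) s, hr2]
    have : (starRingEnd ℂ) ν * ((r : ℂ) * ν) = ((r * ‖ν‖ ^ 2 : ℝ) : ℂ) := by
      rw [← mul_assoc, mul_comm ((starRingEnd ℂ) ν) (r : ℂ), mul_assoc, Complex.conj_mul']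
      push_cast
      ring
    rw [this, Complex.ofReal_re]
  rw [hval] at hre
  have hpos : 0 < r * ‖ν‖ ^ 2 := by positivity
  have hslope := hre.tendsto_slope_zero_right
  have hev : ∀ᶠ x in nhdsWithin (0 : ℝ) (Ioi 0), 0 < x⁻¹ •
      (((starRingEnd ℂ) ν * G0 g0 (((1 + (0 + x) : ℝ) : ℂ) * s)).re -
        ((starRingEnd ℂ) ν * G0 g0 (((1 + 0 : ℝ) : ℂ) * s)).re) :=
    hslope.eventually (lt_mem_nhds hpos)
  have hev2 : ∀ᶠ x in nhdsWithin (0 : ℝ) (Ioi 0), x < δ :=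
    mem_nhdsWithin_of_mem_nhds (Iio_mem_nhds hδ)
  have hev3 : ∀ᶠ x in nhdsWithin (0 : ℝ) (Ioi 0), 0 < x := self_mem_nhdsWithin
  obtain ⟨x, hx1, hx2, hx3⟩ := (hev.and (hev2.and hev3)).exists
  refine ⟨x, hx3, hx2, ?_⟩
  rw [smul_eq_mul] at hx1
  have hx4 := (mul_pos_iff_of_pos_left (inv_pos.mpr hx3)).mp hx1
  simp only [zero_add, add_zero, Complex.ofReal_one, one_mul] at hx4
  linarith

end SC1C

open SC1C in
theorem max_mono (h : CD L g0) (R1 R2 : ℝ) (h1 : 1 < R1) (h12 : R1 < R2) (ν : ℂ) (hν : ν ≠ 0)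
    (s1 : ℂ) (hs1 : ‖s1‖ = R1) :
    ∃ s2 : ℂ, ‖s2‖ = R2 ∧ ((starRingEnd ℂ) ν * G0 g0 s1).re < ((starRingEnd ℂ) ν * G0 g0 s2).re := by
  set f : ℂ → ℝ := fun s => ((starRingEnd ℂ) ν * G0 g0 s).re with hf
  set K : Set ℂ := closedBall 0 R2 ∩ {s | R1 ≤ ‖s‖} with hK
  have hKc : IsCompact K := (isCompact_closedBall 0 R2).inter_right
    (isClosed_le continuous_const continuous_norm)
  have hs1K : s1 ∈ K := by
    refine ⟨?_, ?_⟩
    · rw [mem_closedBall_zero_iff, hs1]; exact h12.le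
    · show R1 ≤ ‖s1‖
      rw [hs1]
  have hfc : ContinuousOn f K := (cont_f h ν).mono fun s hs => lt_of_lt_of_le h1 hs.2
  -- every maximiser over `K` has norm `R2`
  have key : ∀ s ∈ K, (∀ s' ∈ K, f s' ≤ f s) → ‖s‖ = R2 := by
    intro s hs hmax
    have hs2 : ‖s‖ ≤ R2 := mem_closedBall_zero_iff.mp hs.1
    by_contra hne
    have hlt : ‖s‖ < R2 := lt_of_le_of_ne hs2 hne
    have hs0 : 0 < ‖s‖ := by linarith [hs.2.out]
    have hs1' : 1 < ‖s‖ := lt_of_lt_of_le h1 hs.2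
    obtain ⟨x, hx1, hx2, hx3⟩ := radial h ν hν s hs1' (fun s' hs' => hmax s' ⟨by
      rw [mem_closedBall_zero_iff, hs']; exact hs2, by
      show R1 ≤ ‖s'‖
      rw [hs']; exact hs.2⟩) (R2 / ‖s‖ - 1) (by
        rw [sub_pos, lt_div_iff₀ hs0]; linarith)
    have hnorm : ‖((1 + x : ℝ) : ℂ) * s‖ = (1 + x) * ‖s‖ := by
      rw [norm_mul, Complex.norm_real, Real.norm_eq_abs, abs_of_pos (by linarith)]
    have hin : ((1 + x : ℝ) : ℂ) * s ∈ K := by
      refine ⟨?_, ?_⟩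
      · rw [mem_closedBall_zero_iff, hnorm]
        have : 1 + x < R2 / ‖s‖ := by linarith
        exact ((lt_div_iff₀ hs0).mp this).le
      · show R1 ≤ ‖((1 + x : ℝ) : ℂ) * s‖
        rw [hnorm]
        have := hs.2.out
        nlinarith
    have := hmax _ hin
    linarith
  obtain ⟨s2, hs2, hmax⟩ := hKc.exists_isMaxOn ⟨s1, hs1K⟩ hfc
  refine ⟨s2, key s2 hs2 fun s' hs' => hmax hs', ?_⟩
  show f s1 < f s2
  refine lt_of_le_of_ne (hmax hs1K) fun heq => ?_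
  have := key s1 hs1K fun s' hs' => (hmax hs').trans heq.ge
  rw [hs1] at this
  linarith

theorem support (h : CD L g0) (t s : ℂ) (hs : 1 < ‖s‖) (hst : ‖s‖ ≤ ‖t‖) (hne : s ≠ t) :
    0 < ((starRingEnd ℂ) (t * Complex.exp (L t⁻¹)) * (G0 g0 t - G0 g0 s)).re := by
  set ν : ℂ := t * Complex.exp (L t⁻¹) with hνdef
  have ht : 1 < ‖t‖ := lt_of_lt_of_le hs hst
  have ht0 : t ≠ 0 := by
    rintro rfl
    rw [norm_zero] at ht
    linarith
  have hν : ν ≠ 0 := mul_ne_zero ht0 (Complex.exp_ne_zero _)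
  have hcirc : ∀ s' : ℂ, (∀ s'' : ℂ, ‖s''‖ = ‖t‖ →
      ((starRingEnd ℂ) ν * G0 g0 s'').re ≤ ((starRingEnd ℂ) ν * G0 g0 s').re) →
      ‖s'‖ = ‖t‖ → s' = t := by
    intro s' hmax hs'
    obtain ⟨r, hr, hr2⟩ := max_dir h ‖t‖ ht ν hν s' hs' hmax
    exact dir_inj h t s' ht hs' r hr hr2
  obtain ⟨s', hs', hmax⟩ := (isCompact_sphere (0 : ℂ) ‖t‖).exists_isMaxOn
    ⟨t, by simp⟩ ((SC1C.cont_f h ν).mono (fun s hs => by
      show 1 < ‖s‖
      rw [mem_sphere_zero_iff_norm.mp hs]; exact ht))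
  have hs't : s' = t := hcirc s' (fun s'' hs'' => hmax (mem_sphere_zero_iff_norm.mpr hs''))
    (mem_sphere_zero_iff_norm.mp hs')
  subst hs't
  have hle : ∀ s'' : ℂ, ‖s''‖ = ‖s'‖ →
      ((starRingEnd ℂ) ν * G0 g0 s'').re ≤ ((starRingEnd ℂ) ν * G0 g0 s').re :=
    fun s'' hs'' => hmax (mem_sphere_zero_iff_norm.mpr hs'')
  have hlt : ((starRingEnd ℂ) ν * G0 g0 s).re < ((starRingEnd ℂ) ν * G0 g0 s').re := by
    rcases hst.lt_or_eq with hlt | heq
    · obtain ⟨s2, hs2, hs3⟩ := max_mono h ‖s‖ ‖s'‖ hs hlt ν hν s rfl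
      exact hs3.trans_le (hle s2 hs2)
    · refine lt_of_le_of_ne (hle s heq) fun he => hne ?_
      refine hcirc s (fun s'' hs'' => ?_) heq
      rw [he]
      exact hle s'' hs''
  rw [mul_sub, Complex.sub_re]
  linarith

end Crest.Agent.R132
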