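import Crest.Agent.R132.Res

/-!
# Piece STAR1 : the functional calculus `star`, additivity and polynomials

`star e A g q` has entries `av (fun t => (RA e A t * g * q (e.G t)) i j)`, i.e. a finite sum of
averages of continuous functions (entries of `RA` are exterior analytic, `q ∘ G` is continuous on the circle).

`star_poly`: `p(z) (z - A)⁻¹ = p(A) (z - A)⁻¹ + r(z)` with `r(z) = ∑ ...` polynomial in `z` with matrix coefficients
(`p(z) - p(A)` is divisible by `z - A`; it suffices to treat `p = X^k` by induction:
`z^{k+1}(z-A)⁻¹ = z^k + z^k A (z-A)⁻¹`), the mean of `t dG t * z^k` is `0` by `curve_zero` (`V = univ`) and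
the mean of `RA` is `1` (`res_extAn`, `ExtAn.av_eq`).
`star_charpoly`: `χ(z) (z - A)⁻¹ = adjugate (z - A)` (polynomial entries; `χ(z) = det (z - A)`), then `curve_zero` on `V`.
-/

set_option autoImplicit false
open Metric Set Matrix

namespace Crest.Agent.R132

variable {n a b c : Type} [Fintype n] [DecidableEq n] [Fintype a] [DecidableEq a]
  [Fintype b] [DecidableEq b] [Fintype c] [DecidableEq c]
  {e : Ext} {A : Matrix n n ℂ} {V : Set ℂ}

theorem HolOn.continuousOn_G (hs : Sit e A V) {q : ℂ → Matrix a b ℂ} (hq : HolOn V q) (i : a) (j : b) :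
    ContinuousOn (fun t => q (e.G t) i j) (sphere 0 1) := by
  refine ((hq i j).continuousOn).comp e.continuousOn_G ?_
  intro t ht
  exact hs.curve t (by simpa using ht)

theorem RA_continuousOn (hs : Sit e A V) (i j : n) :
    ContinuousOn (fun t => RA e A t i j) (sphere 0 1) :=
  (res_extAn hs i j).continuousOn

theorem HolOn.add {q1 q2 : ℂ → Matrix a b ℂ} (h1 : HolOn V q1) (h2 : HolOn V q2) :
    HolOn V (fun z => q1 z + q2 z) :=
  fun i j => (h1 i j).add (h2 i j)

theorem HolOn.mul {q1 : ℂ → Matrix a b ℂ} {q2 : ℂ → Matrix b c ℂ} (h1 : HolOn V q1)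
    (h2 : HolOn V q2) : HolOn V (fun z => q1 z * q2 z) := by
  intro i j
  simp only [Matrix.mul_apply]
  exact DifferentiableOn.fun_sum fun k _ => (h1 i k).mul (h2 k j)

theorem HolOn.const (Q : Matrix a b ℂ) : HolOn V (fun _ => Q) :=
  fun _ _ => differentiableOn_const _

theorem HolOn.poly_smul (p : Polynomial ℂ) (Q : Matrix a b ℂ) :
    HolOn V (fun z => p.eval z • Q) := by
  intro i j
  simp only [Matrix.smul_apply, smul_eq_mul]
  exact (p.differentiable.differentiableOn).mul_const _

namespace Star1aux

theorem RAg_cont (hs : Sit e A V) (g : Matrix n a ℂ) (i : n) (l : a) :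
    ContinuousOn (fun t => (RA e A t * g) i l) (sphere 0 1) := by
  simp only [Matrix.mul_apply]
  exact continuousOn_finsetSum _ fun k _ => (RA_continuousOn hs i k).mul continuousOn_const

theorem entry_cont (hs : Sit e A V) (g : Matrix n a ℂ) {q : ℂ → Matrix a b ℂ} (hq : HolOn V q)
    (i : n) (j : b) :
    ContinuousOn (fun t => (RA e A t * g * q (e.G t)) i j) (sphere 0 1) := by
  have h : ∀ t, (RA e A t * g * q (e.G t)) i j
      = ∑ l, (RA e A t * g) i l * q (e.G t) l j := fun t => Matrix.mul_apply
  simp only [h]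
  exact continuousOn_finsetSum _ fun l _ => (RAg_cont hs g i l).mul (hq.continuousOn_G hs l j)

theorem starE_apply (g : Matrix n a ℂ) (q : ℂ → Matrix a b ℂ) (i : n) (j : b) :
    star e A g q i j = av (fun t => (RA e A t * g * q (e.G t)) i j) := rfl

/-- moments of the resolvent -/
theorem av_pow (hs : Sit e A V) (k : ℕ) (i j : n) :
    av (fun t => e.G t ^ k * RA e A t i j) = (A ^ k) i j := by
  induction k generalizing j with
  | zero =>
    simp only [pow_zero, one_mul]
    exact (res_extAn hs i j).av_eq
  | succ k ih =>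
    have hG : ContinuousOn (fun t => e.G t) (sphere 0 1) := e.continuousOn_G
    have hid : ∀ t : ℂ, ‖t‖ = 1 → e.G t ^ (k + 1) * RA e A t i j
        = (1 : Matrix n n ℂ) i j * (t * e.dG t * e.G t ^ k)
          + ∑ l, A l j * (e.G t ^ k * RA e A t i l) := by
      intro t ht
      have hu := res_isUnit hs t ht.ge
      have h1 : RA e A t * (e.G t • (1 : Matrix n n ℂ) - A) = (t * e.dG t) • (1 : Matrix n n ℂ) := by
        rw [RA, smul_mul_assoc, Matrix.nonsing_inv_mul _ ((Matrix.isUnit_iff_isUnit_det _).1 hu)]
      have h2 : e.G t • RA e A t = (t * e.dG t) • (1 : Matrix n n ℂ) + RA e A t * A := by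
        rw [← h1, mul_sub, mul_smul_comm, mul_one, sub_add_cancel]
      have h3 : e.G t * RA e A t i j = (t * e.dG t) * (1 : Matrix n n ℂ) i j
          + ∑ l, RA e A t i l * A l j := by
        have := congrFun (congrFun h2 i) j
        simpa [Matrix.mul_apply] using this
      rw [pow_succ, mul_assoc, h3, mul_add, Finset.mul_sum]
      congr 1
      · ring
      · exact Finset.sum_congr rfl fun l _ => by ring
    rw [av_congr hid]
    have hc1 : ContinuousOn (fun t => (1 : Matrix n n ℂ) i j * (t * e.dG t * e.G t ^ k))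
        (sphere 0 1) :=
      continuousOn_const.mul ((continuousOn_id.mul e.continuousOn_dG).mul (hG.pow k))
    have hc2 : ∀ l, ContinuousOn (fun t => A l j * (e.G t ^ k * RA e A t i l)) (sphere 0 1) :=
      fun l => continuousOn_const.mul ((hG.pow k).mul (RA_continuousOn hs i l))
    rw [av_add hc1 (continuousOn_finsetSum _ fun l _ => hc2 l), av_const_mul,
      av_sum _ _ fun l _ => hc2 l]
    have hz : av (fun t => t * e.dG t * e.G t ^ k) = 0 :=
      curve_zero e univ isOpen_univ convex_univ (fun _ _ => mem_univ _) (fun z => z ^ k)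
        (differentiable_pow k).differentiableOn
    rw [hz, mul_zero, zero_add, pow_succ, Matrix.mul_apply]
    refine Finset.sum_congr rfl fun l _ => ?_
    have h4 : av (fun t => A l j * (e.G t ^ k * RA e A t i l)) = A l j * (A ^ k) i l := by
      rw [av_const_mul, ih l]
    rw [h4, mul_comm]

theorem av_poly (hs : Sit e A V) (p : Polynomial ℂ) (i j : n) :
    av (fun t => p.eval (e.G t) * RA e A t i j) = (Polynomial.aeval A p) i j := by
  have hG : ContinuousOn (fun t => e.G t) (sphere 0 1) := e.continuousOn_G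
  have hc : ∀ p : Polynomial ℂ, ContinuousOn (fun t => p.eval (e.G t) * RA e A t i j)
      (sphere 0 1) := fun p =>
    (p.continuous.comp_continuousOn hG).mul (RA_continuousOn hs i j)
  induction p using Polynomial.induction_on' with
  | add p q hp hq =>
    have h : ∀ t : ℂ, (p + q).eval (e.G t) * RA e A t i j
        = p.eval (e.G t) * RA e A t i j + q.eval (e.G t) * RA e A t i j := fun t => by
      rw [Polynomial.eval_add, add_mul]
    simp only [h]
    rw [av_add (hc p) (hc q), hp, hq, map_add, Matrix.add_apply]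
  | monomial k z =>
    have h : ∀ t : ℂ, (Polynomial.monomial k z).eval (e.G t) * RA e A t i j
        = z * (e.G t ^ k * RA e A t i j) := fun t => by
      rw [Polynomial.eval_monomial, mul_assoc]
    simp only [h]
    rw [av_const_mul, av_pow hs, Polynomial.aeval_monomial, ← Algebra.smul_def,
      Matrix.smul_apply, smul_eq_mul]

theorem polyRA_cont (hs : Sit e A V) (z : ℂ) (p : Polynomial ℂ) (i j : n) :
    ContinuousOn (fun t => z * (p.eval (e.G t) * RA e A t i j)) (sphere 0 1) :=
  continuousOn_const.mul
    ((p.continuous.comp_continuousOn e.continuousOn_G).mul (RA_continuousOn hs i j))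

theorem polyRAg_cont (hs : Sit e A V) (z : ℂ) (g : Matrix n a ℂ) (p : Polynomial ℂ) (i : n)
    (l : a) :
    ContinuousOn (fun t => z * ((RA e A t * g) i l * p.eval (e.G t))) (sphere 0 1) :=
  continuousOn_const.mul
    ((RAg_cont hs g i l).mul (p.continuous.comp_continuousOn e.continuousOn_G))

theorem det_differentiableOn {W : Set ℂ} {M : ℂ → Matrix n n ℂ} (h : HolOn W M) :
    DifferentiableOn ℂ (fun z => (M z).det) W := by
  simp only [Matrix.det_apply]
  refine DifferentiableOn.fun_sum fun σ _ => ?_
  refine DifferentiableOn.const_smul ?_ _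
  exact DifferentiableOn.fun_finsetProd fun k _ => h _ _

theorem adjugate_holOn {W : Set ℂ} {M : ℂ → Matrix n n ℂ} (h : HolOn W M) :
    HolOn W (fun z => (M z).adjugate) := by
  intro i j
  simp only [Matrix.adjugate_apply]
  refine det_differentiableOn (M := fun z => (M z).updateRow j (Pi.single i 1)) ?_
  intro k l
  by_cases hk : k = j
  · subst hk
    simp only [Matrix.updateRow_self]
    exact differentiableOn_const _
  · simp only [Matrix.updateRow_ne hk]
    exact h k l

end Star1aux

open Star1aux

theorem star_add (hs : Sit e A V) (g : Matrix n a ℂ) {q1 q2 : ℂ → Matrix a b ℂ} (h1 : HolOn V q1)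
    (h2 : HolOn V q2) :
    star e A g (fun z => q1 z + q2 z) = star e A g q1 + star e A g q2 := by
  ext i j
  rw [Matrix.add_apply, starE_apply, starE_apply, starE_apply,
    ← av_add (entry_cont hs g h1 i j) (entry_cont hs g h2 i j)]
  congr 1
  ext t
  rw [Matrix.mul_add, Matrix.add_apply]

theorem star_add_left (hs : Sit e A V) (g1 g2 : Matrix n a ℂ) {q : ℂ → Matrix a b ℂ}
    (h : HolOn V q) :
    star e A (g1 + g2) q = star e A g1 q + star e A g2 q := by
  ext i j
  rw [Matrix.add_apply, starE_apply, starE_apply, starE_apply,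
    ← av_add (entry_cont hs g1 h i j) (entry_cont hs g2 h i j)]
  congr 1
  ext t
  rw [Matrix.mul_add, Matrix.add_mul, Matrix.add_apply]

theorem star_sub_left (hs : Sit e A V) (g1 g2 : Matrix n a ℂ) {q : ℂ → Matrix a b ℂ}
    (h : HolOn V q) :
    star e A (g1 - g2) q = star e A g1 q - star e A g2 q := by
  ext i j
  rw [Matrix.sub_apply, starE_apply, starE_apply, starE_apply,
    ← av_sub (entry_cont hs g1 h i j) (entry_cont hs g2 h i j)]
  congr 1
  ext t
  rw [Matrix.mul_sub, Matrix.sub_mul, Matrix.sub_apply]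

theorem star_zero_left (q : ℂ → Matrix a b ℂ) : star e A (0 : Matrix n a ℂ) q = 0 := by
  ext i j
  rw [starE_apply]
  simp only [Matrix.mul_zero, Matrix.zero_mul, Matrix.zero_apply]
  have := av_const_mul 0 (fun _ : ℂ => (0 : ℂ))
  simpa using this

theorem star_congr (hs : Sit e A V) (g : Matrix n a ℂ) {q1 q2 : ℂ → Matrix a b ℂ}
    (h : ∀ z ∈ V, q1 z = q2 z) : star e A g q1 = star e A g q2 := by
  ext i j
  rw [starE_apply, starE_apply]
  refine av_congr fun t ht => ?_
  rw [h _ (hs.curve t ht)]

theorem star_mul_const (hs : Sit e A V) (g : Matrix n a ℂ) {q : ℂ → Matrix a b ℂ} (h : HolOn V q)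
    (Q : Matrix b c ℂ) : star e A g (fun z => q z * Q) = star e A g q * Q := by
  ext i j
  rw [starE_apply, Matrix.mul_apply]
  have h1 : ∀ t : ℂ, (RA e A t * g * (q (e.G t) * Q)) i j
      = ∑ k, Q k j * (RA e A t * g * q (e.G t)) i k := by
    intro t
    rw [← Matrix.mul_assoc, Matrix.mul_apply]
    exact Finset.sum_congr rfl fun k _ => mul_comm _ _
  simp only [h1]
  have hc : ∀ k, ContinuousOn (fun t => Q k j * (RA e A t * g * q (e.G t)) i k) (sphere 0 1) :=
    fun k => continuousOn_const.mul (entry_cont hs g h i k)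
  rw [av_sum _ _ fun k _ => hc k]
  refine Finset.sum_congr rfl fun k _ => ?_
  have h2 := av_const_mul (Q k j) (fun t => (RA e A t * g * q (e.G t)) i k)
  rw [starE_apply, mul_comm (av _)]
  exact h2

theorem star_poly (hs : Sit e A V) (g : Matrix n a ℂ) (p : Polynomial ℂ) (Q : Matrix a b ℂ) :
    star e A g (fun z => p.eval z • Q) = Polynomial.aeval A p * g * Q := by
  have key : ∀ i l, av (fun t => (RA e A t * g) i l * p.eval (e.G t))
      = (Polynomial.aeval A p * g) i l := by
    intro i l
    have h1 : ∀ t : ℂ, (RA e A t * g) i l * p.eval (e.G t)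
        = ∑ k, g k l * (p.eval (e.G t) * RA e A t i k) := by
      intro t
      rw [Matrix.mul_apply, Finset.sum_mul]
      exact Finset.sum_congr rfl fun k _ => by ring
    simp only [h1]
    rw [av_sum _ _ fun k _ => polyRA_cont hs _ p i k, Matrix.mul_apply]
    refine Finset.sum_congr rfl fun k _ => ?_
    have h2 := av_const_mul (g k l) (fun t => p.eval (e.G t) * RA e A t i k)
    rw [av_poly hs] at h2
    rw [mul_comm]
    exact h2
  ext i j
  rw [starE_apply, Matrix.mul_apply]
  have h1 : ∀ t : ℂ, (RA e A t * g * (p.eval (e.G t) • Q)) i j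
      = ∑ l, Q l j * ((RA e A t * g) i l * p.eval (e.G t)) := by
    intro t
    rw [Matrix.mul_apply]
    refine Finset.sum_congr rfl fun l _ => ?_
    rw [Matrix.smul_apply, smul_eq_mul]
    ring
  simp only [h1]
  rw [av_sum _ _ fun l _ => polyRAg_cont hs _ g p i l]
  refine Finset.sum_congr rfl fun l _ => ?_
  have h2 := av_const_mul (Q l j) (fun t => (RA e A t * g) i l * p.eval (e.G t))
  rw [key] at h2
  rw [mul_comm]
  exact h2

theorem star_const (hs : Sit e A V) (g : Matrix n a ℂ) (Q : Matrix a b ℂ) :
    star e A g (fun _ => Q) = g * Q := by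
  have h := star_poly hs g 1 Q
  simpa using h

theorem star_charpoly (hs : Sit e A V) (g : Matrix n a ℂ) {k : ℂ → Matrix a b ℂ}
    (hk : HolOn V k) : star e A g (fun z => A.charpoly.eval z • k z) = 0 := by
  ext i j
  rw [starE_apply, Matrix.zero_apply]
  have hM : HolOn V (fun z => z • (1 : Matrix n n ℂ) - A) := by
    intro i j
    simp only [Matrix.sub_apply, Matrix.smul_apply, smul_eq_mul]
    exact (differentiableOn_id.mul_const _).sub_const _
  have hK : DifferentiableOn ℂ
      (fun z => ((z • (1 : Matrix n n ℂ) - A).adjugate * g * k z) i j) V :=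
    (((adjugate_holOn hM).mul (HolOn.const g)).mul hk) i j
  rw [← curve_zero e V hs.isOpen hs.convex hs.curve _ hK]
  refine av_congr fun t ht => ?_
  have hu := res_isUnit hs t ht.ge
  have hd : IsUnit (e.G t • (1 : Matrix n n ℂ) - A).det := (Matrix.isUnit_iff_isUnit_det _).1 hu
  have hchi : A.charpoly.eval (e.G t) = (e.G t • (1 : Matrix n n ℂ) - A).det := by
    rw [Matrix.eval_charpoly, Matrix.scalar_apply, Matrix.smul_one_eq_diagonal]
  have h1 : A.charpoly.eval (e.G t) • RA e A t
      = (t * e.dG t) • (e.G t • (1 : Matrix n n ℂ) - A).adjugate := by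
    rw [hchi, RA, smul_comm]
    congr 1
    rw [Matrix.inv_def, smul_smul, Ring.mul_inverse_cancel _ hd, one_smul]
  rw [Matrix.mul_smul, ← Matrix.smul_mul, ← Matrix.smul_mul, h1, Matrix.smul_mul, Matrix.smul_mul,
    Matrix.smul_apply, smul_eq_mul]

end Crest.Agent.R132
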