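import Crest.Agent.R132.Defs

/-!
# Piece UNITARY : `M Mᴴ = N Nᴴ` implies `M = N U` with `U` unitary

`‖Mᴴ x‖ = ‖Nᴴ x‖` for all `x`, so `Nᴴ x ↦ Mᴴ x` is a well defined linear isometry from `range Nᴴ` into `EuclideanSpace ℂ c`;
extend it to a linear isometry of the whole space (`LinearIsometry.extend`), which is unitary; `U' Nᴴ = Mᴴ`, `U = U'ᴴ`.
-/

set_option autoImplicit false
open Matrix

namespace Crest.Agent.R132

theorem unitaryAux.norm_sq {n c : Type} [Fintype n] [DecidableEq n] [Fintype c] [DecidableEq c]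
    (M : Matrix n c ℂ) (x : EuclideanSpace ℂ n) :
    ((‖toEuclideanLin Mᴴ x‖ ^ 2 : ℝ) : ℂ) = Star.star x.ofLp ⬝ᵥ ((M * Mᴴ) *ᵥ x.ofLp) := by
  have h0 : ∀ y : EuclideanSpace ℂ c, ((‖y‖ ^ 2 : ℝ) : ℂ) = Star.star y.ofLp ⬝ᵥ y.ofLp := by
    intro y
    rw [EuclideanSpace.norm_sq_eq, dotProduct, Complex.ofReal_sum]
    refine Finset.sum_congr rfl fun i _ => ?_
    rw [Pi.star_apply, Complex.star_def, mul_comm, Complex.mul_conj, Complex.normSq_eq_norm_sq]
  rw [h0]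
  have h1 : (toEuclideanLin Mᴴ x).ofLp = Mᴴ *ᵥ x.ofLp := rfl
  rw [h1, star_mulVec, conjTranspose_conjTranspose, ← dotProduct_mulVec, mulVec_mulVec]

theorem exists_unitary {n c : Type} [Fintype n] [DecidableEq n] [Fintype c] [DecidableEq c]
    (M N : Matrix n c ℂ) (h : M * Mᴴ = N * Nᴴ) :
    ∃ U : Matrix c c ℂ, U * Uᴴ = 1 ∧ Uᴴ * U = 1 ∧ M = N * U := by
  let f : EuclideanSpace ℂ n →ₗ[ℂ] EuclideanSpace ℂ c := toEuclideanLin Nᴴ
  let g : EuclideanSpace ℂ n →ₗ[ℂ] EuclideanSpace ℂ c := toEuclideanLin Mᴴ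
  have hfg : ∀ x, ‖g x‖ = ‖f x‖ := by
    intro x
    have h1 : ((‖g x‖ ^ 2 : ℝ) : ℂ) = ((‖f x‖ ^ 2 : ℝ) : ℂ) := by
      rw [unitaryAux.norm_sq, unitaryAux.norm_sq, h]
    have h2 : ‖g x‖ ^ 2 = ‖f x‖ ^ 2 := by exact_mod_cast h1
    exact (pow_left_inj₀ (norm_nonneg _) (norm_nonneg _) two_ne_zero).mp h2
  have hker : LinearMap.ker f ≤ LinearMap.ker g := by
    intro x hx
    rw [LinearMap.mem_ker] at hx ⊢
    rw [← norm_eq_zero, hfg, hx, norm_zero]
  let L0 : LinearMap.range f →ₗ[ℂ] EuclideanSpace ℂ c :=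
    ((LinearMap.ker f).liftQ g hker) ∘ₗ (f.quotKerEquivRange.symm : _ →ₗ[ℂ] _)
  have hL0 : ∀ x, L0 ⟨f x, LinearMap.mem_range_self f x⟩ = g x := by
    intro x
    have h1 : f.quotKerEquivRange.symm ⟨f x, LinearMap.mem_range_self f x⟩ =
        (LinearMap.ker f).mkQ x := by
      rw [LinearEquiv.symm_apply_eq]
      rfl
    simp only [L0, LinearMap.comp_apply, LinearEquiv.coe_coe]
    rw [h1]
    rfl
  let L : LinearMap.range f →ₗᵢ[ℂ] EuclideanSpace ℂ c :=
    ⟨L0, by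
      rintro ⟨_, x, rfl⟩
      rw [hL0]
      exact hfg x⟩
  let E := L.extend
  let W : Matrix c c ℂ := (toEuclideanCLM (n := c) (𝕜 := ℂ)).symm E.toContinuousLinearMap
  have hW : toEuclideanCLM (n := c) (𝕜 := ℂ) W = E.toContinuousLinearMap :=
    (toEuclideanCLM (n := c) (𝕜 := ℂ)).apply_symm_apply _
  have hW1 : Wᴴ * W = 1 := by
    have hinj : Function.Injective (toEuclideanCLM (n := c) (𝕜 := ℂ)) := EquivLike.injective _
    apply hinj
    have hs : toEuclideanCLM (n := c) (𝕜 := ℂ) (Star.star W) =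
        Star.star (toEuclideanCLM (n := c) (𝕜 := ℂ) W) := map_star _ _
    rw [map_mul, ← star_eq_conjTranspose, hs, map_one, hW]
    exact (ContinuousLinearMap.norm_map_iff_adjoint_comp_self _).mp (fun x => E.norm_map x)
  have hWN : W * Nᴴ = Mᴴ := by
    apply Matrix.toLin'.injective
    refine LinearMap.ext fun x => ?_
    rw [Matrix.toLin'_apply, Matrix.toLin'_apply, ← mulVec_mulVec]
    have h1 : E (f (WithLp.toLp 2 x)) = g (WithLp.toLp 2 x) := by
      have h2 := LinearIsometry.extend_apply L ⟨f (WithLp.toLp 2 x), LinearMap.mem_range_self f _⟩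
      rw [show (L ⟨f (WithLp.toLp 2 x), LinearMap.mem_range_self f _⟩) = g (WithLp.toLp 2 x) from
        hL0 _] at h2
      exact h2
    have h3 : E (f (WithLp.toLp 2 x)) = toEuclideanCLM (n := c) (𝕜 := ℂ) W (f (WithLp.toLp 2 x)) := by
      rw [hW]; rfl
    rw [h3] at h1
    exact congrArg WithLp.ofLp h1
  refine ⟨Wᴴ, ?_, ?_, ?_⟩
  · rw [conjTranspose_conjTranspose]; exact hW1
  · rw [conjTranspose_conjTranspose]; exact mul_eq_one_comm.mp hW1
  · have h1 := congrArg conjTranspose hWN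
    rw [conjTranspose_mul, conjTranspose_conjTranspose, conjTranspose_conjTranspose] at h1
    exact h1.symm

end Crest.Agent.R132
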