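import Crest.Agent.R132.Transfer1
import Crest.Agent.R132.Star2
import Crest.Agent.R132.Unitary
import Crest.Agent.R132.Opt

/-!
# Piece TRANSFER : from multipliers to the extremal function

`X' = √X`, `Y' = √Y`, `Z = 𝒵 𝒵ᴴ` with `𝒵 = √Z` (`(n×m) × (n×m)`), `ζ = rsh 𝒵 : n × J`, `J = (n × m) × m`, `𝒯̂ζ = rsh (T * 𝒵)`.
`trm (𝒵 𝒵ᴴ) = rsh 𝒵 (rsh 𝒵)ᴴ`, `trm (T Z Tᴴ) = rsh (T 𝒵) (rsh (T 𝒵))ᴴ`.  With
`M = fromCols X' ζ`, `N = fromCols Y' (𝒯̂ζ)`: `M Mᴴ = N Nᴴ` (`hrel`), so `M = N U` (`exists_unitary`), i.e.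
`X' = Y' V11 + 𝒯̂ζ V21`, `ζ = Y' V12 + 𝒯̂ζ V22`.
By `hval`, `𝒯̂ζ = star ζ B`, `B z = htil (h z)`, and for every `g'` of the form `rsh Z'` (every `n × J` matrix is of this form!)
`rsh (T Z') = star (rsh Z') B`.
`q z = V12 (1 - B z V22)⁻¹`, `v z = V11 + q z B z V21`.
For any `g : Matrix n n`: `ζ_g = star g q` satisfies `ζ_g - (star ζ_g B) V22 = star g (q - q B V22) = star g (const V12) = g V12`, and
`star g v = g V11 + (star ζ_g B) V21`.
Uniqueness: `ξ = ζ - star Y' q` satisfies `ξ = (star ξ B) V22 = star ξ (B V22)`, so `star ξ (1 - B V22) = 0`, and applying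
`star · (1 - B V22)⁻¹`: `ξ = 0`.  Hence `ζ = star Y' q`, `X' = star Y' v`; and if `Y' = 0` then `ζ = 0`, `Z = 0`.
H-relation: `fromCols (star g v) ζ_g = fromCols g (star ζ_g B) * U`, `fromCols X' ζ = fromCols Y' (star ζ B) * U`; since `U Uᴴ = 1`,
`tr(X'ᴴ H star g v) + tr(ζᴴ H ζ_g) = tr(Y'ᴴ H g) + tr((star ζ B)ᴴ H (star ζ_g B))`, and with `ζ_g = rsh 𝒵_g`:
`tr((rsh (T𝒵))ᴴ H rsh (T 𝒵_g)) = tr ((T𝒵)ᴴ (H ⊗ 1) T 𝒵_g) = tr(𝒵ᴴ (H ⊗ 1) 𝒵_g) = tr (ζᴴ H ζ_g)`, because
`Gam T H * Z = 0` implies `Gam T H * 𝒵 = 0` (`𝒵 = √Z`, Hermitian), so `Tᴴ (H⊗1) T 𝒵 = (H ⊗ 1) 𝒵`.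
-/

set_option autoImplicit false
set_option linter.unusedSectionVars false
open Matrix
open scoped ComplexOrder Kronecker

namespace Crest.Agent.R132

variable {n m K : Type} [Fintype n] [DecidableEq n] [Fintype m] [DecidableEq m]
  [Fintype K] [DecidableEq K] {e : Ext} {A : Matrix n n ℂ} {V : Set ℂ}

theorem trm_mul_conjTranspose (Z : Matrix (n × m) K ℂ) :
    trm (Z * Zᴴ) = rsh Z * (rsh Z)ᴴ := by
  ext i j
  simp only [trm, rsh, Matrix.of_apply, Matrix.mul_apply, Matrix.conjTranspose_apply,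
    Fintype.sum_prod_type]
  rw [Finset.sum_comm]

theorem trace_rsh (Z W : Matrix (n × m) K ℂ) (H : Matrix n n ℂ) :
    ((rsh Z)ᴴ * H * rsh W).trace = (Zᴴ * (H ⊗ₖ (1 : Matrix m m ℂ)) * W).trace := by
  simp only [Matrix.trace, Matrix.diag_apply, Matrix.mul_apply, Matrix.conjTranspose_apply,
    rsh, Matrix.of_apply, Fintype.sum_prod_type, Matrix.kroneckerMap_apply, Matrix.one_apply,
    mul_ite, mul_one, mul_zero, Finset.sum_ite_eq, Finset.sum_ite_eq', Finset.mem_univ, if_true]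
  refine Finset.sum_congr rfl fun k _ => ?_
  rw [Finset.sum_comm]

theorem tr_rsh_surj (ζ : Matrix n (K × m) ℂ) : ∃ Z : Matrix (n × m) K ℂ, rsh Z = ζ :=
  ⟨Matrix.of fun p k => ζ p.1 (k, p.2), by ext i q; rfl⟩

theorem tr_rsh_eq_zero {Z : Matrix (n × m) K ℂ} (h : rsh Z = 0) : Z = 0 := by
  ext p k
  have := congrFun (congrFun h p.1) (k, p.2)
  simpa [rsh] using this

open scoped MatrixOrder in
theorem tr_psd_sqrt {a : Type} [Fintype a] [DecidableEq a] {X : Matrix a a ℂ}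
    (h : X.PosSemidef) : ∃ B : Matrix a a ℂ, B * Bᴴ = X := by
  obtain ⟨B, hB⟩ := CStarAlgebra.nonneg_iff_eq_star_mul_self.mp h.nonneg
  refine ⟨Bᴴ, ?_⟩
  rw [Matrix.conjTranspose_conjTranspose, hB]
  rfl

theorem tr_trace_fromBlocks {b c : Type} [Fintype b] [Fintype c] (X : Matrix b b ℂ)
    (Y : Matrix b c ℂ) (Z : Matrix c b ℂ) (W : Matrix c c ℂ) :
    (fromBlocks X Y Z W).trace = X.trace + W.trace := by
  simp [Matrix.trace, Fintype.sum_sum_type]

theorem tr_fromCols_mul_conjTranspose {a b c : Type} [Fintype a] [Fintype b] [Fintype c]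
    (X : Matrix a b ℂ) (Y : Matrix a c ℂ) :
    fromCols X Y * (fromCols X Y)ᴴ = X * Xᴴ + Y * Yᴴ := by
  rw [Matrix.conjTranspose_fromCols_eq_fromRows_conjTranspose, Matrix.fromCols_mul_fromRows]

theorem tr_fromCols_mul {a b c : Type} [Fintype b] [Fintype c]
    (X : Matrix a b ℂ) (Y : Matrix a c ℂ) (U : Matrix (b ⊕ c) (b ⊕ c) ℂ) :
    fromCols X Y * U = fromCols (X * U.toBlocks₁₁ + Y * U.toBlocks₂₁)
      (X * U.toBlocks₁₂ + Y * U.toBlocks₂₂) := by
  conv_lhs => rw [← Matrix.fromBlocks_toBlocks U]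
  rw [Matrix.fromCols_mul_fromBlocks]

theorem tr_trace_fromCols {a b c : Type} [Fintype a] [Fintype b] [Fintype c]
    (X X' : Matrix a b ℂ) (Y Y' : Matrix a c ℂ) (H : Matrix a a ℂ) :
    ((fromCols X Y)ᴴ * H * fromCols X' Y').trace =
      (Xᴴ * H * X').trace + (Yᴴ * H * Y').trace := by
  rw [Matrix.conjTranspose_fromCols_eq_fromRows_conjTranspose, Matrix.fromRows_mul,
    Matrix.fromRows_mul_fromCols, tr_trace_fromBlocks]

/-- facts on the transfer function -/
theorem tr_main (hs : Sit e A V) {J : Type} [Fintype J] [DecidableEq J]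
    (B : ℂ → Matrix J J ℂ) (hB : HolOn V B) (hB1 : ∀ z ∈ V, opn (B z) < 1)
    (U : Matrix (n ⊕ J) (n ⊕ J) ℂ) (hU : U * Uᴴ = 1) (Y' : Matrix n n ℂ) (ζ : Matrix n J ℂ)
    (hζ : ζ = Y' * U.toBlocks₁₂ + star e A ζ B * U.toBlocks₂₂) :
    ∃ (q : ℂ → Matrix n J ℂ) (v : ℂ → Matrix n n ℂ), HolOn V q ∧ HolOn V v ∧
      (∀ z ∈ V, opn (v z) ≤ 1) ∧ ζ = star e A Y' q ∧
      (∀ g : Matrix n n ℂ, star e A g q =
        g * U.toBlocks₁₂ + star e A (star e A g q) B * U.toBlocks₂₂) ∧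
      (∀ g : Matrix n n ℂ, star e A g v =
        g * U.toBlocks₁₁ + star e A (star e A g q) B * U.toBlocks₂₁) := by
  set V11 := U.toBlocks₁₁ with hV11
  set V12 := U.toBlocks₁₂ with hV12
  set V21 := U.toBlocks₂₁ with hV21
  set V22 := U.toBlocks₂₂ with hV22
  have hV22n : opn V22 ≤ 1 := opn_block22 U hU
  have hBV : ∀ z ∈ V, opn (B z * V22) < 1 := by
    intro z hz
    refine (opn_mul_le _ _).trans_lt ?_
    have h1 := hB1 z hz
    have h2 : 0 ≤ opn V22 := norm_nonneg _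
    have h3 : 0 ≤ opn (B z) := norm_nonneg _
    nlinarith
  have hunit : ∀ z ∈ V, IsUnit (1 - B z * V22) := fun z hz => isUnit_one_sub _ (hBV z hz)
  have hC : HolOn V (fun z => 1 - B z * V22) := by
    have h1 : HolOn V (fun z => B z * V22) := HolOn.mul hB (HolOn.const V22)
    intro i j
    exact (differentiableOn_const _).sub (h1 i j)
  have hCinv : HolOn V (fun z => (1 - B z * V22)⁻¹) := holOn_inv V hs.isOpen _ hC hunit
  have hBVh : HolOn V (fun z => B z * V22) := HolOn.mul hB (HolOn.const V22)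
  let q : ℂ → Matrix n J ℂ := fun z => V12 * (1 - B z * V22)⁻¹
  have hq : HolOn V q := HolOn.mul (HolOn.const V12) hCinv
  have hqB : HolOn V (fun z => q z * B z) := HolOn.mul hq hB
  have hqBV : HolOn V (fun z => q z * B z * V22) := HolOn.mul hqB (HolOn.const V22)
  let v : ℂ → Matrix n n ℂ := fun z => V11 + q z * B z * V21
  have hv : HolOn V v := HolOn.add (HolOn.const V11) (HolOn.mul hqB (HolOn.const V21))
  -- claim a
  have hga : ∀ g : Matrix n n ℂ, star e A g q =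
      g * V12 + star e A (star e A g q) B * V22 := by
    intro g
    have h1 : star e A (star e A g q) B * V22 = star e A g (fun z => q z * B z * V22) := by
      rw [star_star hs g hq hB, ← star_mul_const hs g hqB V22]
    rw [h1, ← star_const hs g V12, ← star_add hs g (HolOn.const V12) hqBV]
    apply star_congr hs g
    intro z hz
    have h2 : q z * (1 - B z * V22) = V12 := by
      show V12 * (1 - B z * V22)⁻¹ * (1 - B z * V22) = V12
      rw [Matrix.mul_assoc, Matrix.nonsing_inv_mul _ ((Matrix.isUnit_iff_isUnit_det _).1 (hunit z hz)),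
        Matrix.mul_one]
    rw [Matrix.mul_sub, Matrix.mul_one, ← Matrix.mul_assoc] at h2
    rw [← h2]
    simp
  have hgb : ∀ g : Matrix n n ℂ, star e A g v =
      g * V11 + star e A (star e A g q) B * V21 := by
    intro g
    have h1 : star e A (star e A g q) B * V21 = star e A g (fun z => q z * B z * V21) := by
      rw [star_star hs g hq hB, ← star_mul_const hs g hqB V21]
    rw [h1, ← star_const hs g V11, ← star_add hs g (HolOn.const V11)
      (HolOn.mul hqB (HolOn.const V21))]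
  refine ⟨q, v, hq, hv, ?_, ?_, hga, hgb⟩
  · intro z hz
    have := tf_contr U hU (B z) (hB1 z hz)
    exact this
  · -- uniqueness
    set ξ := ζ - star e A Y' q with hξ
    have e1 : ξ = star e A ξ (fun z => B z * V22) := by
      rw [star_mul_const hs ξ hB V22, hξ, star_sub_left hs _ _ hB, Matrix.sub_mul]
      have h1 := hga Y'
      calc ζ - star e A Y' q = (Y' * V12 + star e A ζ B * V22) -
            (Y' * V12 + star e A (star e A Y' q) B * V22) := by rw [← hζ, ← h1]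
        _ = _ := by abel
    have e2 : star e A ξ (fun z => 1 - B z * V22) = 0 := by
      have h3 : star e A ξ (fun _ => (1 : Matrix J J ℂ)) =
          star e A ξ (fun z => 1 - B z * V22) + star e A ξ (fun z => B z * V22) := by
        rw [← star_add hs ξ hC hBVh]
        congr 1
        funext z
        simp
      rw [star_const hs ξ 1, Matrix.mul_one, ← e1] at h3
      have h5 : star e A ξ (fun z => 1 - B z * V22) = ξ - ξ := by
        rw [eq_sub_iff_add_eq]; exact h3.symm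
      rw [h5, sub_self]
    have e3 : star e A (star e A ξ (fun z => 1 - B z * V22)) (fun z => (1 - B z * V22)⁻¹) =
        ξ := by
      rw [star_star hs ξ hC hCinv]
      have h4 : star e A ξ (fun z => (1 - B z * V22) * (1 - B z * V22)⁻¹) =
          star e A ξ (fun _ => (1 : Matrix J J ℂ)) := by
        apply star_congr hs ξ
        intro z hz
        exact Matrix.mul_nonsing_inv _ ((Matrix.isUnit_iff_isUnit_det _).1 (hunit z hz))
      rw [h4, star_const hs ξ 1, Matrix.mul_one]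
    rw [e2, star_zero_left] at e3
    exact sub_eq_zero.1 e3.symm

theorem transfer (hs : Sit e A V) (h : ℂ → Matrix m m ℂ) (hh : HolOn V h)
    (hlt : ∀ z ∈ V, opn (h z) < 1) (T : Matrix (n × m) (n × m) ℂ) (hval : IsVal e A h T)
    (X Y : Matrix n n ℂ) (Z : Matrix (n × m) (n × m) ℂ)
    (hX : X.PosSemidef) (hY : Y.PosSemidef) (hZ : Z.PosSemidef) (hrel : X + GamA T Z = Y) :
    ∃ (X' Y' : Matrix n n ℂ) (v : ℂ → Matrix n n ℂ), X' * X'ᴴ = X ∧ Y' * Y'ᴴ = Y ∧ HolOn V v ∧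
      (∀ z ∈ V, opn (v z) ≤ 1) ∧ X' = star e A Y' v ∧ (Y' = 0 → Z = 0) ∧
      (∀ H : Matrix n n ℂ, H.IsHermitian → Gam T H * Z = 0 → ∀ g : Matrix n n ℂ,
        (X'ᴴ * H * star e A g v).trace = (Y'ᴴ * H * g).trace) := by
  obtain ⟨X', hX'⟩ := tr_psd_sqrt hX
  obtain ⟨Y', hY'⟩ := tr_psd_sqrt hY
  obtain ⟨Z', hZ'⟩ := tr_psd_sqrt hZ
  let B : ℂ → Matrix ((n × m) × m) ((n × m) × m) ℂ := fun z => htil (K := n × m) (h z)
  have hB : HolOn V B := by
    intro p q
    show DifferentiableOn ℂ (fun z => if p.1 = q.1 then h z q.2 p.2 else 0) V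
    split_ifs
    · exact hh _ _
    · exact differentiableOn_const _
  have hB1 : ∀ z ∈ V, opn (B z) < 1 := fun z hz => (opn_htil (h z)).trans_lt (hlt z hz)
  have hvalB : ∀ W : Matrix (n × m) (n × m) ℂ, rsh (T * W) = star e A (rsh W) B := hval
  have hMN : fromCols X' (rsh Z') * (fromCols X' (rsh Z'))ᴴ =
      fromCols Y' (rsh (T * Z')) * (fromCols Y' (rsh (T * Z')))ᴴ := by
    rw [tr_fromCols_mul_conjTranspose, tr_fromCols_mul_conjTranspose, hX', hY',
      ← trm_mul_conjTranspose, ← trm_mul_conjTranspose, hZ', ← hrel]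
    have e1 : T * Z' * (T * Z')ᴴ = T * Z * Tᴴ := by
      rw [Matrix.conjTranspose_mul, ← hZ']
      simp only [Matrix.mul_assoc]
    have e2 : GamA T Z = trm Z - trm (T * Z * Tᴴ) := rfl
    rw [e1, e2]
    abel
  obtain ⟨U, hU, -, hMU⟩ := exists_unitary _ _ hMN
  rw [tr_fromCols_mul] at hMU
  obtain ⟨hX2, hζ⟩ := Matrix.fromCols_inj hMU
  rw [hvalB Z'] at hζ hX2
  obtain ⟨q, v, hq, hv, hv1, hζq, hga, hgb⟩ := tr_main hs B hB hB1 U hU Y' (rsh Z') hζ
  have hXv : X' = star e A Y' v := by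
    rw [hgb Y', ← hζq]
    exact hX2
  refine ⟨X', Y', v, hX', hY', hv, hv1, hXv, ?_, ?_⟩
  · intro h0
    rw [h0, star_zero_left] at hζq
    have := tr_rsh_eq_zero hζq
    rw [← hZ', this]
    simp
  · intro H hH hG g
    obtain ⟨Zg, hZg⟩ := tr_rsh_surj (star e A g q)
    have hθ : star e A (star e A g q) B = rsh (T * Zg) := by rw [← hZg, ← hvalB Zg]
    have hGZ : Gam T H * Z' = 0 := by
      have h1 : (Gam T H * Z') * (Gam T H * Z')ᴴ = 0 := by
        rw [Matrix.conjTranspose_mul, Matrix.mul_assoc, ← Matrix.mul_assoc Z', hZ',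
          ← Matrix.mul_assoc, hG, Matrix.zero_mul]
      exact Matrix.self_mul_conjTranspose_eq_zero.1 h1
    have hGH : (Gam T H)ᴴ = Gam T H := by
      unfold Gam
      rw [Matrix.conjTranspose_sub, Matrix.conjTranspose_mul, Matrix.conjTranspose_mul,
        Matrix.conjTranspose_kronecker, hH.eq, Matrix.conjTranspose_one,
        Matrix.conjTranspose_conjTranspose]
      simp only [Matrix.mul_assoc]
    have hGZ2 : Z'ᴴ * Gam T H = 0 := by
      rw [← hGH, ← Matrix.conjTranspose_mul, hGZ, Matrix.conjTranspose_zero]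
    -- the two factorizations
    have f1 : fromCols X' (rsh Z') = fromCols Y' (rsh (T * Z')) * U := by
      rw [tr_fromCols_mul]; exact hMU
    have f2 : fromCols (star e A g v) (star e A g q) = fromCols g (rsh (T * Zg)) * U := by
      rw [tr_fromCols_mul, ← hθ]
      congr 1
      · exact hgb g
      · exact hga g
    have t1 : ((fromCols X' (rsh Z'))ᴴ * H * fromCols (star e A g v) (star e A g q)).trace =
        ((fromCols Y' (rsh (T * Z')))ᴴ * H * fromCols g (rsh (T * Zg))).trace := by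
      rw [f1, f2, Matrix.conjTranspose_mul]
      have : Uᴴ * (fromCols Y' (rsh (T * Z')))ᴴ * H * (fromCols g (rsh (T * Zg)) * U) =
          Uᴴ * (((fromCols Y' (rsh (T * Z')))ᴴ * H * fromCols g (rsh (T * Zg))) * U) := by
        simp only [Matrix.mul_assoc]
      rw [this, Matrix.trace_mul_comm, Matrix.mul_assoc, hU, Matrix.mul_one]
    rw [tr_trace_fromCols, tr_trace_fromCols, ← hZg, trace_rsh, trace_rsh] at t1
    have t2 : (Z'ᴴ * (H ⊗ₖ (1 : Matrix m m ℂ)) * Zg).trace -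
        ((T * Z')ᴴ * (H ⊗ₖ (1 : Matrix m m ℂ)) * (T * Zg)).trace = 0 := by
      rw [← Matrix.trace_sub]
      have : Z'ᴴ * (H ⊗ₖ (1 : Matrix m m ℂ)) * Zg -
          (T * Z')ᴴ * (H ⊗ₖ (1 : Matrix m m ℂ)) * (T * Zg) = Z'ᴴ * Gam T H * Zg := by
        unfold Gam
        rw [Matrix.conjTranspose_mul, Matrix.mul_sub, Matrix.sub_mul]
        simp only [Matrix.mul_assoc]
      rw [this, hGZ2, Matrix.zero_mul, Matrix.trace_zero]
    have t3 := sub_eq_zero.1 t2
    rw [t3] at t1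
    exact add_right_cancel t1

end Crest.Agent.R132
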